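import Crest.Agent.X212.Wz78.Alg
import Crest.Agent.X212.Sob92.Der

/-! Connections, curvature, Dirac operator and the Weitzenboeck formula in a spanning frame. -/

open scoped Manifold ContDiff Topology
open Finset Filter

set_option linter.unusedSectionVars false

noncomputable section
namespace Crest.Agent.X212.Wz78
open Sob92

variable {E H : Type*} [NormedAddCommGroup E] [NormedSpace ℝ E] [TopologicalSpace H]
  {I : ModelWithCorners ℝ E H} {M : Type*} [TopologicalSpace M] [ChartedSpace H M]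
  {V W : Type*} [NormedAddCommGroup V] [NormedSpace ℝ V] [NormedAddCommGroup W] [NormedSpace ℝ W]
  {ι : Type*} [Fintype ι] [IsManifold I 1 M]

variable (I) in
/-- Smooth at a point. -/
abbrev SA (u : M → V) (x : M) : Prop := ContMDiffAt I 𝓘(ℝ, V) ∞ u x

theorem SA.md {u : M → V} {x : M} (h : SA I u x) : MDifferentiableAt I 𝓘(ℝ, V) u x :=
  h.mdifferentiableAt (by simp)

theorem SA.app {f : M → V →L[ℝ] W} {u : M → V} {x : M} (hf : SA I f x) (hu : SA I u x) :
    SA I (fun y => f y (u y)) x := hf.clm_apply hu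

theorem SA.sum {κ : Type*} (s : Finset κ) {u : κ → M → V} {x : M}
    (hu : ∀ i ∈ s, SA I (u i) x) : SA I (fun y => ∑ i ∈ s, u i y) x :=
  ContMDiffAt.sum hu

theorem SA.smul {f : M → ℝ} {u : M → V} {x : M} (hf : SA I f x) (hu : SA I u x) :
    SA I (fun y => f y • u y) x := ContMDiffAt.smul hf hu

theorem SA.mul {𝔸 : Type*} [NormedRing 𝔸] [NormedAlgebra ℝ 𝔸] {f g : M → 𝔸} {x : M}
    (hf : SA I f x) (hg : SA I g x) : SA I (fun y => f y * g y) x :=
  ((ContinuousLinearMap.mul ℝ 𝔸).contDiff.contMDiff.contMDiffAt.comp x hf).clm_apply hg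

theorem dv_mul {𝔸 : Type*} [NormedRing 𝔸] [NormedAlgebra ℝ 𝔸] {e : (x : M) → TangentSpace I x}
    {f g : M → 𝔸} {x : M} (hf : SA I f x) (hg : SA I g x) :
    dv I e (fun y => f y * g y) x = dv I e f x * g x + f x * dv I e g x :=
  dv_bil (ContinuousLinearMap.mul ℝ 𝔸) hf.md hg.md

theorem dv_add' {e : (x : M) → TangentSpace I x} {u v : M → V} {x : M} (hu : SA I u x)
    (hv : SA I v x) : dv I e (fun y => u y + v y) x = dv I e u x + dv I e v x :=
  dv_add hu.md hv.md

theorem dv_sub' {e : (x : M) → TangentSpace I x} {u v : M → V} {x : M} (hu : SA I u x)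
    (hv : SA I v x) : dv I e (fun y => u y - v y) x = dv I e u x - dv I e v x :=
  dv_sub hu.md hv.md

theorem dv_sum' {e : (x : M) → TangentSpace I x} {κ : Type*} (s : Finset κ) {u : κ → M → V}
    {x : M} (hu : ∀ i, SA I (u i) x) :
    dv I e (fun y => ∑ i ∈ s, u i y) x = ∑ i ∈ s, dv I e (u i) x :=
  dv_sum s fun i _ => (hu i).md

variable (I) in
/-- A smooth frame with Gram matrix `P` and structure functions `c`. -/
structure Frm (e : ι → (x : M) → TangentSpace I x) (P : ι → ι → M → ℝ)
    (c : ι → ι → ι → M → ℝ) : Prop where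
  se : ∀ a x, ContMDiffAt I I.tangent ∞ (fun x => (⟨x, e a x⟩ : TangentBundle I M)) x
  sP : ∀ a b x, SA I (P a b) x
  sc : ∀ a b k x, SA I (c a b k) x
  pr : ∀ x, Pr fun a b => P a b x
  proj : ∀ a x, ∑ b, P a b x • e b x = e a x
  br : ∀ a b (f : M → ℝ) x, SA I f x →
    dv I (e a) (dv I (e b) f) x - dv I (e b) (dv I (e a) f) x = ∑ k, c a b k x * dv I (e k) f x

variable (I) in
/-- Levi-Civita coefficients `Γ a b k = g(∇_{e a} e b, e k)`. -/
structure LC (e : ι → (x : M) → TangentSpace I x) (P : ι → ι → M → ℝ)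
    (c Γ : ι → ι → ι → M → ℝ) : Prop where
  sm : ∀ a b k x, SA I (Γ a b k) x
  proj : ∀ a b l x, ∑ k, Γ a b k x * P k l x = Γ a b l x
  met : ∀ a b k x, dv I (e a) (P b k) x = Γ a b k x + Γ a k b x
  tors : ∀ a b l x, Γ a b l x - Γ b a l x = ∑ k, c a b k x * P k l x

section defs
variable (I) (e : ι → (x : M) → TangentSpace I x)

/-- Covariant derivative `D_a + A_a`. -/
def nab (A : ι → M → V →L[ℝ] V) (a : ι) (u : M → V) : M → V :=
  fun x => dv I (e a) u x + A a x (u x)

/-- Curvature. -/
def curv (c : ι → ι → ι → M → ℝ) (A : ι → M → V →L[ℝ] V) (a b : ι) : M → V →L[ℝ] V :=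
  fun x => dv I (e a) (A b) x - dv I (e b) (A a) x + (A a x * A b x - A b x * A a x)
    - ∑ k, c a b k x • A k x

/-- Dirac operator. -/
def dir (ρ A : ι → M → V →L[ℝ] V) (u : M → V) : M → V := fun x => ∑ a, ρ a x (nab I e A a u x)

/-- Hessian. -/
def hess (Γ : ι → ι → ι → M → ℝ) (A : ι → M → V →L[ℝ] V) (a b : ι) (u : M → V) : M → V :=
  fun x => nab I e A a (nab I e A b u) x - ∑ k, Γ a b k x • nab I e A k u x

/-- Connection Laplacian `∇^*∇` for the divergences `g`. -/
def lap (g : ι → M → ℝ) (A : ι → M → V →L[ℝ] V) (u : M → V) : M → V :=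
  fun x => -∑ a, (nab I e A a (nab I e A a u) x + g a x • nab I e A a u x)

/-- The Weitzenboeck remainder. -/
def wK (c : ι → ι → ι → M → ℝ) (ρ A : ι → M → V →L[ℝ] V) : M → V →L[ℝ] V :=
  fun x => (1 / 2 : ℝ) • ∑ a, ∑ b, ρ a x * ρ b x * curv I e c A a b x

/-- A smooth connection one-form. -/
structure Con (P : ι → ι → M → ℝ) (A : ι → M → V →L[ℝ] V) : Prop where
  sm : ∀ a x, SA I (A a) x
  proj : ∀ a x, ∑ b, P a b x • A b x = A a x

/-- Clifford data with a compatible connection. -/
structure CC (P : ι → ι → M → ℝ) (Γ : ι → ι → ι → M → ℝ) (p : M → V →L[ℝ] V)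
    (ρ A : ι → M → V →L[ℝ] V) : Prop extends Con I P A where
  sp : ∀ x, SA I p x
  sρ : ∀ a x, SA I (ρ a) x
  cl : ∀ x, Cl (fun a b => P a b x) (p x) fun a => ρ a x
  par : ∀ a x, dv I (e a) p x + (A a x * p x - p x * A a x) = 0
  comp : ∀ a b x, dv I (e a) (ρ b) x + (A a x * ρ b x - ρ b x * A a x) = ∑ k, Γ a b k x • ρ k x

end defs

variable {e : ι → (x : M) → TangentSpace I x} {P : ι → ι → M → ℝ}
  {c Γ : ι → ι → ι → M → ℝ} {A ρ : ι → M → V →L[ℝ] V} {p : M → V →L[ℝ] V} {u : M → V} {x : M}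

theorem Frm.sD (F : Frm I e P c) (a : ι) (hu : SA I u x) : SA I (dv I (e a) u) x :=
  dv_smoothAt (F.se a x) hu

theorem SA.ev {u : M → V} (hu : SA I u x) : ∀ᶠ y in 𝓝 x, MDifferentiableAt I 𝓘(ℝ, V) u y :=
  ((contMDiffAt_iff_contMDiffAt_nhds (n := 1) (by simp)).1 (hu.of_le (by simp))).mono
    fun _ h => h.mdifferentiableAt (by simp)

theorem Frm.projD (F : Frm I e P c) (a : ι) (u : M → V) (x : M) :
    ∑ b, P a b x • dv I (e b) u x = dv I (e a) u x := by
  unfold dv
  rw [← F.proj a x, map_sum]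
  simp only [map_smul]
  rfl

/-- The bracket relation for vector valued functions. -/
theorem Frm.brV (F : Frm I e P c) (a b : ι) (hu : SA I u x) :
    dv I (e a) (dv I (e b) u) x - dv I (e b) (dv I (e a) u) x
      = ∑ k, c a b k x • dv I (e k) u x := by
  rw [SeparatingDual.eq_iff_forall_dual_eq (R := ℝ)]
  intro L
  have h1 : ∀ a b, dv I (e a) (dv I (e b) fun y => L (u y)) x = L (dv I (e a) (dv I (e b) u) x) :=
    fun a b => by
      rw [← dv_clm L (F.sD b hu).md]
      exact dv_congr (hu.ev.mono fun y hy => dv_clm L hy)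
  have := F.br a b (fun y => L (u y)) x (L.contDiff.contMDiff.contMDiffAt.comp x hu)
  rw [h1, h1] at this
  rw [map_sub, this, map_sum]
  exact sum_congr rfl fun k _ => by rw [dv_clm L hu.md, map_smul, smul_eq_mul]

theorem Frm.sN (F : Frm I e P c) (hA : ∀ a, SA I (A a) x) (a : ι) (hu : SA I u x) :
    SA I (nab I e A a u) x := (F.sD a hu).add ((hA a).app hu)

theorem nab_congr {u v : M → V} (a : ι) (h : u =ᶠ[𝓝 x] v) : nab I e A a u x = nab I e A a v x := by
  unfold nab; rw [dv_congr h, h.eq_of_nhds]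

theorem nab_add (a : ι) {u v : M → V} (hu : SA I u x) (hv : SA I v x) :
    nab I e A a (fun y => u y + v y) x = nab I e A a u x + nab I e A a v x := by
  simp only [nab, dv_add' hu hv, map_add]; abel

theorem nab_sub (a : ι) {u v : M → V} (hu : SA I u x) (hv : SA I v x) :
    nab I e A a (fun y => u y - v y) x = nab I e A a u x - nab I e A a v x := by
  simp only [nab, dv_sub' hu hv, map_sub]; abel

theorem nab_sum (a : ι) {κ : Type*} (s : Finset κ) {u : κ → M → V} (hu : ∀ i, SA I (u i) x) :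
    nab I e A a (fun y => ∑ i ∈ s, u i y) x = ∑ i ∈ s, nab I e A a (u i) x := by
  simp only [nab, dv_sum' s hu, map_sum, sum_add_distrib]

theorem nab_smul (a : ι) {f : M → ℝ} (hf : SA I f x) (hu : SA I u x) :
    nab I e A a (fun y => f y • u y) x = dv I (e a) f x • u x + f x • nab I e A a u x := by
  simp only [nab, dv_smul hf.md hu.md, map_smul, smul_add]; abel

/-- Leibniz rule for endomorphism fields. -/
theorem nab_app (a : ι) {T : M → V →L[ℝ] V} (hT : SA I T x) (hu : SA I u x) :
    nab I e A a (fun y => T y (u y)) x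
      = (dv I (e a) T x + (A a x * T x - T x * A a x)) (u x) + T x (nab I e A a u x) := by
  simp only [nab, dv_app hT.md hu.md, map_add, add_apply,
    sub_apply, mul_apply_eq_comp]
  abel

theorem Frm.projN (F : Frm I e P c) (hA : Con I P A) (a : ι) (u : M → V) (x : M) :
    ∑ b, P a b x • nab I e A b u x = nab I e A a u x := by
  simp only [nab, smul_add, sum_add_distrib, F.projD]
  rw [← hA.proj a x, _root_.sum_apply]
  rfl

/-- The commutator of covariant derivatives is the curvature. -/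
theorem Frm.nab_comm (F : Frm I e P c) (hA : ∀ a, SA I (A a) x) (a b : ι) (hu : SA I u x) :
    nab I e A a (nab I e A b u) x - nab I e A b (nab I e A a u) x
      - ∑ k, c a b k x • nab I e A k u x = curv I e c A a b x (u x) := by
  have h : ∀ a b, dv I (e a) (nab I e A b u) x = dv I (e a) (dv I (e b) u) x
      + (dv I (e a) (A b) x (u x) + A b x (dv I (e a) u x)) := fun a b => by
    rw [← dv_app (hA b).md hu.md]
    exact dv_add' (F.sD b hu) ((hA b).app hu)
  have h2 := F.brV a b hu
  rw [sub_eq_iff_eq_add] at h2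
  simp only [nab.eq_1 I e A a (nab I e A b u), nab.eq_1 I e A b (nab I e A a u), h, h2]
  simp only [nab, curv, map_add, smul_add, sum_add_distrib, add_apply,
    sub_apply, mul_apply_eq_comp, _root_.sum_apply,
    smul_apply]
  abel

theorem Frm.dP (F : Frm I e P c) (a l m : ι) (x : M) : dv I (e a) (P l m) x
    = ∑ k, (dv I (e a) (P l k) x * P k m x + P l k x * dv I (e a) (P k m) x) := by
  rw [show P l m = fun y => ∑ k, P l k y * P k m y from _root_.funext fun y => ((F.pr y).idem l m).symm,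
    dv_sum' _ fun k => (F.sP l k x).mul (F.sP k m x)]
  exact sum_congr rfl fun k _ => dv_mul (F.sP l k x) (F.sP k m x)

theorem Frm.PdPP (F : Frm I e P c) (a l m : ι) (x : M) :
    ∑ b, ∑ k, P l b x * dv I (e a) (P b k) x * P k m x = 0 := by
  have h : ∑ k, P l k x * dv I (e a) (P k m) x = ∑ b, P l b x *
      ∑ k, (dv I (e a) (P b k) x * P k m x + P b k x * dv I (e a) (P k m) x) :=
    sum_congr rfl fun b _ => by rw [← F.dP]
  have h2 : ∑ b, ∑ k, P l b x * (P b k x * dv I (e a) (P k m) x)
      = ∑ k, P l k x * dv I (e a) (P k m) x := by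
    rw [sum_comm]
    exact sum_congr rfl fun k _ => by
      rw [← (F.pr x).idem l k, sum_mul]; exact sum_congr rfl fun b _ => by ring
  simp only [mul_sum, mul_add, sum_add_distrib, h2] at h
  simp only [mul_assoc]
  linarith

/-- `DP` vanishes on projected arguments. -/
theorem Frm.dP_zero (F : Frm I e P c) (a : ι) (x : M) {T : ι → ι → W}
    (h1 : ∀ b k, ∑ l, P b l x • T l k = T b k) (h2 : ∀ b k, ∑ m, P k m x • T b m = T b k) :
    ∑ b, ∑ k, dv I (e a) (P b k) x • T b k = 0 := by
  have h : ∀ b k, T b k = ∑ l, ∑ m, (P b l x * P k m x) • T l m := fun b k => by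
    simp only [mul_smul, ← smul_sum, h2, h1]
  calc _ = ∑ b, ∑ k, ∑ l, ∑ m, (P l b x * dv I (e a) (P b k) x * P k m x) • T l m := by
        refine sum_congr rfl fun b _ => sum_congr rfl fun k _ => ?_
        rw [h b k]
        simp only [smul_sum, smul_smul]
        exact sum_congr rfl fun l _ => sum_congr rfl fun m _ => by
          rw [(F.pr x).symm b l]; ring_nf
    _ = ∑ l, ∑ m, (∑ b, ∑ k, P l b x * dv I (e a) (P b k) x * P k m x) • T l m := by
        simp only [sum_smul]
        rw [sum_congr rfl fun b _ => sum_comm, sum_comm]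
        refine sum_congr rfl fun l _ => ?_
        rw [sum_congr rfl fun b _ => sum_comm, sum_comm]
    _ = 0 := by simp only [F.PdPP, zero_smul, sum_const_zero]

theorem LC.proj2 (L : LC I e P c Γ) (F : Frm I e P c) (a l k : ι) (x : M) :
    ∑ b, P l b x * Γ a b k x = Γ a l k x - ∑ m, dv I (e a) (P l m) x * P m k x := by
  have h1 : ∑ b, P l b x * Γ a b k x = ∑ b, P l b x * dv I (e a) (P b k) x - Γ a k l x := by
    rw [← L.proj a k l x, ← sum_sub_distrib]
    exact sum_congr rfl fun b _ => by rw [L.met, (F.pr x).symm l b]; ring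
  have h2 := F.dP a l k x
  rw [sum_add_distrib] at h2
  have h3 := L.met a l k x
  linarith

theorem LC.hess_skew (L : LC I e P c Γ) (F : Frm I e P c) (hA : Con I P A) (a b : ι)
    (hu : SA I u x) :
    hess I e Γ A a b u x - hess I e Γ A b a u x = curv I e c A a b x (u x) := by
  rw [← F.nab_comm (fun a => hA.sm a x) a b hu]
  have h : ∑ k, c a b k x • nab I e A k u x
      = ∑ k, Γ a b k x • nab I e A k u x - ∑ k, Γ b a k x • nab I e A k u x := by
    simp only [← sum_sub_distrib, ← sub_smul, L.tors, sum_smul]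
    rw [sum_comm]
    exact sum_congr rfl fun k _ => by simp only [mul_smul, ← smul_sum, F.projN hA]
  rw [h]; unfold hess; abel

theorem LC.hess_proj (L : LC I e P c Γ) (F : Frm I e P c) (hA : Con I P A) (a l : ι)
    (hu : SA I u x) : ∑ b, P l b x • hess I e Γ A a b u x = hess I e Γ A a l u x := by
  have hn := fun b => F.sN (fun a => hA.sm a x) b hu
  have h1 : nab I e A a (nab I e A l u) x = ∑ b, (dv I (e a) (P l b) x • nab I e A b u x
      + P l b x • nab I e A a (nab I e A b u) x) := by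
    rw [show nab I e A l u = fun y => ∑ b, P l b y • nab I e A b u y from
      _root_.funext fun y => (F.projN hA l u y).symm, nab_sum a _ fun b => (F.sP l b x).smul (hn b)]
    exact sum_congr rfl fun b _ => nab_smul a (F.sP l b x) (hn b)
  have h2 : ∑ b, P l b x • ∑ k, Γ a b k x • nab I e A k u x = ∑ k, Γ a l k x • nab I e A k u x
      - ∑ b, dv I (e a) (P l b) x • nab I e A b u x := by
    simp only [smul_sum, smul_smul]
    rw [sum_comm]
    simp only [← sum_smul]
    simp only [L.proj2 F, sub_smul, sum_sub_distrib, sum_smul]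
    congr 1
    rw [sum_comm]
    exact sum_congr rfl fun k _ => by simp only [mul_smul, ← smul_sum, F.projN hA]
  simp only [hess, smul_sub, sum_sub_distrib, h2, h1, sum_add_distrib]
  abel

/-- The trace of the Hessian is minus the connection Laplacian. -/
theorem LC.lap_eq (L : LC I e P c Γ) (F : Frm I e P c) (hA : Con I P A) {g : ι → M → ℝ}
    (hg : ∀ k, g k x = ∑ a, Γ a k a x) (u : M → V) :
    lap I e g A u x = -∑ a, hess I e Γ A a a u x := by
  have h : ∑ a, ∑ k, dv I (e a) (P a k) x • nab I e A k u x = 0 := by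
    have h1 : ∀ a k, dv I (e a) (P a k) x = ∑ b, P a b x * dv I (e b) (P a k) x :=
      fun a k => (F.projD a (P a k) x).symm
    calc _ = ∑ b, ∑ a, ∑ k, dv I (e b) (P a k) x • (P a b x • nab I e A k u x) := by
          symm
          rw [sum_comm]
          refine sum_congr rfl fun a _ => ?_
          rw [sum_comm]
          refine sum_congr rfl fun k _ => ?_
          rw [h1, sum_smul]
          exact sum_congr rfl fun b _ => by rw [smul_smul, mul_comm]
      _ = 0 := sum_eq_zero fun b _ => F.dP_zero b x (T := fun a k => P a b x • nab I e A k u x)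
          (fun a k => by simp only [smul_smul, ← sum_smul, (F.pr x).idem])
          fun a k => by simp only [smul_comm (P k _ x), ← smul_sum, F.projN hA]
  simp only [L.met, add_smul, sum_add_distrib] at h
  simp only [lap, hess, sum_add_distrib, sum_sub_distrib, hg, sum_smul]
  rw [sum_comm (f := fun k a => Γ a k a x • nab I e A k u x), eq_neg_of_add_eq_zero_right h]
  abel

theorem CC.dir_sm (C : CC I e P Γ p ρ A) (F : Frm I e P c) (hu : SA I u x) :
    SA I (dir I e ρ A u) x :=
  SA.sum _ fun a _ => (C.sρ a x).app (F.sN (fun a => C.sm a x) a hu)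

theorem CC.dir_dir (C : CC I e P Γ p ρ A) (L : LC I e P c Γ) (F : Frm I e P c) (hu : SA I u x) :
    dir I e ρ A (dir I e ρ A u) x = ∑ a, ∑ b, (ρ a x * ρ b x) • hess I e Γ A a b u x := by
  have hn := fun b => F.sN (fun a => C.sm a x) b hu
  refine sum_congr rfl fun a _ => ?_
  have h1 : nab I e A a (dir I e ρ A u) x = ∑ b, ((∑ k, Γ a b k x • ρ k x) (nab I e A b u x)
      + ρ b x (nab I e A a (nab I e A b u) x)) := by
    unfold dir
    rw [nab_sum a _ fun b => (C.sρ b x).app (hn b)]
    exact sum_congr rfl fun b _ => by rw [nab_app a (C.sρ b x) (hn b), C.comp]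
  have h2 := F.dP_zero a x (T := fun b k => ρ k x (nab I e A b u x))
    (fun b k => by simp only [← map_smul, ← map_sum, F.projN C.toCon])
    fun b k => by rw [← (C.cl x).proj k, _root_.sum_apply]; rfl
  simp only [L.met, add_smul, sum_add_distrib] at h2
  rw [sum_comm (f := fun b k => Γ a k b x • ρ k x (nab I e A b u x))] at h2
  have h3 : nab I e A a (dir I e ρ A u) x = ∑ b, ρ b x (hess I e Γ A a b u x) := by
    simp only [h1, hess, map_sub, map_sum, map_smul, sum_add_distrib, sum_sub_distrib,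
      _root_.sum_apply, smul_apply]
    rw [eq_neg_of_add_eq_zero_left h2]; abel
  rw [h3, map_sum]
  rfl

/-- Weitzenboeck formula, general form. -/
theorem CC.weitz' (C : CC I e P Γ p ρ A) (L : LC I e P c Γ) (F : Frm I e P c) {g : ι → M → ℝ}
    (hg : ∀ k, g k x = ∑ a, Γ a k a x) (hu : SA I u x) :
    dir I e ρ A (dir I e ρ A u) x = p x (lap I e g A u x) + wK I e c ρ A x (u x) := by
  have : IsScalarTower ℝ (V →L[ℝ] V) V := ⟨fun _ _ _ => rfl⟩
  rw [C.dir_dir L F hu, (C.cl x).weitz, L.lap_eq F C.toCon hg]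
  simp only [L.hess_proj F C.toCon _ _ hu, L.hess_skew F C.toCon _ _ hu, wK, smul_apply,
    _root_.sum_apply, map_neg]
  rfl

theorem CC.p_nab (C : CC I e P Γ p ρ A) (a : ι) (hu : SA I u x) :
    nab I e A a (fun y => p y (u y)) x = p x (nab I e A a u x) := by
  rw [nab_app a (C.sp x) hu, C.par]; simp

theorem SA.ev1 {u : M → V} (hu : SA I u x) : ∀ᶠ y in 𝓝 x, ContMDiffAt I 𝓘(ℝ, V) 1 u y :=
  (contMDiffAt_iff_contMDiffAt_nhds (n := 1) (by simp)).1 (hu.of_le (by simp))

theorem CC.p_nab_ev (C : CC I e P Γ p ρ A) (a : ι) (hu : SA I u x)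
    (hp : ∀ᶠ y in 𝓝 x, p y (u y) = u y) :
    ∀ᶠ y in 𝓝 x, p y (nab I e A a u y) = nab I e A a u y := by
  filter_upwards [hu.ev, hp.eventually_nhds] with y hy hy'
  have h := C.par a y
  have h2 := dv_app (e := e a) (C.sp y).md hy
  rw [dv_congr (v := u) hy'] at h2
  have h3 := congrArg (fun T : V →L[ℝ] V => T (u y)) h
  simp only [add_apply, sub_apply, mul_apply_eq_comp, hy'.self_of_nhds, zero_apply] at h3
  simp only [nab, map_add]
  rw [h2, map_add, ← sub_eq_zero]
  have h4 := congrArg (p y) h2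
  rw [map_add] at h4
  rw [← h4, h2, ← neg_eq_zero, ← h3]; abel

/-- Weitzenboeck formula for sections of the bundle `p`. -/
theorem CC.weitz (C : CC I e P Γ p ρ A) (L : LC I e P c Γ) (F : Frm I e P c) {g : ι → M → ℝ}
    (hg : ∀ k, g k x = ∑ a, Γ a k a x) (hu : SA I u x) (hp : ∀ᶠ y in 𝓝 x, p y (u y) = u y) :
    dir I e ρ A (dir I e ρ A u) x = lap I e g A u x + wK I e c ρ A x (u x) := by
  rw [C.weitz' L F hg hu]
  congr 1
  have h1 := fun a => C.p_nab_ev a hu hp
  have h2 := fun a => (C.p_nab_ev a (F.sN (fun a => C.sm a x) a hu) (h1 a)).self_of_nhds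
  simp only [lap, map_neg, map_sum, map_add, map_smul, h2, fun a => (h1 a).self_of_nhds]

end Crest.Agent.X212.Wz78
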