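import Crest.Agent.X212.Wz78.Alg
import Crest.Agent.X212.Ind95.Alg

/-! Oriented orthonormal frames inside a spanning frame in dimension four. -/

open Finset

set_option linter.unusedSectionVars false

noncomputable section
namespace Crest.Agent.X212.Wz78
open Ind95 (eps sg E4 E4_eq)

variable {ι : Type*} [Fintype ι]

/-- The volume form of the frame `U`. -/
def vol (U : Fin 4 → ι → ℝ) (a b c d : ι) : ℝ := E4 fun i j k l => U i a * U j b * U k c * U l d

/-- An orthonormal frame of the range of `P`. -/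
structure On0 (P : ι → ι → ℝ) (U : Fin 4 → ι → ℝ) : Prop where
  on : ∀ i j, ∑ a, U i a * U j a = if i = j then 1 else 0
  pr : ∀ a b, ∑ i, U i a * U i b = P a b

/-- An oriented orthonormal frame of the range of `P`. -/
structure On (P : ι → ι → ℝ) (o : ι → ι → ι → ι → ℝ) (U : Fin 4 → ι → ℝ) : Prop
    extends On0 P U where
  vol : ∀ a b c d, o a b c d = vol U a b c d

theorem alt4 {f : Fin 4 → Fin 4 → Fin 4 → Fin 4 → ℝ} (h12 : ∀ a b c d, f a b c d = -f b a c d)
    (h23 : ∀ a b c d, f a b c d = -f a c b d) (h34 : ∀ a b c d, f a b c d = -f a b d c) :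
    ∀ a b c d, f a b c d = eps a b c d * f 0 1 2 3 := by
  have d12 : ∀ a c d, f a a c d = 0 := fun a c d => by linarith [h12 a a c d]
  have d23 : ∀ a c d, f a c c d = 0 := fun a c d => by linarith [h23 a c c d]
  have d34 : ∀ a c d, f a c d d = 0 := fun a c d => by linarith [h34 a c d d]
  have d13 : ∀ a c d, f a c a d = 0 := fun a c d => by rw [h12, d23, neg_zero]
  have d24 : ∀ a c d, f a c d c = 0 := fun a c d => by rw [h23, d34, neg_zero]
  have d14 : ∀ a c d, f a c d a = 0 := fun a c d => by rw [h12, d24, neg_zero]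
  have e1023 : f 1 0 2 3 = -f 0 1 2 3 := h12 _ _ _ _
  have e0213 : f 0 2 1 3 = -f 0 1 2 3 := h23 _ _ _ _
  have e0132 : f 0 1 3 2 = -f 0 1 2 3 := h34 _ _ _ _
  have e1203 : f 1 2 0 3 = f 0 1 2 3 := by rw [h23, e1023, neg_neg]
  have e1032 : f 1 0 3 2 = f 0 1 2 3 := by rw [h34, e1023, neg_neg]
  have e2013 : f 2 0 1 3 = f 0 1 2 3 := by rw [h12, e0213, neg_neg]
  have e0231 : f 0 2 3 1 = f 0 1 2 3 := by rw [h34, e0213, neg_neg]
  have e0312 : f 0 3 1 2 = f 0 1 2 3 := by rw [h23, e0132, neg_neg]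
  have e2103 : f 2 1 0 3 = -f 0 1 2 3 := by rw [h12, e1203]
  have e1230 : f 1 2 3 0 = -f 0 1 2 3 := by rw [h34, e1203]
  have e1302 : f 1 3 0 2 = -f 0 1 2 3 := by rw [h23, e1032]
  have e2031 : f 2 0 3 1 = -f 0 1 2 3 := by rw [h34, e2013]
  have e0321 : f 0 3 2 1 = -f 0 1 2 3 := by rw [h23, e0231]
  have e3012 : f 3 0 1 2 = -f 0 1 2 3 := by rw [h12, e0312]
  have e2130 : f 2 1 3 0 = f 0 1 2 3 := by rw [h34, e2103, neg_neg]
  have e1320 : f 1 3 2 0 = f 0 1 2 3 := by rw [h23, e1230, neg_neg]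
  have e3102 : f 3 1 0 2 = f 0 1 2 3 := by rw [h12, e1302, neg_neg]
  have e2301 : f 2 3 0 1 = f 0 1 2 3 := by rw [h23, e2031, neg_neg]
  have e3021 : f 3 0 2 1 = f 0 1 2 3 := by rw [h12, e0321, neg_neg]
  have e2310 : f 2 3 1 0 = -f 0 1 2 3 := by rw [h23, e2130]
  have e3120 : f 3 1 2 0 = -f 0 1 2 3 := by rw [h12, e1320]
  have e3201 : f 3 2 0 1 = -f 0 1 2 3 := by rw [h12, e2301]
  have e3210 : f 3 2 1 0 = f 0 1 2 3 := by rw [h12, e2310, neg_neg]
  simp [Fin.forall_fin_succ, eps, sg, d12, d23, d34, d13, d24, d14, e1023, e0213, e0132, e1203, e1032, e2013, e0231, e0312, e2103, e1230, e1302, e2031, e0321, e3012, e2130, e1320, e3102, e2301, e3021, e2310, e3120, e3201, e3210]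

variable {P : ι → ι → ℝ} {o : ι → ι → ι → ι → ℝ} {U : Fin 4 → ι → ℝ}

theorem exists_on0 (hP : Pr P) (h4 : ∑ a, P a a = 4) : ∃ U, On0 P U := by
  classical
  let T : EuclideanSpace ℝ ι →ₗ[ℝ] EuclideanSpace ℝ ι := Matrix.toEuclideanLin (Matrix.of P)
  have hT : ∀ v a, T v a = ∑ b, P a b * v b := fun _ _ => rfl
  have hi : IsIdempotentElem T := by
    ext v a
    simp only [Module.End.mul_apply, hT, mul_sum, ← mul_assoc]
    rw [sum_comm]
    simp only [← sum_mul, hP.idem]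
  have hr : Module.finrank ℝ (LinearMap.range T) = 4 := by
    have := (LinearMap.IsIdempotentElem.isProj_range T hi).trace
    rw [LinearMap.trace_eq_matrix_trace ℝ (EuclideanSpace.basisFun ι ℝ).toBasis] at this
    simp [Matrix.trace, LinearMap.toMatrix_apply, hT, h4] at this
    exact_mod_cast this.symm
  let b := (stdOrthonormalBasis ℝ (LinearMap.range T)).reindex (finCongr hr)
  refine ⟨fun i a => (b i).1 a, fun i j => ?_, fun a c => ?_⟩
  · rw [← orthonormal_iff_ite.1 b.orthonormal i j, Submodule.coe_inner, PiLp.inner_apply]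
    simp [mul_comm]
  · have h1 := congrArg (fun v : LinearMap.range T => v.1 a)
      (b.sum_repr' ⟨T (EuclideanSpace.single c 1), LinearMap.mem_range_self _ _⟩)
    have h2 : ∀ i, ∑ k, P c k * (b i).1 k = (b i).1 c := fun i => by
      obtain ⟨w, hw⟩ := (b i).2
      rw [← hT, ← hw, ← Module.End.mul_apply, hi.eq]
    simp [hT, Submodule.coe_inner, PiLp.inner_apply, fun k => hP.symm k c, h2] at h1
    simpa [mul_comm, hP.symm c a] using h1

theorem On0.exp (h : On0 P U) {g : ι → ℝ} (hg : ∀ a, ∑ k, P a k * g k = g a) (a : ι) :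
    g a = ∑ i, U i a * ∑ k, U i k * g k := by
  simp only [← hg a, ← h.pr, sum_mul, mul_sum, mul_assoc]
  exact sum_comm

theorem On0.UP (h : On0 P U) (i : Fin 4) (a : ι) : ∑ b, U i b * P b a = U i a := by
  simp only [← h.pr, mul_sum, ← mul_assoc]
  rw [sum_comm]
  simp [← sum_mul, h.on]

theorem On0.n2 (h : On0 P U) (X Y : Fin 4 → Fin 4 → ℝ) :
    ∑ c, ∑ d, (∑ k, ∑ l, X k l * (U k c * U l d)) * (∑ k, ∑ l, Y k l * (U k c * U l d))
      = ∑ k, ∑ l, X k l * Y k l := by
  have n1 : ∀ X Y : Fin 4 → ℝ, ∑ c, (∑ k, X k * U k c) * (∑ k, Y k * U k c) = ∑ k, X k * Y k :=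
    fun X Y => by
      have : ∀ c, (∑ k, X k * U k c) * (∑ k, Y k * U k c)
          = ∑ k, ∑ l, X k * Y l * (U k c * U l c) := fun c => by
        rw [sum_mul_sum]; exact sum_congr rfl fun _ _ => sum_congr rfl fun _ _ => by ring
      simp only [this]
      rw [sum_comm]
      refine sum_congr rfl fun k _ => ?_
      rw [sum_comm]
      simp [← mul_sum, h.on]
  have e : ∀ (X : Fin 4 → Fin 4 → ℝ) c d, ∑ k, ∑ l, X k l * (U k c * U l d)
      = ∑ l, (∑ k, X k l * U k c) * U l d := fun X c d => by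
    rw [sum_comm]; simp only [sum_mul, mul_assoc]
  simp only [e, n1]
  rw [sum_comm]
  simp only [n1]
  exact sum_comm

theorem vol_eq (U : Fin 4 → ι → ℝ) (a b c d : ι) : vol U a b c d
    = ∑ k, ∑ l, (∑ i, ∑ j, (eps i j k l : ℝ) * (U i a * U j b)) * (U k c * U l d) := by
  simp [vol, E4_eq, Fin.sum_univ_four, eps, sg]; ring

theorem On0.vol_sq (h : On0 P U) (a b e f : ι) :
    ∑ c, ∑ d, vol U a b c d * vol U e f c d = 2 * (P a e * P b f - P a f * P b e) := by
  simp only [vol_eq, h.n2, ← h.pr]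
  simp [Fin.sum_univ_four, eps, sg]; ring

theorem exists_on (hP : Pr P) (h4 : ∑ a, P a a = 4)
    (o12 : ∀ a b c d, o a b c d = -o b a c d) (o23 : ∀ a b c d, o a b c d = -o a c b d)
    (o34 : ∀ a b c d, o a b c d = -o a b d c) (oP : ∀ a b c d, ∑ k, P a k * o k b c d = o a b c d)
    (onm : ∑ a, ∑ b, ∑ c, ∑ d, o a b c d ^ 2 = 24) : ∃ U, On P o U := by
  obtain ⟨U, h⟩ := exists_on0 hP h4
  have oP2 : ∀ a b c d, ∑ k, P b k * o a k c d = o a b c d := fun a b c d => by
    simp only [o12 a, mul_neg, sum_neg_distrib, oP]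
  have oP3 : ∀ a b c d, ∑ k, P c k * o a b k d = o a b c d := fun a b c d => by
    simp only [o23 a b, mul_neg, sum_neg_distrib, oP2]
  have oP4 : ∀ a b c d, ∑ k, P d k * o a b c k = o a b c d := fun a b c d => by
    simp only [o34 a b c, mul_neg, sum_neg_distrib, oP3]
  have sw : ∀ (x y : ι → ℝ) (g : ι → ι → ℝ),
      ∑ a, x a * ∑ b, y b * g a b = ∑ b, y b * ∑ a, x a * g a b := fun x y g => by
    simp only [mul_sum]; rw [sum_comm]; simp only [mul_left_comm]
  let f : Fin 4 → Fin 4 → Fin 4 → Fin 4 → ℝ := fun i j k l =>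
    ∑ d, U l d * ∑ c, U k c * ∑ b, U j b * ∑ a, U i a * o a b c d
  have sw2 : ∀ (x y : ι → ℝ) {g : ι → ι → ℝ}, (∀ a b, g a b = -g b a) →
      ∑ b, y b * ∑ a, x a * g a b = -∑ b, x b * ∑ a, y a * g a b := fun x y g h => by
    rw [← sw, ← sum_neg_distrib]
    refine sum_congr rfl fun a _ => ?_
    rw [← mul_neg, ← sum_neg_distrib]
    exact congrArg _ (sum_congr rfl fun b _ => by rw [h, mul_neg])
  have a3 : ∀ i b c d, ∑ a, U i a * o a b c d = -∑ a, U i a * o a c b d := fun i b c d => by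
    simp only [fun a => o23 a b c d, mul_neg, sum_neg_distrib]
  have a4 : ∀ i j c d, ∑ b, U j b * ∑ a, U i a * o a b c d
      = -∑ b, U j b * ∑ a, U i a * o a b d c := fun i j c d => by
    simp only [fun a b => o34 a b c d, mul_neg, sum_neg_distrib]
  have hf := alt4 (f := f)
    (fun i j k l => by
      simp only [f, fun c d => sw2 (U i) (U j) fun a b => o12 a b c d, mul_neg, sum_neg_distrib])
    (fun i j k l => by
      simp only [f, fun d => sw2 (U j) (U k) fun b c => a3 i b c d, mul_neg, sum_neg_distrib])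
    fun i j k l => sw2 (U k) (U l) (a4 i j)
  have e : ∀ a b c d, o a b c d = f 0 1 2 3 * vol U a b c d := fun a b c d => by
    have e1 := h.exp (g := fun a => o a b c d) (fun a => oP a b c d) a
    have e2 := fun i => h.exp (g := fun b => ∑ a, U i a * o a b c d)
      (fun b => by simp only [sw (P b), oP2]) b
    have e3 := fun i j => h.exp (g := fun c => ∑ b, U j b * ∑ a, U i a * o a b c d)
      (fun c => by simp only [sw (P c), oP3]) c
    have e4 := fun i j k => h.exp (g := fun d => ∑ c, U k c * ∑ b, U j b * ∑ a, U i a * o a b c d)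
      (fun d => by simp only [sw (P d), oP4]) d
    rw [e1, sum_congr rfl fun i _ => by
      rw [e2 i, sum_congr rfl fun j _ => by
        rw [e3 i j, sum_congr rfl fun k _ => by
          rw [e4 i j k, sum_congr rfl fun l _ => congrArg (U l d * ·) (hf i j k l)]]]]
    simp only [vol, E4, mul_sum]
    refine sum_congr rfl fun i _ => sum_congr rfl fun j _ => sum_congr rfl fun k _ =>
      sum_congr rfl fun l _ => by ring
  generalize f 0 1 2 3 = t at e
  have h1 : t ^ 2 = 1 := by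
    have : ∑ a, ∑ b, ∑ c, ∑ d, o a b c d ^ 2 = t ^ 2 * 24 := by
      have h2 : ∑ a, ∑ b, 2 * (P a a * P b b - P a b * P b a) = 24 := by
        simp only [← mul_sum, sum_sub_distrib, hP.idem, ← sum_mul, h4]; norm_num
      simp only [← h2, ← h.vol_sq, mul_sum, e]
      refine sum_congr rfl fun i _ => sum_congr rfl fun j _ => sum_congr rfl fun k _ =>
        sum_congr rfl fun l _ => by ring
    linarith
  have h2 : ∀ i : Fin 4, (if i = 0 then t else 1) * (if i = 0 then t else 1) = 1 := fun i => by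
    split_ifs <;> nlinarith
  refine ⟨fun i a => (if i = 0 then t else 1) * U i a, ⟨fun i j => ?_, fun a b => ?_⟩,
    fun a b c d => ?_⟩
  · simp only [mul_mul_mul_comm _ (U i _), ← mul_sum, h.on]
    by_cases hij : i = j
    · rw [hij, h2, one_mul]
    · rw [if_neg hij, mul_zero]
  · simp only [mul_mul_mul_comm _ (U _ a), h2, one_mul, h.pr]
  · rw [e]; simp [vol, E4_eq]; ring

section cl
variable {𝔸 : Type*} [Ring 𝔸] [Algebra ℝ 𝔸] {p : 𝔸} {ρ : ι → 𝔸}

/-- The Clifford generators of the frame `U`. -/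
def rr (U : Fin 4 → ι → ℝ) (ρ : ι → 𝔸) (i : Fin 4) : 𝔸 := ∑ a, U i a • ρ a

theorem On0.rho (h : On0 P U) (C : Cl P p ρ) (a : ι) : ρ a = ∑ i, U i a • rr U ρ i := by
  simp only [rr, ← C.proj a, ← h.pr, smul_sum, smul_smul, sum_smul]
  exact sum_comm

theorem rr_mul (x y : ι → ℝ) :
    (∑ a, x a • ρ a) * ∑ b, y b • ρ b = ∑ a, ∑ b, (x a * y b) • (ρ a * ρ b) := by
  simp only [sum_mul_sum, smul_mul_smul_comm]

theorem On0.rel (h : On0 P U) (C : Cl P p ρ) (i j : Fin 4) :
    rr U ρ i * rr U ρ j + rr U ρ j * rr U ρ i = (if i = j then (-2 : ℝ) else 0) • p := by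
  rw [rr, rr, rr_mul, rr_mul, sum_comm (f := fun a b => (U j a * U i b) • (ρ a * ρ b))]
  simp only [← sum_add_distrib, mul_comm (U j _), ← smul_add, C.rel, smul_smul, ← sum_smul]
  congr 1
  have : ∀ a, ∑ b, U i a * U j b * (-2 * P a b) = -2 * (U i a * U j a) := fun a => by
    rw [← h.UP j a, mul_sum, mul_sum]
    exact sum_congr rfl fun b _ => by rw [← h.pr, ← h.pr]; simp only [mul_comm (U _ a)]; ring
  simp only [this, ← mul_sum, h.on]
  split_ifs <;> simp

theorem On0.cl4 (h : On0 P U) (C : Cl P p ρ) : Ind95.Cl (0 : 𝔸 →ₗ[ℝ] ℝ) (rr U ρ) p where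
  comm _ _ := rfl
  Pγ i := by simp only [rr, mul_sum, mul_smul_comm, C.pl]
  γP i := by simp only [rr, sum_mul, smul_mul_assoc, C.pr]
  sq i := by
    have := h.rel C i i
    rw [if_pos rfl, ← two_smul ℝ, neg_smul, ← smul_neg] at this
    exact smul_right_injective 𝔸 two_ne_zero this
  anti i j hij := by
    have := h.rel C i j
    rwa [if_neg hij, zero_smul, add_eq_zero_iff_eq_neg] at this

/-- The Clifford volume element. -/
def omA (o : ι → ι → ι → ι → ℝ) (ρ : ι → 𝔸) : 𝔸 :=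
  (1 / 24 : ℝ) • ∑ a, ∑ b, ∑ c, ∑ d, o a b c d • (ρ a * ρ b * ρ c * ρ d)

theorem sum_U2 (U : Fin 4 → ι → ℝ) (X : Fin 4 → Fin 4 → ℝ) :
    ∑ c, ∑ d, (∑ k, ∑ l, X k l * (U k c * U l d)) • (ρ c * ρ d)
      = ∑ k, ∑ l, X k l • (rr U ρ k * rr U ρ l) := by
  simp only [rr, rr_mul, sum_smul, smul_sum, smul_smul]
  rw [sum_congr rfl fun c _ => sum_comm, sum_comm]
  refine sum_congr rfl fun k _ => ?_
  rw [sum_congr rfl fun c _ => sum_comm, sum_comm]

theorem On.star_aux (h : On P o U) (a b : ι) : ∑ c, ∑ d, o a b c d • (ρ c * ρ d)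
    = ∑ i, ∑ j, (U i a * U j b) • ∑ k, ∑ l, (eps i j k l : ℝ) • (rr U ρ k * rr U ρ l) := by
  simp only [h.vol, vol_eq, sum_U2]
  simp only [sum_smul, smul_sum, smul_smul, mul_comm (U _ a * _)]
  rw [sum_congr rfl fun c _ => sum_comm, sum_comm]
  refine sum_congr rfl fun k _ => ?_
  rw [sum_congr rfl fun c _ => sum_comm, sum_comm]

theorem eps_two {γ : Fin 4 → 𝔸} (C : Ind95.Cl (0 : 𝔸 →ₗ[ℝ] ℝ) γ p) (i j : Fin 4) :
    ∑ k, ∑ l, (eps i j k l : ℝ) • (γ k * γ l) = -((γ i * γ j - γ j * γ i) * Ind95.om γ) := by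
  have e := fun i => (C.γP' i 1)
  have a10 := C.anti 1 0 (by decide)
  have a20 := C.anti 2 0 (by decide)
  have a30 := C.anti 3 0 (by decide)
  have a21 := C.anti 2 1 (by decide)
  have a31 := C.anti 3 1 (by decide)
  have a32 := C.anti 3 2 (by decide)
  revert i j
  simp [Fin.forall_fin_succ, Fin.sum_univ_four, eps, sg, Ind95.om, mul_assoc, C.s10, C.s20,
    C.s30, C.s21, C.s31, C.s32, C.sq', C.Pγ', C.γP, C.Pγ, C.sq, a10, a20, a30, a21, a31, a32,
    sub_eq_add_neg, add_mul]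

theorem On.om_eq (h : On P o U) (C : Cl P p ρ) : omA o ρ = Ind95.om (rr U ρ) := by
  have D := h.cl4 C
  have e : ∀ a b, ∑ c, ∑ d, o a b c d • (ρ a * ρ b * ρ c * ρ d)
      = ρ a * ρ b * ∑ c, ∑ d, o a b c d • (ρ c * ρ d) := fun a b => by
    simp only [mul_sum, mul_smul_comm, mul_assoc]
  have e2 : ∀ X : Fin 4 → Fin 4 → 𝔸, ∑ a, ∑ b, ρ a * ρ b * ∑ i, ∑ j, (U i a * U j b) • X i j
      = ∑ i, ∑ j, rr U ρ i * rr U ρ j * X i j := fun X => by
    simp only [rr, rr_mul]
    simp only [mul_sum, sum_mul, mul_smul_comm, smul_mul_assoc]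
    rw [sum_congr rfl fun c _ => sum_comm, sum_comm]
    refine sum_congr rfl fun k _ => ?_
    rw [sum_congr rfl fun c _ => sum_comm, sum_comm]
  simp only [omA, e, h.star_aux, e2, eps_two D]
  simp only [Fin.sum_univ_four, sub_mul, mul_sub, mul_assoc, D.s10, D.s20, D.s30, D.s21, D.s31,
    D.s32, D.sq', D.Pγ', D.P_om, mul_neg, neg_neg]
  module

theorem On.star (h : On P o U) (C : Cl P p ρ) (a b : ι) :
    ∑ c, ∑ d, o a b c d • (ρ c * ρ d) = -((ρ a * ρ b - ρ b * ρ a) * omA o ρ) := by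
  rw [h.star_aux, h.om_eq C, h.rho C a, h.rho C b, rr_mul, rr_mul,
    sum_comm (f := fun i j => (U i b * U j a) • (rr U ρ i * rr U ρ j))]
  simp only [eps_two (h.cl4 C), mul_comm (U _ b), ← sum_sub_distrib, ← smul_sub, sum_mul,
    smul_mul_assoc, smul_neg, sum_neg_distrib]

theorem On.om_om (h : On P o U) (C : Cl P p ρ) : omA o ρ * omA o ρ = p := by
  have D := h.cl4 C
  rw [h.om_eq C]
  simp [Ind95.om, mul_assoc, D.s10, D.s20, D.s30, D.s21, D.s31, D.s32, D.sq, D.γP]

theorem On.om_rho (h : On P o U) (C : Cl P p ρ) (a : ι) : omA o ρ * ρ a = -(ρ a * omA o ρ) := by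
  have D := h.cl4 C
  have a10 := D.anti 1 0 (by decide)
  have a20 := D.anti 2 0 (by decide)
  have a30 := D.anti 3 0 (by decide)
  have a31 := D.anti 3 1 (by decide)
  have a32 := D.anti 3 2 (by decide)
  rw [h.om_eq C, h.rho C a]
  simp [Fin.sum_univ_four, mul_add, add_mul, Ind95.om, mul_assoc, D.s10, D.s20, D.s30, D.s21,
    D.s31, D.s32, D.sq', D.Pγ', D.γP', D.sq, D.γP, a30, a31, a32]
  abel

end cl

end Crest.Agent.X212.Wz78
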