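import Mathlib

/-! Clifford algebra in a spanning (Parseval) frame: spin lift, the algebraic Lichnerowicz and
Weitzenboeck identities. -/

open Finset

noncomputable section
namespace Crest.Agent.X212.Wz78

variable {ι : Type*} [Fintype ι] {𝔸 : Type*} [Ring 𝔸] [Algebra ℝ 𝔸]

/-- A symmetric idempotent matrix. -/
structure Pr (P : ι → ι → ℝ) : Prop where
  symm : ∀ a b, P a b = P b a
  idem : ∀ a b, ∑ k, P a k * P k b = P a b

/-- Clifford relations for a spanning frame with Gram matrix `P` on the range of `p`. -/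
structure Cl (P : ι → ι → ℝ) (p : 𝔸) (ρ : ι → 𝔸) : Prop where
  rel : ∀ a b, ρ a * ρ b + ρ b * ρ a = (-2 * P a b) • p
  pl : ∀ a, p * ρ a = ρ a
  pr : ∀ a, ρ a * p = ρ a
  proj : ∀ a, ∑ b, P a b • ρ b = ρ a

/-- The spin lift of a skew matrix. -/
def spin (ρ : ι → 𝔸) (ω : ι → ι → ℝ) : 𝔸 := (1 / 4 : ℝ) • ∑ m, ∑ l, ω m l • (ρ m * ρ l)

variable {P : ι → ι → ℝ} {p : 𝔸} {ρ : ι → 𝔸}

theorem Cl.swap (h : Cl P p ρ) (a b : ι) : ρ b * ρ a = -(ρ a * ρ b) - (2 * P a b) • p := by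
  have := h.rel a b
  rw [neg_mul, neg_smul] at this
  rw [sub_eq_add_neg, ← this]; abel

theorem Cl.comm2 (h : Cl P p ρ) (m l c : ι) :
    ρ m * ρ l * ρ c - ρ c * (ρ m * ρ l) = (-2 * P l c) • ρ m + (2 * P m c) • ρ l := by
  have h1 : ρ m * (ρ l * ρ c + ρ c * ρ l) = (-2 * P l c) • ρ m := by
    rw [h.rel, mul_smul_comm, h.pr]
  have h2 : (ρ m * ρ c + ρ c * ρ m) * ρ l = (-2 * P m c) • ρ l := by
    rw [h.rel, smul_mul_assoc, h.pl]
  have h3 : (2 * P m c) • ρ l = -((-2 * P m c) • ρ l) := by rw [neg_mul, neg_smul, neg_neg]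
  rw [h3, ← h1, ← h2]; noncomm_ring

/-- The commutator of the spin lift with Clifford multiplication. -/
theorem Cl.spin_comm (h : Cl P p ρ) {ω : ι → ι → ℝ} (hs : ∀ m l, ω m l = -ω l m)
    (hp : ∀ m c, ∑ l, ω m l * P l c = ω m c) (c : ι) :
    spin ρ ω * ρ c - ρ c * spin ρ ω = ∑ l, ω c l • ρ l := by
  have e1 : ∑ m, ∑ l, ω m l • ((-2 * P l c) • ρ m) = (2 : ℝ) • ∑ l, ω c l • ρ l := by
    rw [smul_sum]
    refine sum_congr rfl fun m _ => ?_
    simp only [smul_smul, ← sum_smul]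
    congr 1
    rw [hs c m, ← hp m c, ← sum_neg_distrib, mul_sum]
    exact sum_congr rfl fun l _ => by ring
  have e2 : ∑ m, ∑ l, ω m l • ((2 * P m c) • ρ l) = (2 : ℝ) • ∑ l, ω c l • ρ l := by
    rw [sum_comm, smul_sum]
    refine sum_congr rfl fun l _ => ?_
    simp only [smul_smul, ← sum_smul]
    congr 1
    rw [hs c l, ← hp l c, ← sum_neg_distrib, mul_sum]
    exact sum_congr rfl fun m _ => by rw [hs m l]; ring
  have e3 : (∑ m, ∑ l, ω m l • (ρ m * ρ l)) * ρ c - ρ c * ∑ m, ∑ l, ω m l • (ρ m * ρ l)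
      = ∑ m, ∑ l, ω m l • ((-2 * P l c) • ρ m) + ∑ m, ∑ l, ω m l • ((2 * P m c) • ρ l) := by
    simp only [sum_mul, mul_sum, ← sum_sub_distrib, ← sum_add_distrib, smul_mul_assoc,
      mul_smul_comm, ← smul_sub, ← smul_add, h.comm2]
  unfold spin
  rw [smul_mul_assoc, mul_smul_comm, ← smul_sub, e3, e1, e2, ← add_smul, smul_smul]
  norm_num

theorem Cl.p_spin (h : Cl P p ρ) (ω : ι → ι → ℝ) : p * spin ρ ω = spin ρ ω := by
  simp only [spin, mul_smul_comm, mul_sum, ← mul_assoc, h.pl]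

theorem Cl.spin_p (h : Cl P p ρ) (ω : ι → ι → ℝ) : spin ρ ω * p = spin ρ ω := by
  simp only [spin, smul_mul_assoc, sum_mul, mul_assoc, h.pr]

theorem spin_add (ω η : ι → ι → ℝ) :
    spin ρ (fun m l => ω m l + η m l) = spin ρ ω + spin ρ η := by
  simp only [spin, add_smul, sum_add_distrib, smul_add]

theorem spin_sub (ω η : ι → ι → ℝ) :
    spin ρ (fun m l => ω m l - η m l) = spin ρ ω - spin ρ η := by
  simp only [spin, sub_smul, sum_sub_distrib, smul_sub]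

theorem spin_smul (t : ℝ) (ω : ι → ι → ℝ) : spin ρ (fun m l => t * ω m l) = t • spin ρ ω := by
  simp only [spin, mul_smul, ← smul_sum]
  rw [smul_comm]

theorem spin_sum {κ : Type*} (s : Finset κ) (ω : κ → ι → ι → ℝ) :
    spin ρ (fun m l => ∑ k ∈ s, ω k m l) = ∑ k ∈ s, spin ρ (ω k) := by
  simp only [spin, sum_smul, ← smul_sum]
  congr 1
  rw [sum_comm (s := s)]
  exact sum_congr rfl fun m _ => sum_comm

/-- A symmetric matrix contracts to its trace. -/
theorem Cl.sym_sum (h : Cl P p ρ) {S : ι → ι → ℝ} (hs : ∀ a b, S a b = S b a) :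
    ∑ a, ∑ b, S a b • (ρ a * ρ b) = (-∑ a, ∑ b, S a b * P a b) • p := by
  have e : ∑ a, ∑ b, S a b • (ρ a * ρ b) = ∑ a, ∑ b, S a b • (ρ b * ρ a) := by
    rw [sum_comm]; exact sum_congr rfl fun a _ => sum_congr rfl fun b _ => by rw [hs]
  have e2 : (2 : ℝ) • ∑ a, ∑ b, S a b • (ρ a * ρ b)
      = (2 : ℝ) • (-∑ a, ∑ b, S a b * P a b) • p := by
    rw [two_smul]
    nth_rewrite 2 [e]
    simp only [← sum_add_distrib, ← smul_add, h.rel, smul_smul, ← sum_smul]
    congr 1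
    simp only [mul_neg, mul_sum, ← sum_neg_distrib]
    exact sum_congr rfl fun a _ => sum_congr rfl fun b _ => by ring
  exact smul_right_injective 𝔸 (two_ne_zero) e2

/-- Contraction of a tensor with the first Bianchi identity against three Clifford generators. -/
theorem Cl.bianchi3 (h : Cl P p ρ) (hP : Pr P) {R : ι → ι → ι → ℝ}
    (hs : ∀ a b m, R a b m = -R b a m) (hb : ∀ a b m, R a b m + R b m a + R m a b = 0) :
    ∑ a, ∑ b, ∑ m, R a b m • (ρ a * ρ b * ρ m)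
      = (-2 : ℝ) • ∑ a, (∑ b, ∑ m, R a b m * P b m) • ρ a := by
  set T := ∑ a, ∑ b, ∑ m, R a b m • (ρ a * ρ b * ρ m) with hT
  set Q := ∑ a, (∑ b, ∑ m, R a b m * P b m) • ρ a with hQ
  have r1 : ∑ a, ∑ b, ∑ m, R b m a • (ρ a * ρ b * ρ m)
      = ∑ a, ∑ b, ∑ m, R a b m • (ρ m * ρ a * ρ b) := by
    rw [sum_comm]; exact sum_congr rfl fun a _ => sum_comm
  have r2 : ∑ a, ∑ b, ∑ m, R m a b • (ρ a * ρ b * ρ m)
      = ∑ a, ∑ b, ∑ m, R a b m • (ρ b * ρ m * ρ a) := by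
    symm; rw [sum_comm]; exact sum_congr rfl fun a _ => sum_comm
  have z : T + ∑ a, ∑ b, ∑ m, R a b m • (ρ m * ρ a * ρ b)
      + ∑ a, ∑ b, ∑ m, R a b m • (ρ b * ρ m * ρ a) = 0 := by
    rw [← r1, ← r2, hT]
    simp only [← sum_add_distrib, ← add_smul, hb, zero_smul, sum_const_zero]
  have c1 : ∀ a b m, ρ m * ρ a * ρ b
      = ρ a * ρ b * ρ m + (2 * P b m) • ρ a - (2 * P a m) • ρ b := fun a b m => by
    have := h.comm2 a b m
    rw [mul_assoc (ρ m), neg_mul, neg_smul] at *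
    rw [← sub_eq_zero]
    have e : ρ m * (ρ a * ρ b) = ρ a * ρ b * ρ m - (-((2 * P b m) • ρ a) + (2 * P a m) • ρ b) := by
      rw [← this]; abel
    rw [e]; abel
  have c2 : ∀ a b m, ρ b * ρ m * ρ a
      = ρ a * ρ b * ρ m + (2 * P a b) • ρ m - (2 * P a m) • ρ b := fun a b m => by
    have := h.comm2 b m a
    rw [neg_mul, neg_smul, hP.symm m a, hP.symm b a, ← mul_assoc] at this
    rw [← sub_eq_zero]
    have e : ρ b * ρ m * ρ a = ρ a * ρ b * ρ m + (-((2 * P a m) • ρ b) + (2 * P a b) • ρ m) := by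
      rw [← this]; abel
    rw [e]; abel
  have s1 : ∑ a, ∑ b, ∑ m, R a b m • ((2 * P b m) • ρ a) = (2 : ℝ) • Q := by
    rw [hQ, smul_sum]
    refine sum_congr rfl fun a _ => ?_
    simp only [smul_smul, ← sum_smul, mul_sum]
    congr 1
    exact sum_congr rfl fun b _ => sum_congr rfl fun m _ => by ring
  have s2 : ∑ a, ∑ b, ∑ m, R a b m • ((2 * P a m) • ρ b) = (-2 : ℝ) • Q := by
    rw [hQ, smul_sum, sum_comm]
    refine sum_congr rfl fun a _ => ?_
    simp only [smul_smul, ← sum_smul, mul_sum]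
    congr 1
    exact sum_congr rfl fun b _ => sum_congr rfl fun m _ => by rw [hs b a]; ring
  have s3 : ∑ a, ∑ b, ∑ m, R a b m • ((2 * P a b) • ρ m) = 0 := by
    rw [show ∑ a, ∑ b, ∑ m, R a b m • ((2 * P a b) • ρ m)
      = ∑ m, ∑ a, ∑ b, R a b m • ((2 * P a b) • ρ m) by
        symm; rw [sum_comm]; exact sum_congr rfl fun a _ => sum_comm]
    refine sum_eq_zero fun m _ => ?_
    simp only [smul_smul, ← sum_smul]
    have : ∑ a, ∑ b, R a b m * (2 * P a b) = -∑ a, ∑ b, R a b m * (2 * P a b) := by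
      conv_lhs => rw [sum_comm]
      simp only [← sum_neg_distrib]
      exact sum_congr rfl fun a _ => sum_congr rfl fun b _ => by rw [hs b a, hP.symm b a]; ring
    rw [show ∑ a, ∑ b, R a b m * (2 * P a b) = 0 by linarith, zero_smul]
  have u1 : ∑ a, ∑ b, ∑ m, R a b m • (ρ m * ρ a * ρ b) = T + (2 : ℝ) • Q - (-2 : ℝ) • Q := by
    rw [← s1, ← s2, hT]
    simp only [← sum_add_distrib, ← sum_sub_distrib, ← smul_add, ← smul_sub, ← c1]
  have u2 : ∑ a, ∑ b, ∑ m, R a b m • (ρ b * ρ m * ρ a) = T + 0 - (-2 : ℝ) • Q := by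
    rw [← s3, ← s2, hT]
    simp only [← sum_add_distrib, ← sum_sub_distrib, ← smul_add, ← smul_sub, ← c2]
  rw [u1, u2] at z
  have : (3 : ℝ) • T = (3 : ℝ) • (-2 : ℝ) • Q := by
    rw [← sub_eq_zero, ← z]; module
  exact smul_right_injective 𝔸 (by norm_num) this

/-- Algebraic curvature tensors. -/
structure Curv (R : ι → ι → ι → ι → ℝ) : Prop where
  s12 : ∀ a b m l, R a b m l = -R b a m l
  s34 : ∀ a b m l, R a b m l = -R a b l m
  bi : ∀ a b m l, R a b m l + R b m a l + R m a b l = 0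

omit [Fintype ι] in
theorem Curv.pair {R : ι → ι → ι → ι → ℝ} (h : Curv R) (a b m l : ι) :
    R a b m l = R m l a b := by
  have h1 := h.bi a b m l
  have h2 := h.bi b m l a
  have h3 := h.bi m l a b
  have h4 := h.bi l a b m
  have := h.s12 a b m l; have := h.s34 a b m l; have := h.s34 b m a l; have := h.s12 m a b l
  have := h.s12 l b m a; have := h.s34 m l a b; have := h.s12 l a m b; have := h.s34 a m l b
  have := h.s34 l a b m; have := h.s34 b l a m; have := h.s12 l b a m; have := h.s34 a b l m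
  have := h.s34 l b a m; have := h.s34 a m b l; have := h.s12 m l b a; have := h.s34 m l b a
  linarith

/-- Scalar curvature of an algebraic curvature tensor. -/
def scalT (P : ι → ι → ℝ) (R : ι → ι → ι → ι → ℝ) : ℝ :=
  ∑ a, ∑ l, (∑ b, ∑ m, R a b m l * P b m) * P a l

/-- Algebraic Lichnerowicz identity. -/
theorem Cl.lich (h : Cl P p ρ) (hP : Pr P) {R : ι → ι → ι → ι → ℝ} (hR : Curv R) :
    (1 / 2 : ℝ) • ∑ a, ∑ b, ρ a * ρ b * spin ρ (R a b) = (scalT P R / 4) • p := by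
  have e1 : ∑ a, ∑ b, ρ a * ρ b * spin ρ (R a b)
      = (1 / 4 : ℝ) • ∑ l, (∑ a, ∑ b, ∑ m, R a b m l • (ρ a * ρ b * ρ m)) * ρ l := by
    simp only [spin, mul_smul_comm, ← smul_sum]
    congr 1
    simp only [sum_mul, mul_sum, smul_mul_assoc, mul_smul_comm, mul_assoc]
    symm
    rw [sum_comm]
    refine sum_congr rfl fun a _ => ?_
    rw [sum_comm]
    exact sum_congr rfl fun b _ => sum_comm
  have e2 : ∀ l, ∑ a, ∑ b, ∑ m, R a b m l • (ρ a * ρ b * ρ m)
      = (-2 : ℝ) • ∑ a, (∑ b, ∑ m, R a b m l * P b m) • ρ a := fun l =>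
    h.bianchi3 hP (R := fun a b m => R a b m l) (fun a b m => hR.s12 a b m l)
      fun a b m => hR.bi a b m l
  have e3 : ∑ l, ((-2 : ℝ) • ∑ a, (∑ b, ∑ m, R a b m l * P b m) • ρ a) * ρ l
      = (-2 : ℝ) • ∑ a, ∑ l, (∑ b, ∑ m, R a b m l * P b m) • (ρ a * ρ l) := by
    simp only [smul_mul_assoc, ← smul_sum, sum_mul]
    rw [sum_comm]
  have e4 := h.sym_sum (S := fun a l => ∑ b, ∑ m, R a b m l * P b m) fun a l => by
    rw [sum_comm]
    exact sum_congr rfl fun b _ => sum_congr rfl fun m _ => by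
      rw [hR.pair a m b l, hR.s12 b l a m, hR.s34 l b a m, hP.symm m b, neg_neg]
  rw [e1]
  simp only [e2]
  rw [e3, e4, smul_smul, smul_smul, smul_smul, scalT]
  congr 1
  ring

variable {V : Type*} [AddCommGroup V] [Module ℝ V] [Module 𝔸 V] [IsScalarTower ℝ 𝔸 V]
  [SMulCommClass ℝ 𝔸 V]

/-- Algebraic Weitzenboeck identity: `H a b` is the Hessian. -/
theorem Cl.weitz (h : Cl P p ρ) (H : ι → ι → V) :
    ∑ a, ∑ b, (ρ a * ρ b) • H a b
      = -(p • ∑ a, ∑ b, P a b • H a b)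
        + (1 / 2 : ℝ) • ∑ a, ∑ b, (ρ a * ρ b) • (H a b - H b a) := by
  have e : ∑ a, ∑ b, (ρ a * ρ b) • H b a = ∑ a, ∑ b, (ρ b * ρ a) • H a b := sum_comm
  have e2 : ∑ a, ∑ b, (ρ a * ρ b) • H a b + ∑ a, ∑ b, (ρ b * ρ a) • H a b
      = (-2 : ℝ) • p • ∑ a, ∑ b, P a b • H a b := by
    simp only [← sum_add_distrib, ← add_smul, h.rel, smul_sum]
    exact sum_congr rfl fun a _ => sum_congr rfl fun b _ => by
      rw [smul_assoc, mul_smul, smul_comm (P a b) p]
  simp only [smul_sub, sum_sub_distrib, e]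
  rw [show ∑ a, ∑ b, (ρ b * ρ a) • H a b = (-2 : ℝ) • p • (∑ a, ∑ b, P a b • H a b)
    - ∑ a, ∑ b, (ρ a * ρ b) • H a b by rw [← e2]; abel]
  generalize p • (∑ a, ∑ b, P a b • H a b) = u
  generalize ∑ a, ∑ b, (ρ a * ρ b) • H a b = w
  module

end Crest.Agent.X212.Wz78
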