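import Crest.Agent.X212.Wz78.Mu

/-! Curvature decomposition and the Weitzenboeck formula for spin^u connections. -/

open scoped Manifold ContDiff Topology InnerProductSpace
open Finset Filter MeasureTheory

set_option linter.unusedSectionVars false

noncomputable section
namespace Crest.Agent.X212.Wz78
open An Sob92

variable {E : Type} [NormedAddCommGroup E] [NormedSpace ℝ E] [FiniteDimensional ℝ E]
  [MeasurableSpace E] [BorelSpace E]
  {HM : Type} [TopologicalSpace HM] {I : ModelWithCorners ℝ E HM}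
  {M : Type} [TopologicalSpace M] [ChartedSpace HM M] [IsManifold I ∞ M]
  [MeasurableSpace M] {ι : Type} [Fintype ι] {lam : Type} [Fintype lam]
  {m : Md M ι lam} {B : Base M ι lam} {G : Geo I M ι lam} {W : m.Cn} {x : M}

section skew
variable {V : Type*} [NormedAddCommGroup V] [InnerProductSpace ℝ V]
  {e : ι → (x : M) → TangentSpace I x} {c : ι → ι → ι → M → ℝ}

theorem skew_dv {T : M → V →L[ℝ] V} (hs : SA I T x) (h : ∀ y, Skew (T y)) (a : ι) :
    Skew (dv I (e a) T x) := fun v w => by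
  have h1 := dv_clm (e := e a) ((innerSL ℝ w).comp (ContinuousLinearMap.apply ℝ V v)
    + (innerSL ℝ v).comp (ContinuousLinearMap.apply ℝ V w)) hs.md
  have h2 : ∀ S : V →L[ℝ] V, ((innerSL ℝ w).comp (ContinuousLinearMap.apply ℝ V v)
    + (innerSL ℝ v).comp (ContinuousLinearMap.apply ℝ V w)) S = ⟪S v, w⟫_ℝ + ⟪v, S w⟫_ℝ :=
    fun S => by simp [real_inner_comm]
  simp only [h2, fun y => h y v w, neg_add_cancel, dv_const, Pi.zero_apply] at h1
  linarith

theorem skew_curv {A : ι → M → V →L[ℝ] V} (hs : ∀ a, SA I (A a) x) (h : ∀ a y, Skew (A a y))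
    (a b : ι) : Skew (curv I e c A a b x) := fun v w => by
  simp only [curv, sub_apply, add_apply, mul_apply_eq_comp, _root_.sum_apply, smul_apply,
    inner_sub_left, inner_add_left, inner_sub_right, inner_add_right, sum_inner, inner_sum,
    real_inner_smul_left, real_inner_smul_right, skew_dv (hs _) (h _) _ v, h _ x _, mul_neg,
    sum_neg_distrib]
  ring

end skew

theorem gfrm (hG : G.OK B) : Frm I G.F.e B.P G.F.c := hG.P ▸ frm G.F
theorem glc (hG : G.OK B) : LC I G.F.e B.P G.F.c G.F.Gam := hG.P ▸ lc_gam G.F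
theorem gsep (hG : G.OK B) : Sep I G.F.e B.P := hG.P ▸ sep G.F

open Classical in
variable (B G) in
/-- The curvature two-form of the line: `F = fL • il` on the line. -/
def fL (x : M) (s : ι × ι) : ℝ := -(1 / 2) * trE (B.il * curv I G.F.e G.F.c G.a s.1 s.2 x * B.l x)

variable (B G) in
/-- Its self-dual part. -/
def fP (x : M) (s : ι × ι) : ℝ := ∑ t, B.sd x s t * fL B G x t

variable (G) in
/-- Scalar curvature of the background. -/
abbrev sc : M → ℝ := scal I G.F.e G.F.c G.F.Gam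

section line
variable (hB : B.OK I) (hG : G.OK B)
include hG

theorem fL_swap (s : ι × ι) : fL B G x s.swap = -fL B G x s := by
  simp only [fL, Prod.fst_swap, Prod.snd_swap, (glc hG).curv_anti hG.con s.2, mul_neg, neg_mul,
    map_neg]

theorem fL_proj (a b : ι) : ∑ k, B.P a k x * fL B G x (k, b) = fL B G x (a, b) := by
  simp only [fL, ← (glc hG).curv_p1 (gfrm hG) (gsep hG) hG.con a b x, mul_sum, sum_mul, map_sum,
    mul_smul_comm, smul_mul_assoc, map_smul, smul_eq_mul]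
  exact sum_congr rfl fun _ _ => by ring

include hB

theorem sm_fL (s : ι × ι) : Sm I fun x => fL B G x s := fun x => by
  classical
  exact SA.mul contMDiffAt_const (SA.clm _ (SA.mul (SA.mul contMDiffAt_const
    ((gfrm hG).sCurv (fun a => hG.con.sm a x) _ _)) (hB.sl x)))

theorem curvL_eq (a b : ι) (x : M) :
    curv I G.F.e G.F.c G.a a b x * B.l x = fL B G x (a, b) • (B.il * B.l x) := by
  classical
  obtain ⟨t, h1, h2, h3⟩ := line_eq hB x
  have hs := fun a => hG.con.sm a x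
  have c1 := (gfrm hG).curv_par hs (hB.sl x) (fun a => Eventually.of_forall (hG.par a)) a b
  have c2 := (gfrm hG).curv_par hs (T := fun _ => B.il) contMDiffAt_const
    (fun a => Eventually.of_forall fun y => by simp [hG.il]) a b
  have c3 : Skew (curv I G.F.e G.F.c G.a a b x) := skew_curv hs hG.sk a b
  have h4 : ∀ v, B.il (B.il v) = -v := fun v => by rw [← mul_apply_eq_comp, hB.ilsq]; rfl
  have key : ∀ T : En lam, T * B.l x = B.l x * T → T * B.il = B.il * T → Skew T →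
      T * B.l x = ⟪B.il t, T t⟫_ℝ • (B.il * B.l x) := fun T c1 c2 c3 => by
    have e1 : T t = ⟪B.il t, T t⟫_ℝ • B.il t := by
      conv_lhs => rw [← h2, ← mul_apply_eq_comp, c1, mul_apply_eq_comp, h3, real_inner_comm,
        c3.self, zero_smul, zero_add]
    have e2 : T (B.il t) = B.il (T t) := by rw [← mul_apply_eq_comp, c2, mul_apply_eq_comp]
    generalize ⟪B.il t, T t⟫_ℝ = r at e1 ⊢
    ext1 v
    simp only [mul_apply_eq_comp, smul_apply, h3 v, map_add, map_smul, e2, e1]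
    module
  have e := key _ c1 c2 c3
  generalize ⟪B.il t, curv I G.F.e G.F.c G.a a b x t⟫_ℝ = r at e
  rw [fL, mul_assoc, e, mul_smul_comm, ← mul_assoc, hB.ilsq, map_smul, neg_one_mul, map_neg, trE_eq,
    hB.lrk]
  congr 1
  rw [smul_eq_mul]; ring

end line

section conn
variable (hB : B.OK I) (hG : G.OK B) (H : m.OK I B) (C : m.IsConn B G W)
include C

theorem curv_skw (a b : ι) (x : M) : Skw (curv I G.F.e G.F.c W a b x) :=
  skew_curv (fun a => C.cc.sm a x) C.sk a b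

theorem nabE_J (a : ι) (x : M) : nabE I G.F.e W a (fun _ => m.J) x = 0 := by simp [nabE, C.J]

theorem nabE_j (H : m.OK I B) (a : ι) {σ : M → Eu lam} (hσ : SA I σ x) :
    nabE I G.F.e W a (fun y => m.j y (σ y)) x = m.j x (nab I G.F.e G.a a σ x) := by
  rw [nabE, dv_app (SA.md (H.sj x)) hσ.md, nab, map_add, ← C.j a x (σ x), Pre.D_def]; abel

include hG

theorem curv_J (a b : ι) (x : M) :
    curv I G.F.e G.F.c W a b x * m.J = m.J * curv I G.F.e G.F.c W a b x :=
  (gfrm hG).curv_par (fun a => C.cc.sm a x) (T := fun _ => m.J) contMDiffAt_const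
    (fun a => Eventually.of_forall (nabE_J C a)) a b

theorem Fg_swap (s : ι × ι) : m.Fg G.F W x s.swap = -m.Fg G.F W x s := by
  simp only [Md.Fg, Prod.fst_swap, Prod.snd_swap, (glc hG).curv_anti C.cc.toCon s.2, map_neg]

theorem Fg_proj (a b : ι) : ∑ k, B.P a k x • m.Fg G.F W x (k, b) = m.Fg G.F W x (a, b) := by
  simp only [Md.Fg, ← (glc hG).curv_p1 (gfrm hG) (gsep hG) C.cc.toCon a b x, map_sum, map_smul]

theorem a2_Fg (s : ι × ι) : ∑ t, B.a2 x s t • m.Fg G.F W x t = m.Fg G.F W x s :=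
  a2_fix (T := fun a b => m.Fg G.F W x (a, b)) (fun a b => Fg_swap hG C (b, a)) (Fg_proj hG C) s

omit C hG in
theorem Fg_mem (F : Fr I M ι) (s : ι × ι) : m.Fg F W x s ∈ m.gS x := pg_mem x _

/-- Energy density, self-dual part and characteristic density. -/
theorem norm_Fg_sq (hB : B.OK I) : ‖m.Fg G.F W x‖ ^ 2
    = 2 * ‖m.p2 B x (m.Fg G.F W x)‖ ^ 2 + 128 * Real.pi ^ 2 * m.kd B G.F W x := by
  have h : m.p2 B x (m.Fg G.F W x) = (1 / 2 : ℝ) • (m.Fg G.F W x
      + idx (B.st x) (ContinuousLinearMap.id ℝ m.A) (m.Fg G.F W x)) := by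
    ext1 s
    simp only [Md.p2, idx_apply, pg_of_mem (Fg_mem _ _), Base.sd, div_eq_inv_mul, mul_smul,
      ← smul_sum, add_smul, sum_add_distrib, a2_Fg hG C, PiLp.smul_apply, PiLp.add_apply, mul_one,
      ContinuousLinearMap.id_apply]
  rw [← real_inner_self_eq_norm_sq (m.p2 B x _), inner_p2 hB, p2_p2 hB, h, real_inner_smul_right,
    inner_add_right, real_inner_self_eq_norm_sq, Md.kd]
  field_simp
  ring

include H

theorem curv_j (a b : ι) (x : M) (s : Eu lam) :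
    curv I G.F.e G.F.c W a b x * m.j x s - m.j x s * curv I G.F.e G.F.c W a b x
      = m.j x (curv I G.F.e G.F.c G.a a b x s) := by
  have hs := fun a => hG.con.sm a x
  have hc : ∀ y, SA I (fun _ : M => s) y := fun _ => contMDiffAt_const
  have h1 : ∀ b, nab I G.F.e (fun a y => ad _ (W a y)) b (fun y => m.j y s)
      = fun y => m.j y (nab I G.F.e G.a b (fun _ => s) y) :=
    fun b => _root_.funext fun y => nabE_j C H b (hc y)
  have h2 : ∀ a b, nab I G.F.e (fun a y => ad _ (W a y)) a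
      (fun y => m.j y (nab I G.F.e G.a b (fun _ => s) y)) x = _ :=
    fun a b => nabE_j C H a ((gfrm hG).sN hs b (hc x))
  have := (gfrm hG).nab_comm (A := fun a y => ad _ (W a y)) (fun a => SA.clm _ (C.cc.sm a x)) a b
    (SA.app (H.sj x) (hc x))
  rw [curv_ad fun a => C.cc.sm a x, ad_apply] at this
  rw [← this, ← (gfrm hG).nab_comm hs a b (hc x)]
  simp only [h1, h2, map_sub, map_sum, map_smul]

include hB

theorem tw_eq (a b : ι) (x : M) : tw I G.F.e G.F.c G.F.Gam m.p m.ρ W a b x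
    = (fL B G x (a, b) / 2) • (m.J * m.p x) + opL (m.Fg G.F W x (a, b)) := by
  have D := H.cl x
  have hR := (glc hG).Rm_s34 (gfrm hG) a b
  have hp := C.cc.curv_p (gfrm hG) a b x
  have cs : ∀ {T : En (Fin m.N)}, (∀ a, T * m.ρ a x = m.ρ a x * T) → ∀ w,
      T * spin (fun a => m.ρ a x) w = spin (fun a => m.ρ a x) w * T := fun h w => by
    simp only [spin, mul_smul_comm, smul_mul_assoc, mul_sum, sum_mul,
      fun a b => (Commute.mul_right (h a) (h b)).eq]
  have hg : hsL (tw I G.F.e G.F.c G.F.Gam m.p m.ρ W a b x - (fL B G x (a, b) / 2) • (m.J * m.p x))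
      ∈ m.gS x := by
    refine mem_g (fun v w => ?_) ?_ ?_ (fun k => ?_) fun s => ?_
    · have h1 : Skw (spin (fun a => m.ρ a x) fun k l => Rm I G.F.e G.F.c G.F.Gam a b k l x) :=
        fun v w => by
          simp only [spin, smul_apply, _root_.sum_apply, mul_apply_eq_comp, real_inner_smul_left,
            real_inner_smul_right, sum_inner, inner_sum, H.ρsk _ x _, neg_neg]
          rw [← mul_neg, sum_comm]
          simp only [← sum_neg_distrib, ← neg_mul, ← hR]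
      have h2 : ∀ T : En (Fin m.N), Skw T → T * m.p x = m.p x * T →
          ⟪(T * m.p x) v, w⟫_ℝ = -⟪v, (T * m.p x) w⟫_ℝ := fun T h h' => by
        conv_rhs => rw [h']
        rw [mul_apply_eq_comp, h, H.psym, ← mul_apply_eq_comp]
      simp only [tw, sub_apply, smul_apply, inner_sub_left, inner_sub_right, real_inner_smul_left,
        real_inner_smul_right, h1 v w, h2 _ (curv_skw C a b x) hp, h2 _ H.Jsk (H.Jp x)]
      ring
    · rw [tw, mul_sub, mul_sub, D.p_spin, hp, mul_smul_comm, H.Jp, ← mul_assoc, ← mul_assoc, H.pidem]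
    · rw [tw, mul_sub, mul_sub, sub_mul, sub_mul, cs fun a => H.Jρ a x, mul_smul_comm,
        smul_mul_assoc, mul_assoc, mul_assoc, ← H.Jp, ← mul_assoc, ← mul_assoc _ m.J (m.p x),
        ← curv_J hG C, mul_assoc]
    · rw [mul_sub, sub_mul, C.cc.tw_comm (glc hG) (gfrm hG), mul_smul_comm, smul_mul_assoc,
        mul_assoc, D.pl, ← mul_assoc, ← H.Jρ, mul_assoc, D.pr]
    · have h1 := curv_j hG H C a b x s
      have h2 : m.j x (curv I G.F.e G.F.c G.a a b x s) = fL B G x (a, b) • (m.J * m.j x s) := by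
        rw [← H.jl, ← mul_apply_eq_comp, ← (gfrm hG).curv_par (fun a => hG.con.sm a x) (hB.sl x)
          (fun a => Eventually.of_forall (hG.par a)), curvL_eq hB hG, smul_apply, map_smul,
          mul_apply_eq_comp, H.jil, H.jl]
      rw [h2, sub_eq_iff_eq_add] at h1
      rw [tw, mul_sub, mul_sub, sub_mul, sub_mul, cs fun a => H.jρ a x s, mul_smul_comm,
        smul_mul_assoc, mul_assoc, mul_assoc, H.pj, h1, hp, ← mul_assoc, j_p H, ← mul_assoc, H.jJ,
        neg_mul, mul_assoc, j_p H]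
      module
  have h3 := pg_of_mem hg
  rw [tw, map_sub, map_sub, map_sub, map_sub, map_smul, map_smul, pg_Jp hB H, pg_spin fun k l => hR k l x,
    pg_mul_p, smul_zero, sub_zero, sub_zero] at h3
  rw [show m.Fg G.F W x (a, b) = _ from h3, tw]
  simp

/-- The curvature of a spin^u connection. -/
theorem curv_eq (a b : ι) (x : M) : curv I G.F.e G.F.c W a b x * m.p x
    = spin (fun a => m.ρ a x) (fun k l => Rm I G.F.e G.F.c G.F.Gam a b k l x)
      + (fL B G x (a, b) / 2) • (m.J * m.p x) + opL (m.Fg G.F W x (a, b)) := by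
  rw [add_assoc, ← tw_eq hB hG H C, tw, add_sub_cancel]

omit hG in
theorem om_par (a : ι) (x : M) : nabE I G.F.e W a (m.om B) x = 0 :=
  C.cc.par_of_anti (sm_om H hB x) (Eventually.of_forall fun y b => om_rho hB H b y)
    (Eventually.of_forall (om_om hB H)) (Eventually.of_forall (p_om H))
    (fun T hT => by rw [Md.om, mul_smul_comm, smul_mul_assoc, comm_four hT]) a

omit hG in
theorem pp_par (a : ι) (x : M) : nabE I G.F.e W a (m.pp B) x = 0 := by
  unfold Md.pp
  rw [nabE_smul a contMDiffAt_const ((H.sp x).sub (sm_om H hB x)), nabE_sub a (H.sp x) (sm_om H hB x),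
    om_par hB H C, show nabE I G.F.e W a m.p x = 0 from C.cc.par a x]
  simp

omit hG in
theorem pm_par (a : ι) (x : M) : nabE I G.F.e W a (m.pm B) x = 0 := by
  unfold Md.pm
  rw [nabE_smul a (T := fun y => m.p y + m.om B y) contMDiffAt_const
    ((H.sp x).add (sm_om H hB x)), nabE_add a (H.sp x) (sm_om H hB x),
    om_par hB H C, show nabE I G.F.e W a m.p x = 0 from C.cc.par a x]
  simp

omit hG in
theorem pp_nab (a : ι) {u : M → m.V} (hu : SA I u x) :
    nab I G.F.e W a (fun y => m.pp B y (u y)) x = m.pp B x (nab I G.F.e W a u x) := by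
  rw [nab_app' a (sm_pp H hB x) hu, pp_par hB H C]; simp

omit hG in
theorem pm_nab (a : ι) {u : M → m.V} (hu : SA I u x) :
    nab I G.F.e W a (fun y => m.pm B y (u y)) x = m.pm B x (nab I G.F.e W a u x) := by
  rw [nab_app' a (sm_pm H hB x) hu, pm_par hB H C]; simp

omit hG in
theorem dir_pp {u : M → m.V} (hu : SA I u x) :
    dir I G.F.e m.ρ W (fun y => m.pp B y (u y)) x = m.pm B x (dir I G.F.e m.ρ W u x) := by
  simp only [dir, fun a => pp_nab hB H C a hu, map_sum, ← mul_apply_eq_comp, ← pm_rho hB H]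

omit hG in
theorem dir_pm {u : M → m.V} (hu : SA I u x) :
    dir I G.F.e m.ρ W (fun y => m.pm B y (u y)) x = m.pp B x (dir I G.F.e m.ρ W u x) := by
  simp only [dir, fun a => pm_nab hB H C a hu, map_sum, ← mul_apply_eq_comp, ← pp_rho hB H]

/-- The Weitzenboeck remainder of a spin^u connection. -/
theorem wK_eq (x : M) : wK I G.F.e G.F.c m.ρ W x = (sc G x / 4) • m.p x
    + (1 / 4 : ℝ) • ∑ s, fL B G x s • (rb m x s * m.J)
    + (1 / 2 : ℝ) • ∑ s, opL (m.Fg G.F W x s) * rb m x s := by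
  have h : ∀ X : ι × ι → En (Fin m.N), (∀ s, X s.swap = -X s) →
      ∑ a, ∑ b, m.ρ a x * m.ρ b x * X (a, b) = ∑ s, rb m x s * X s := fun X hX => by
    have : ∑ a, ∑ b, m.ρ b x * m.ρ a x * X (a, b) = -∑ a, ∑ b, m.ρ a x * m.ρ b x * X (a, b) := by
      rw [sum_comm]
      simp only [← sum_neg_distrib, ← mul_neg, ← hX, Prod.swap_prod_mk]
    simp only [rb, Fintype.sum_prod_type, smul_mul_assoc, sub_mul, ← smul_sum, sum_sub_distrib, this]
    module
  rw [C.cc.lich (glc hG) (gfrm hG) (gsep hG)]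
  simp only [tw_eq hB hG H C]
  rw [h (fun s => (fL B G x s / 2) • (m.J * m.p x) + opL (m.Fg G.F W x s)) fun s => by
    rw [fL_swap hG, Fg_swap hG C, map_neg, neg_div, neg_smul, neg_add]]
  simp only [mul_add, sum_add_distrib, mul_smul_comm, H.Jp, ← mul_assoc, rb_p H, div_eq_inv_mul,
    mul_smul, ← smul_sum, fun s => rb_comm (fun a => (g_ρ (Fg_mem (W := W) (x := x) G.F s) a).symm) s]
  module

theorem inner_wK {u : m.V} (hu : m.pp B x u = u) (v : m.V) :
    ⟪wK I G.F.e G.F.c m.ρ W x u, v⟫_ℝ = sc G x / 4 * ⟪u, v⟫_ℝ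
      + 1 / 4 * ∑ s, fP B G x s * ⟪rp m B x s (m.J u), v⟫_ℝ
      + 1 / 2 * ⟪m.Fg G.F W x, m.mu B x v u⟫_ℝ := by
  have h1 : m.p x u = u := by rw [← hu, ← mul_apply_eq_comp, p_pp H]
  have h2 : ∀ s, rb m x s u = rp m B x s u := fun s => by rw [rp, mul_apply_eq_comp, hu]
  have h3 : ∀ s, rb m x s (m.J u) = rp m B x s (m.J u) := fun s => by
    rw [rp, mul_apply_eq_comp, ← mul_apply_eq_comp (m.pp B x), ← J_pp H, mul_apply_eq_comp, hu]
  have h4 : ∑ s, fP B G x s • rp m B x s = ∑ s, fL B G x s • rp m B x s := by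
    simp only [fP, sum_smul]
    rw [sum_comm]
    simp only [fun s t => sd_symm hB x s t, mul_comm (B.sd x _ _), mul_smul, ← smul_sum, sd_rp hB H]
  have h5 := congrArg (fun T : En (Fin m.N) => ⟪T (m.J u), v⟫_ℝ) h4
  simp only [_root_.sum_apply, smul_apply, sum_inner, real_inner_smul_left] at h5
  simp only [wK_eq hB hG H C, add_apply, smul_apply, _root_.sum_apply, mul_apply_eq_comp, h1, h2, h3,
    inner_add_left, real_inner_smul_left, sum_inner, h5, inner_mu hB H, pg_of_mem (Fg_mem _ _)]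

omit C hG in
theorem abs_rp_le (f : ι × ι → ℝ) (u v : m.V) :
    |∑ s, f s * ⟪rp m B x s u, v⟫_ℝ| ≤ 4 * √(∑ s, f s ^ 2) * ‖u‖ * ‖v‖ := by
  refine abs_le_of_sq_le_sq ?_ (by positivity)
  have h1 := sum_mul_sq_le_sq_mul_sq univ f fun s => ⟪rp m B x s u, v⟫_ℝ
  have h2 : ∑ s, ⟪rp m B x s u, v⟫_ℝ ^ 2 ≤ ∑ s, ‖rp m B x s u‖ ^ 2 * ‖v‖ ^ 2 :=
    sum_le_sum fun s _ => by
      rw [← mul_pow]
      exact sq_le_sq' (neg_le_of_abs_le (abs_real_inner_le_norm _ _)) (real_inner_le_norm _ _)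
  rw [← sum_mul, sum_norm_rp hB H] at h2
  have h3 := mul_le_mul_of_nonneg_right
    (pow_le_pow_left₀ (norm_nonneg _) (norm_pp hB H (x := x) u) 2) (sq_nonneg ‖v‖)
  have h4 : 0 ≤ ∑ s, f s ^ 2 := by positivity
  simp only [mul_pow, Real.sq_sqrt h4]
  refine h1.trans ?_
  rw [show 4 ^ 2 * (∑ s, f s ^ 2) * ‖u‖ ^ 2 * ‖v‖ ^ 2 = (∑ s, f s ^ 2) * (16 * (‖u‖ ^ 2 * ‖v‖ ^ 2))
    by ring]
  exact mul_le_mul_of_nonneg_left (by nlinarith [sq_nonneg (‖u‖ * ‖v‖)]) h4

end conn

section sol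
variable [I.Boundaryless] [T2Space M] [BorelSpace M] {r n : ℕ} {c : Cfg M ι lam r}
  {τ : Pt M ι lam r n} (hB : B.OK I) (hG : G.OK B)
include hB hG

/-- Weitzenboeck formula for admissible configurations. -/
theorem adm_weitz (A : c.Adm B G) (x : M) (v : c.m.V) :
    ⟪dir I G.F.e c.m.ρ c.W (dir I G.F.e c.m.ρ c.W c.Φ) x, v⟫_ℝ
      = ⟪lap I G.F.e G.F.dv c.W c.Φ x, v⟫_ℝ + sc G x / 4 * ⟪c.Φ x, v⟫_ℝ
      + 1 / 4 * ∑ s, fP B G x s * ⟪rp c.m B x s (c.m.J (c.Φ x)), v⟫_ℝ
      + 1 / 2 * ⟪c.m.Fg G.F c.W x, c.m.mu B x v (c.Φ x)⟫_ℝ := by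
  rw [A.conn.cc.weitz (glc hG) (gfrm hG) (dv_gam hG.vol x) (A.sm x) (Eventually.of_forall fun y => by
    rw [← A.pos y, ← mul_apply_eq_comp, p_pp A.ok]), inner_add_left,
    inner_wK hB hG A.ok A.conn (A.pos x)]
  ring

omit hG in
theorem sol_mu (S : c.Sol B G τ) (x : M) (v : c.m.V) :
    ⟪c.m.Fg G.F c.W x, c.m.mu B x v (c.Φ x)⟫_ℝ
      = ⟪c.m.mu B x (c.Φ x) (c.Φ x) + τ.C c x, c.m.mu B x v (c.Φ x)⟫_ℝ := by
  have := S.C x
  rw [Cfg.eC, sub_sub, sub_eq_zero] at this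
  rw [← p2_mu hB, ← inner_p2 hB, this, p2_mu hB]

/-- Weitzenboeck identity for solutions. -/
theorem sol_weitz (S : c.Sol B G τ) (x : M) :
    ⟪lap I G.F.e G.F.dv c.W c.Φ x, c.Φ x⟫_ℝ
      = ⟪dir I G.F.e c.m.ρ c.W (τ.D c) x, c.Φ x⟫_ℝ - sc G x / 4 * ‖c.Φ x‖ ^ 2
      - 1 / 4 * ∑ s, fP B G x s * ⟪rp c.m B x s (c.m.J (c.Φ x)), c.Φ x⟫_ℝ
      - 1 / 2 * ‖c.m.mu B x (c.Φ x) (c.Φ x)‖ ^ 2
      - 1 / 2 * ⟪τ.C c x, c.m.mu B x (c.Φ x) (c.Φ x)⟫_ℝ := by
  have h := adm_weitz hB hG S.toAdm x (c.Φ x)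
  rw [show dir I G.F.e c.m.ρ c.W c.Φ = τ.D c from _root_.funext fun y => sub_eq_zero.1 (S.D y),
    sol_mu hB S, inner_add_left, real_inner_self_eq_norm_sq, real_inner_self_eq_norm_sq] at h
  rw [h]; ring

/-- Weitzenboeck inequality for solutions. -/
theorem sol_ineq (S : c.Sol B G τ) (x : M) :
    ⟪lap I G.F.e G.F.dv c.W c.Φ x, c.Φ x⟫_ℝ ≤ ⟪dir I G.F.e c.m.ρ c.W (τ.D c) x, c.Φ x⟫_ℝ
      + (√(∑ s, fP B G x s ^ 2) - sc G x / 4) * ‖c.Φ x‖ ^ 2 - (‖c.Φ x‖ ^ 2) ^ 2 / 576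
      + ‖τ.C c x‖ ^ 2 / 4 := by
  have h1 := neg_le_of_abs_le (abs_rp_le hB S.ok (x := x) (fP B G x) (c.m.J (c.Φ x)) (c.Φ x))
  have h2 : ‖c.m.J (c.Φ x)‖ = ‖c.Φ x‖ := by
    rw [← sq_eq_sq₀ (norm_nonneg _) (norm_nonneg _), ← real_inner_self_eq_norm_sq, S.ok.Jsk,
      ← mul_apply_eq_comp, S.ok.Jsq]
    simp
  have h3 := neg_le_of_abs_le (abs_real_inner_le_norm (τ.C c x) (c.m.mu B x (c.Φ x) (c.Φ x)))
  have h4 := pow_le_pow_left₀ (sq_nonneg _) (mu_proper hB S.ok (S.pos x)) 2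
  rw [h2] at h1
  rw [sol_weitz hB hG S]
  nlinarith [sq_nonneg (‖τ.C c x‖ - ‖c.m.mu B x (c.Φ x) (c.Φ x)‖)]

end sol

end Crest.Agent.X212.Wz78
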