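import Crest.Agent.X212.Wz78.Var
import Crest.Agent.X212.An.Gauge

/-! Calculus of `opL`, `hsL`, `adc`, `idx`, `pg`. -/

open scoped Manifold ContDiff Topology InnerProductSpace
open Finset Filter

set_option linter.unusedSectionVars false

noncomputable section
namespace Crest.Agent.X212.Wz78
open An

section lin
variable {κ : Type} [Fintype κ] [DecidableEq κ]

theorem opL_apply (ξ : HS κ) (v : Eu κ) (i : κ) : opL ξ v i = ∑ k, ξ (i, k) * v k := rfl

theorem hsL_apply (T : En κ) (ik : κ × κ) :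
    hsL T ik = T (EuclideanSpace.single ik.2 1) ik.1 := rfl

@[simp] theorem hsL_opL (ξ : HS κ) : hsL (opL ξ) = ξ := by
  ext ik; simp [hsL_apply, opL_apply]

theorem eu_sum (v : Eu κ) : ∑ k, v k • EuclideanSpace.single k (1 : ℝ) = v := by
  ext i; simp [Pi.single_apply]

@[simp] theorem opL_hsL (T : En κ) : opL (hsL T) = T := by
  ext v i
  conv_rhs => rw [← eu_sum v]
  simp [opL_apply, hsL_apply, mul_comm]

theorem opL_inj {ξ η : HS κ} (h : opL ξ = opL η) : ξ = η := by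
  rw [← hsL_opL ξ, h, hsL_opL]

/-- The trace. -/
def trE : CL (En κ) ℝ := ∑ k, (EuclideanSpace.proj k : CL (Eu κ) ℝ) ∘L
  ContinuousLinearMap.apply ℝ (Eu κ) (EuclideanSpace.single k 1)

theorem trE_apply (T : En κ) : trE T = ∑ k, T (EuclideanSpace.single k 1) k := by
  simp [trE]

theorem trE_eq (T : En κ) : trE T = LinearMap.trace ℝ _ (T : Eu κ →ₗ[ℝ] Eu κ) := by
  rw [trE_apply, LinearMap.trace_eq_matrix_trace ℝ (EuclideanSpace.basisFun κ ℝ).toBasis]
  simp [Matrix.trace, LinearMap.toMatrix_apply]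

theorem trE_comm (S T : En κ) : trE (S * T) = trE (T * S) := by
  rw [trE_eq, trE_eq]; exact LinearMap.trace_mul_comm ℝ (S : Eu κ →ₗ[ℝ] Eu κ) T

theorem inner_hsL (S T : En κ) : ⟪hsL S, hsL T⟫_ℝ
    = ∑ k, ⟪S (EuclideanSpace.single k 1), T (EuclideanSpace.single k 1)⟫_ℝ := by
  simp only [PiLp.inner_apply, Fintype.sum_prod_type, hsL_apply]
  exact sum_comm

theorem inner_hsL_skw {S : En κ} (hS : Skw S) (T : En κ) : ⟪hsL S, hsL T⟫_ℝ = -trE (S * T) := by
  simp [inner_hsL, hS _, trE_apply, EuclideanSpace.inner_single_left]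

theorem inner_hsL_sym {S : En κ} (hS : Sym S) (T : En κ) : ⟪hsL S, hsL T⟫_ℝ = trE (S * T) := by
  simp [inner_hsL, hS _, trE_apply, EuclideanSpace.inner_single_left]

theorem inner_skw {ξ : HS κ} (h : Skw (opL ξ)) (T : En κ) : ⟪ξ, hsL T⟫_ℝ = -trE (opL ξ * T) := by
  rw [← inner_hsL_skw h, hsL_opL]

omit [DecidableEq κ] in
@[simp] theorem rk1_apply (u v w : Eu κ) : rk1 u v w = ⟪v, w⟫_ℝ • u := rfl

theorem inner_rk1 (ξ : HS κ) (u v : Eu κ) : ⟪ξ, hsL (rk1 u v)⟫_ℝ = ⟪opL ξ v, u⟫_ℝ := by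
  conv_lhs => rw [← hsL_opL ξ, inner_hsL]
  conv_rhs => rw [← eu_sum v]
  simp [real_inner_smul_right, sum_inner, real_inner_smul_left, EuclideanSpace.inner_single_right]

theorem norm_opL_apply (ξ : HS κ) (v : Eu κ) : ‖opL ξ v‖ ≤ ‖ξ‖ * ‖v‖ := by
  refine (abs_le_of_sq_le_sq' ?_ (by positivity)).2
  rw [mul_pow, EuclideanSpace.real_norm_sq_eq, EuclideanSpace.real_norm_sq_eq,
    EuclideanSpace.real_norm_sq_eq, Fintype.sum_prod_type, sum_mul]
  exact sum_le_sum fun i _ => sum_mul_sq_le_sq_mul_sq _ _ _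

theorem norm_hsL_rk1 (u v : Eu κ) : ‖hsL (rk1 u v)‖ = ‖u‖ * ‖v‖ := by
  rw [← sq_eq_sq₀ (norm_nonneg _) (by positivity), ← real_inner_self_eq_norm_sq, inner_rk1, opL_hsL,
    rk1_apply, real_inner_smul_left, real_inner_self_eq_norm_sq, real_inner_self_eq_norm_sq]
  ring

theorem adc_apply (A : En κ) (ξ : HS κ) : adc A ξ = hsL (A * opL ξ - opL ξ * A) := rfl

@[simp] theorem opL_adc (A : En κ) (ξ : HS κ) : opL (adc A ξ) = A * opL ξ - opL ξ * A := by
  rw [adc_apply, opL_hsL]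

/-- `adc` as a continuous linear map. -/
def adcL : CL (En κ) (En (κ × κ)) :=
  ((ContinuousLinearMap.compL ℝ (HS κ) (En κ) (HS κ) hsL).comp
    ((ContinuousLinearMap.compL ℝ (HS κ) (En κ) (En κ)).flip opL)).comp (ad (Eu κ))

theorem adcL_apply (A : En κ) : adcL A = adc A := rfl

theorem adc_lie (A B : En κ) : adc (A * B - B * A) = adc A * adc B - adc B * adc A := by
  ext1 ξ
  refine opL_inj ?_
  simp only [opL_adc, sub_apply, mul_apply_eq_comp, map_sub]
  noncomm_ring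

theorem inner_mul_l {A : En κ} (hA : Skw A) (S T : En κ) :
    ⟪hsL (A * S), hsL T⟫_ℝ = -⟪hsL S, hsL (A * T)⟫_ℝ := by
  simp only [inner_hsL, mul_apply_eq_comp, hA _, sum_neg_distrib]

/-- The transpose of an endomorphism. -/
theorem inner_trn (S T : En κ) : ⟪hsL S, hsL T⟫_ℝ = trE (trn S * T) := by
  simp [inner_hsL, trE_apply, ← ContinuousLinearMap.adjoint_inner_right,
    EuclideanSpace.inner_single_left]

omit [DecidableEq κ] in
theorem Skw.trn {A : En κ} (hA : Skw A) : trn A = -A := by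
  symm; rw [ContinuousLinearMap.eq_adjoint_iff]
  intro v w; simp [hA v w]

omit [DecidableEq κ] in
theorem Sym.trn {A : En κ} (hA : Sym A) : trn A = A := by
  symm; rw [ContinuousLinearMap.eq_adjoint_iff]
  exact hA

omit [DecidableEq κ] in
theorem trn_mul (S T : En κ) : trn (S * T) = trn T * trn S := ContinuousLinearMap.adjoint_comp S T

theorem inner_mul_r {A : En κ} (hA : Skw A) (S T : En κ) :
    ⟪hsL (S * A), hsL T⟫_ℝ = -⟪hsL S, hsL (T * A)⟫_ℝ := by
  rw [inner_trn, inner_trn, trn_mul, Skw.trn hA, neg_mul, neg_mul, map_neg, mul_assoc, trE_comm,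
    mul_assoc]

theorem adc_skw {A : En κ} (hA : Skw A) : Skw (adc A) := fun ξ η => by
  conv_lhs => rw [← hsL_opL η]
  conv_rhs => rw [← hsL_opL ξ]
  simp only [adc_apply, map_sub, inner_sub_left, inner_sub_right, inner_mul_l hA, inner_mul_r hA]
  ring

end lin

section idx
variable {α V : Type} [Fintype α] [NormedAddCommGroup V] [InnerProductSpace ℝ V]

@[simp] theorem idx_apply (S : α → α → ℝ) (T : V →L[ℝ] V) (η : Fm α V) (a : α) :
    idx S T η a = ∑ b, S a b • T (η b) := by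
  simp [idx]

theorem idx_idx (S S' : α → α → ℝ) (T T' : V →L[ℝ] V) (η : Fm α V) :
    idx S T (idx S' T' η) = idx (fun a c => ∑ b, S a b * S' b c) (T * T') η := by
  ext a
  simp only [idx_apply, map_sum, map_smul, smul_sum, smul_smul, sum_smul, mul_apply_eq_comp]
  exact sum_comm

theorem inner_idx {S : α → α → ℝ} {T : V →L[ℝ] V} (hS : ∀ a b, S a b = S b a)
    (hT : ∀ v w, ⟪T v, w⟫_ℝ = ⟪v, T w⟫_ℝ) (η ζ : Fm α V) :
    ⟪idx S T η, ζ⟫_ℝ = ⟪η, idx S T ζ⟫_ℝ := by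
  simp only [PiLp.inner_apply, idx_apply, sum_inner, inner_sum, real_inner_smul_left,
    real_inner_smul_right, hT]
  rw [sum_comm]
  exact sum_congr rfl fun a _ => sum_congr rfl fun b _ => by rw [hS]

end idx

section pg
variable {E : Type} [NormedAddCommGroup E] [NormedSpace ℝ E] [FiniteDimensional ℝ E]
  [MeasurableSpace E] [BorelSpace E]
  {HM : Type} [TopologicalSpace HM] {I : ModelWithCorners ℝ E HM}
  {M : Type} [TopologicalSpace M] [ChartedSpace HM M] [IsManifold I ∞ M]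
  [MeasurableSpace M] {ι : Type} [Fintype ι] {lam : Type} [Fintype lam]
  {m : Md M ι lam} {B : Base M ι lam} {x : M} {ξ η : m.A}

theorem pg_mem (x : M) (ξ : m.A) : m.pg x ξ ∈ m.gS x := (m.gS x).starProjection_apply_mem ξ

theorem pg_of_mem (h : ξ ∈ m.gS x) : m.pg x ξ = ξ :=
  Submodule.starProjection_eq_self_iff.2 h

@[simp] theorem pg_pg (x : M) (ξ : m.A) : m.pg x (m.pg x ξ) = m.pg x ξ := pg_of_mem (pg_mem x ξ)

theorem inner_pg (x : M) (ξ η : m.A) : ⟪m.pg x ξ, η⟫_ℝ = ⟪ξ, m.pg x η⟫_ℝ :=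
  (m.gS x).inner_starProjection_left_eq_right ξ η

theorem norm_pg (x : M) (ξ : m.A) : ‖m.pg x ξ‖ ≤ ‖ξ‖ := (m.gS x).norm_starProjection_apply_le ξ

theorem pg_eq_zero (h : ∀ η ∈ m.gS x, ⟪η, ξ⟫_ℝ = 0) : m.pg x ξ = 0 := by
  rw [← inner_self_eq_zero (𝕜 := ℝ), inner_pg, pg_pg, real_inner_comm]
  exact h _ (pg_mem x ξ)

theorem g_skw (h : ξ ∈ m.gS x) : Skw (opL ξ) := h.1
theorem g_p (h : ξ ∈ m.gS x) : m.p x * opL ξ = opL ξ := h.2.1
theorem g_J (h : ξ ∈ m.gS x) : m.J * opL ξ = opL ξ * m.J := h.2.2.1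
theorem g_ρ (h : ξ ∈ m.gS x) (a : ι) : m.ρ a x * opL ξ = opL ξ * m.ρ a x := h.2.2.2.1 a
theorem g_j (h : ξ ∈ m.gS x) (s : Eu lam) : m.j x s * opL ξ = opL ξ * m.j x s := h.2.2.2.2 s

theorem g_p' (H : m.OK I B) (h : ξ ∈ m.gS x) : opL ξ * m.p x = opL ξ := by
  have := congrArg trn (g_p h)
  rw [trn_mul, Skw.trn (g_skw h), Sym.trn (H.psym x), neg_mul] at this
  exact neg_injective this

theorem mem_g {T : En (Fin m.N)} (h1 : Skw T) (h2 : m.p x * T = T) (h3 : m.J * T = T * m.J)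
    (h4 : ∀ a, m.ρ a x * T = T * m.ρ a x) (h5 : ∀ s, m.j x s * T = T * m.j x s) :
    hsL T ∈ m.gS x := by
  refine ⟨?_, ?_, ?_, ?_, ?_⟩ <;> rw [opL_hsL] <;> assumption

theorem adc_mem (hξ : ξ ∈ m.gS x) (hη : η ∈ m.gS x) : adc (opL ξ) η ∈ m.gS x := by
  have c : ∀ T : En (Fin m.N), T * opL ξ = opL ξ * T → T * opL η = opL η * T →
      T * (opL ξ * opL η - opL η * opL ξ) = (opL ξ * opL η - opL η * opL ξ) * T := fun T h1 h2 => by
    rw [mul_sub, sub_mul, ← mul_assoc, h1, mul_assoc, h2, ← mul_assoc T, h2, mul_assoc (opL η) T,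
      h1, mul_assoc, mul_assoc]
  rw [adc_apply]
  refine mem_g (fun v w => ?_) ?_ (c _ (g_J hξ) (g_J hη)) (fun a => c _ (g_ρ hξ a) (g_ρ hη a))
    fun s => c _ (g_j hξ s) (g_j hη s)
  · simp only [sub_apply, mul_apply_eq_comp, inner_sub_left, inner_sub_right, g_skw hξ _,
      g_skw hη _]
    ring
  · rw [mul_sub, ← mul_assoc, ← mul_assoc, g_p hξ, g_p hη]

/-- A skew map which preserves `g` commutes with `pg`. -/
theorem pg_comm {T : CL m.A m.A} (hT : Skw T) (h : ∀ η ∈ m.gS x, T η ∈ m.gS x) (ξ : m.A) :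
    m.pg x (T ξ) = T (m.pg x ξ) := by
  have h1 : m.pg x (T (ξ - m.pg x ξ)) = 0 := pg_eq_zero fun η hη => by
    rw [real_inner_comm, hT, ← pg_of_mem (h η hη), ← inner_pg, map_sub, pg_pg, sub_self,
      inner_zero_left, neg_zero]
  rw [map_sub, map_sub, pg_of_mem (h _ (pg_mem x ξ))] at h1
  exact sub_eq_zero.1 h1

theorem pg_adc (hξ : ξ ∈ m.gS x) (η : m.A) :
    m.pg x (adc (opL ξ) η) = adc (opL ξ) (m.pg x η) :=
  pg_comm (adc_skw (g_skw hξ)) (fun _ h => adc_mem hξ h) η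

theorem pg_mul_p (T : En (Fin m.N)) :
    m.pg x (hsL (T * m.p x)) = m.pg x (hsL T) := by
  rw [← sub_eq_zero, ← map_sub, ← map_sub]
  refine pg_eq_zero fun η hη => ?_
  rw [inner_skw (g_skw hη), mul_sub, map_sub, ← mul_assoc, trE_comm, ← mul_assoc, g_p hη, sub_self,
    neg_zero]

theorem pg_spin {w : ι → ι → ℝ} (hw : ∀ a b, w a b = -w b a) :
    m.pg x (hsL (spin (fun a => m.ρ a x) w)) = 0 := by
  refine pg_eq_zero fun η hη => ?_
  have h : ∀ a b, trE (opL η * (m.ρ a x * m.ρ b x)) = trE (opL η * (m.ρ b x * m.ρ a x)) :=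
    fun a b => by rw [← mul_assoc, ← g_ρ hη, mul_assoc, trE_comm, mul_assoc]
  have h2 : ∑ a, ∑ b, w a b * trE (opL η * (m.ρ a x * m.ρ b x))
      = -∑ a, ∑ b, w a b * trE (opL η * (m.ρ a x * m.ρ b x)) := by
    conv_lhs => rw [sum_comm]
    simp only [← sum_neg_distrib]
    exact sum_congr rfl fun a _ => sum_congr rfl fun b _ => by rw [hw b a, h b a]; ring
  rw [inner_skw (g_skw hη), spin]
  simp only [mul_smul_comm, mul_sum, map_smul, map_sum, smul_eq_mul]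
  simp only [← mul_sum]
  linarith

theorem exists_l (hB : B.OK I) (x : M) : ∃ s, B.l x s ≠ 0 := by
  by_contra! h
  have := hB.lrk x
  rw [show B.l x = 0 from ContinuousLinearMap.ext h] at this
  simp at this

theorem pg_Jp (hB : B.OK I) (H : m.OK I B) : m.pg x (hsL (m.J * m.p x)) = 0 := by
  refine pg_eq_zero fun η hη => ?_
  obtain ⟨s, hs⟩ := exists_l hB x
  have h1 : trE (m.j x s * (opL η * m.J * m.j x s)) = trE (opL η * m.J * (m.j x s * m.j x s)) := by
    rw [trE_comm, mul_assoc]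
  rw [← mul_assoc, ← mul_assoc, g_j hη, mul_assoc (opL η), H.jJ, mul_neg, neg_mul, map_neg,
    mul_assoc, mul_assoc, H.jsq, mul_assoc] at h1
  simp only [mul_smul_comm, map_smul, smul_eq_mul] at h1
  have h2 : ‖B.l x s‖ ^ 2 * trE (opL η * (m.J * m.p x)) = 0 := by linarith
  rw [inner_skw (g_skw hη), (mul_eq_zero.1 h2).resolve_left (by simpa using hs), neg_zero]

end pg

end Crest.Agent.X212.Wz78
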