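import Crest.Agent.X212.Wz78.Fms
import Crest.Agent.X212.Map77.Mono
import Crest.Agent.X212.Std94.Smo

/-!
# Row 212: Bochner formulas for the gauge fixed linearisation and its adjoint

For bundles `d : Map77.Bd` parallel for a connection `W` (`Cp`): the operators `d0`, `lin`, `full`
and their adjoints are covariant first order operators plus explicit terms of order zero.
-/

set_option linter.unusedSectionVars false
set_option maxHeartbeats 400000
open scoped Manifold ContDiff Topology InnerProductSpace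
open Finset Filter MeasureTheory
noncomputable section
namespace Crest.Agent.X212.Wz78
open An Sob92 Map77 Ell97
open Rf65 (Ric)

variable {E : Type} [NormedAddCommGroup E] [NormedSpace ℝ E] [FiniteDimensional ℝ E]
  [MeasurableSpace E] [BorelSpace E]
  {HM : Type} [TopologicalSpace HM] {I : ModelWithCorners ℝ E HM}
  {M : Type} [TopologicalSpace M] [ChartedSpace HM M] [IsManifold I ∞ M]
  [MeasurableSpace M] {ι κ : Type} [Fintype ι] [Fintype κ] [DecidableEq κ]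

/-- the induced connection on endomorphisms -/
abbrev adw (W : ι → M → En κ) : ι → M → En (κ × κ) := fun a x => adc (W a x)

/-- the bundles are parallel for `W` -/
structure Cp (d : Bd M ι κ) (F : Fr I M ι) (Γ : ι → ι → ι → M → ℝ) (W : ι → M → En κ) :
    Prop where
  ok : d.OK
  P : F.P = d.P
  lc : LC I F.e F.P F.c Γ
  so : ∀ a b c e, Sm I (d.o a b c e)
  sρ : ∀ a, Sm I (d.ρ a)
  sg : Sm I d.g
  ssp : Sm I d.sp
  ssm : Sm I d.sm
  con : Con I F.P W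
  sk : ∀ a x, Skw (W a x)
  g : ∀ a x, nabE I F.e (adw W) a d.g x = 0
  sp : ∀ a x, nabE I F.e W a d.sp x = 0
  sm : ∀ a x, nabE I F.e W a d.sm x = 0
  ρ : ∀ a b x, nabE I F.e W a (d.ρ b) x = ∑ k, Γ a b k x • d.ρ k x

section defs
variable (d : Bd M ι κ) (F : Fr I M ι) (Γ : ι → ι → ι → M → ℝ) (W : ι → M → En κ) (Φ : M → Eu κ)

/-- zero order part of the gauge action -/
def z0 (x : M) : CL (HS κ) (Cf ι κ) := (d.pC x).comp (l0 (i2 _ _ (Φ x)))
/-- zero order part of the linearised equations -/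
def zl (x : M) : CL (Cf ι κ) (Ef ι κ) :=
  (d.pE x).comp (d.β x (i2 _ _ (Φ x)) + (d.β x).flip (i2 _ _ (Φ x)))
/-- zero order part of the Coulomb row -/
def zr (x : M) : CL (Cf ι κ) (HS κ) :=
  (d.g x).comp (Op.tr (z0 d Φ x)) + ∑ k, dft F Γ k x • (pj _ k ∘L d.p1 x ∘L fa)
/-- zero order part of the gauge fixed linearisation -/
def zf (x : M) : CL (Cf ι κ) (P2 (HS κ) (Ef ι κ)) := pr2 (zr d F Γ Φ x) (zl d Φ x)

/-- the curvature term on configurations -/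
def kF (x : M) (u w : Cf ι κ) : ℝ :=
  ∑ a, ∑ t, Ric I F.e F.c Γ a t x * ⟪fa u a, fa w t⟫_ℝ
    - ∑ a, ∑ b, ⟪fa u a, adc (curv I F.e F.c W a b x) (fa w b)⟫_ℝ
    - 1 / 2 * ∑ a, ∑ b, ∑ k, ∑ j, d.o a k b j x * ⟪fa u k, adc (curv I F.e F.c W a b x) (fa w j)⟫_ℝ
    + ⟪fp u, wK I F.e F.c d.ρ W x (fp w)⟫_ℝ

/-- the curvature term on the target -/
def kA (x : M) (y z : P2 (HS κ) (Ef ι κ)) : ℝ :=
  scal I F.e F.c Γ x / 2 * ⟪s2 _ _ (s2 _ _ y), s2 _ _ (s2 _ _ z)⟫_ℝ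
    + 2 * ∑ a, ∑ b, ∑ k, ∑ j, Rm I F.e F.c Γ a b k j x
      * ⟪s2 _ _ (s2 _ _ y) (a, k), s2 _ _ (s2 _ _ z) (b, j)⟫_ℝ
    - 2 * ∑ a, ∑ b, ∑ k,
      ⟪s2 _ _ (s2 _ _ y) (a, k), adc (curv I F.e F.c W a b x) (s2 _ _ (s2 _ _ z) (b, k))⟫_ℝ
    - ∑ a, ∑ b, (⟪s2 _ _ (s2 _ _ y) (a, b), adc (curv I F.e F.c W a b x) (f2 _ _ z)⟫_ℝ
      - ⟪f2 _ _ y, adc (curv I F.e F.c W a b x) (s2 _ _ (s2 _ _ z) (a, b))⟫_ℝ)
    + ⟪f2 _ _ (s2 _ _ y), wK I F.e F.c d.ρ W x (f2 _ _ (s2 _ _ z))⟫_ℝ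

variable [DecidableEq ι]
/-- the connection on configurations -/
abbrev cC : ι → M → CL (Cf ι κ) (Cf ι κ) := ds (c1 F.P Γ (adw W)) W
/-- the connection on equations -/
abbrev cE : ι → M → CL (Ef ι κ) (Ef ι κ) := ds W (c2 F.P Γ (adw W))
/-- the connection on the target of the gauge fixed linearisation -/
abbrev cT : ι → M → CL (P2 (HS κ) (Ef ι κ)) (P2 (HS κ) (Ef ι κ)) := ds (adw W) (cE F Γ W)

end defs

variable {d : Bd M ι κ} {F : Fr I M ι} {Γ : ι → ι → ι → M → ℝ} {W : ι → M → En κ} {Φ : M → Eu κ}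
  {x : M}

theorem fa_z0 (ξ : HS κ) : fa (z0 d Φ x ξ) = 0 := by
  have : fa (l0 (i2 _ _ (Φ x) : Cf ι κ) ξ) = 0 := fm_ext fun a => by
    rw [fa_l0, oa_apply]; simp [adc_apply]
  simp [z0, this]

theorem fp_z0 (ξ : HS κ) : fp (z0 d Φ x ξ) = d.sp x (opL ξ (Φ x)) := by simp [z0, fp_l0]

theorem f2_zl (u : Cf ι κ) : f2 _ _ (zl d Φ x u) = d.sm x (∑ a, d.ρ a x (opL (fa u a) (Φ x))) := by
  simp [zl, Bd.β, f2_βE, oa_apply]

theorem s2_zl (u : Cf ι κ) : s2 _ _ (zl d Φ x u) = -d.p2 x (WithLp.toLp 2 fun s =>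
    hsL (rk1 (Φ x) (d.ρ s.1 x (d.ρ s.2 x (fp u))) + rk1 (fp u) (d.ρ s.1 x (d.ρ s.2 x (Φ x))))) := by
  rw [← map_neg]
  simp only [zl, ContinuousLinearMap.comp_apply, s2_ps, add_apply, map_add,
    ContinuousLinearMap.flip_apply, Bd.β]
  rw [← map_add]
  congr 1
  refine fm_ext fun s => ?_
  simp only [PiLp.add_apply, PiLp.neg_apply, s2_βE, oa_apply, f2_i2, s2_i2, PiLp.zero_apply,
    map_zero, zero_mul, mul_zero, sub_self, zero_sub, map_neg, neg_add]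

theorem zf_zero (h : ∀ k, dft F Γ k x = 0) (h0 : Φ x = 0) : zf d F Γ Φ x = 0 := by
  have : Op.tr (0 : CL (HS κ) (Cf ι κ)) = 0 := by rw [← trL_apply, map_zero]
  simp [zf, zr, zl, z0, h, h0, this, pr2]

theorem p1_of {v : Cf ι κ} (h : d.pC x v = v) : d.p1 x (fa v) = fa v := by rw [← f2_ps, h]
theorem sp_of {v : Cf ι κ} (h : d.pC x v = v) : d.sp x (fp v) = fp v := by rw [← s2_ps, h]
theorem g_of {v : P2 (HS κ) (Ef ι κ)} (h : ps d.g d.pE x v = v) : d.g x (f2 _ _ v) = f2 _ _ v := by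
  rw [← f2_ps, h]
theorem sm_of {v : P2 (HS κ) (Ef ι κ)} (h : ps d.g d.pE x v = v) :
    d.sm x (f2 _ _ (s2 _ _ v)) = f2 _ _ (s2 _ _ v) := by rw [← f2_ps, ← s2_ps, h]
theorem p2_of {v : P2 (HS κ) (Ef ι κ)} (h : ps d.g d.pE x v = v) :
    d.p2 x (s2 _ _ (s2 _ _ v)) = s2 _ _ (s2 _ _ v) := by rw [← s2_ps, ← s2_ps, h]

theorem adj_σ {V W : Type} [NormedAddCommGroup V] [InnerProductSpace ℝ V] [NormedAddCommGroup W]
    [InnerProductSpace ℝ W] [FiniteDimensional ℝ V] [FiniteDimensional ℝ W] (A : Op M ι V W) (a : ι)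
    (w : W) : (A.adj F).σ a x w = -Op.tr (A.σ a x) w := rfl

namespace Cp
variable (C : Cp d F Γ W)
include C

theorem vol (x : M) : Vol (fun a b => F.P a b x) (d.ox x) := by rw [C.P]; exact C.ok.vol x

theorem con_adw : Con I F.P (adw W) where
  sm a x := (C.con.sm a x).clm adcL
  proj a x := by simp only [← adcL_apply, ← map_smul, ← map_sum, C.con.proj]

theorem skew_adw (a : ι) (x : M) : Skew (adw W a x) := adc_skw (C.sk a x)

theorem curv_adw (a b : ι) (x : M) : curv I F.e F.c (adw W) a b x = adc (curv I F.e F.c W a b x) :=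
  curv_map adcL (C.con.sm · x) a b (adc_lie _ _)

theorem p1_eq : d.p1 = fun y => idx (fun a b => F.P a b y) (d.g y) :=
  _root_.funext fun y => by rw [C.P]; exact C.ok.p1 y

theorem p2_eq : d.p2 = fun y => idx (sdm (fun a b => F.P a b y) (d.ox y)) (d.g y) :=
  _root_.funext fun y => by rw [C.P]; exact C.ok.p2 y

theorem sm_p1 : Sm I d.p1 := by
  classical
  rw [C.p1_eq]; exact fun y => (Idg99.sm_Pm (frm F) y).ix (C.sg y)

theorem sm_p2 : Sm I d.p2 := by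
  classical
  rw [C.p2_eq]; exact fun y => (Idg99.sm_sd (frm F) C.so y).ix (C.sg y)

theorem sm_pC : Sm I d.pC := fun y => sa_sm2 (C.sm_p1 y) (C.ssp y)
theorem sm_pE : Sm I d.pE := fun y => sa_sm2 (C.ssm y) (C.sm_p2 y)
theorem sm_pT : Sm I (ps d.g d.pE) := fun y => sa_sm2 (C.sg y) (C.sm_pE y)

theorem P_fa {u : Cf ι κ} (h : d.pC x u = u) (a : ι) : ∑ k, F.P a k x • fa u k = fa u a := by
  rw [C.P, ← h, f2_ps]; exact C.ok.P_p1 x _ a

theorem sd_of {y : P2 (HS κ) (Ef ι κ)} (h : ps d.g d.pE x y = y) :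
    SD (fun a b => F.P a b x) (d.ox x) (s2 _ (Fm (ι × ι) (HS κ)) (s2 _ _ y)) := by
  rw [C.P, ← h, s2_ps, s2_ps]; exact C.ok.sd_p2 x _

theorem zr_apply {u : Cf ι κ} (h : d.pC x u = u) : zr d F Γ Φ x u
    = d.g x (hsL (rk1 (fp u) (Φ x))) + ∑ k, dft F Γ k x • fa u k := by
  have h1 := p1_of h
  have h2 := sp_of h
  have : Op.tr (z0 d Φ x) u = hsL (rk1 (fp u) (Φ x)) := ext_inner_left ℝ fun ξ => by
    rw [inner_tr, inner2, fa_z0, fp_z0, inner_zero_left, zero_add, C.ok.sp.symm, h2, inner_rk1]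
  simp [zr, this, h1]

section
variable [DecidableEq ι]

theorem con_cC : Con I F.P (cC F Γ W) := con_ds (con_c1 C.lc (frm F) (sep F) C.con_adw) C.con
theorem con_cE : Con I F.P (cE F Γ W) := con_ds C.con (con_c2 C.lc (frm F) (sep F) C.con_adw)
theorem con_cT : Con I F.P (cT F Γ W) := con_ds C.con_adw C.con_cE
theorem skew_cC (a : ι) (x : M) : Skew (cC F Γ W a x) :=
  skew_ds (skew_c1 C.lc (frm F) (C.skew_adw a x)) (C.sk a x)
theorem skew_cE (a : ι) (x : M) : Skew (cE F Γ W a x) :=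
  skew_ds (C.sk a x) (skew_c2 C.lc (frm F) (C.skew_adw a x))
theorem skew_cT (a : ι) (x : M) : Skew (cT F Γ W a x) := skew_ds (C.skew_adw a x) (C.skew_cE a x)

theorem p1_par (a : ι) (x : M) : nabE I F.e (c1 F.P Γ (adw W)) a d.p1 x = 0 := by
  rw [C.p1_eq]; exact Wz78.p1_par C.lc (frm F) (C.sg x) a (C.g a x)

theorem p2_par (a : ι) (x : M) : nabE I F.e (c2 F.P Γ (adw W)) a d.p2 x = 0 := by
  rw [C.p2_eq]; exact Wz78.p2_par C.lc (frm F) C.so C.vol (C.sg x) a (C.g a x)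

theorem pC_par (a : ι) (x : M) : nabE I F.e (cC F Γ W) a d.pC x = 0 :=
  ps_par (C.sm_p1 x) (C.ssp x) a (C.p1_par a x) (C.sp a x)

theorem pE_par (a : ι) (x : M) : nabE I F.e (cE F Γ W) a d.pE x = 0 :=
  ps_par (C.ssm x) (C.sm_p2 x) a (C.sm a x) (C.p2_par a x)

theorem pT_par (a : ι) (x : M) : nabE I F.e (cT F Γ W) a (ps d.g d.pE) x = 0 :=
  ps_par (C.sg x) (C.sm_pE x) a (C.g a x) (C.pE_par a x)

theorem sy_ρ : Sy I F.e F.P Γ W W d.ρ :=
  ⟨fun a x => C.sρ a x, fun a x => by rw [C.P]; exact C.ok.Pρ a x, C.ρ⟩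

theorem sy_σ0 : Sy I F.e F.P Γ (adw W) (cC F Γ W) fun a x => σ0 (d.Px x) a := by
  have := (sy_ea (B := adw W) C.lc (frm F)).i1 (C'' := W).neg
  rwa [show d.Px = fun x a b => F.P a b x by rw [C.P]]

theorem sy_σ : Sy I F.e F.P Γ (cC F Γ W) (cE F Γ W) d.σ := by
  have := (C.sy_ρ.s2 (C'' := c1 F.P Γ (adw W))).pr2 ((sy_wd2 (B := adw W) C.lc (frm F)).f2 (C'' := W))
  unfold Bd.σ
  rwa [show d.Px = fun x a b => F.P a b x by rw [C.P]]

theorem rp_d0 (Φ : M → Eu κ) : Rp F Γ (d.d0 F (base W Φ)) (adw W) (cC F Γ W) (z0 d Φ) := by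
  refine (Rp.cut C.sy_σ0 _ C.sg C.sm_pC C.g C.pC_par C.ok.g.idem).congr (fun x v _ => ?_)
    C.ok.g.idem
  refine congrArg (d.pC x) (ext2 (fm_ext fun a => ?_) ?_)
  · have := congrArg (fun T : En (κ × κ) => T v) (C.con_adw.proj a x)
    simp only [_root_.sum_apply, smul_apply, C.P] at this
    simp [fa_l0, σ0, ea_apply, this, oa_apply, adc_apply 0]
  · simp [fp_l0, σ0]

theorem rp_lin (Φ : M → Eu κ) : Rp F Γ (d.lin F (base W Φ)) (cC F Γ W) (cE F Γ W) (zl d Φ) := by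
  refine (Rp.cut C.sy_σ _ C.sm_pC C.sm_pE C.pC_par C.pE_par C.ok.prjC.idem).congr
    (fun x v hv => ?_) C.ok.prjC.idem
  have hv := C.P_fa hv
  refine congrArg (d.pE x) (ext2 ?_ (fm_ext fun s => ?_))
  · simp [Bc, BE, Bd.β, f2_βE, Bd.σ, σE, oa_apply]
  · have k : ∀ a b, ∑ j, d.P a j x • c1 F.P Γ (adw W) j x (fa v) b
        = adc (W a x) (fa v b) - ∑ t, Γ a b t x • fa v t := fun a b => by
      have := congrArg (fun T : CL (Fm ι (HS κ)) (Fm ι (HS κ)) => T (fa v) b)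
        ((con_c1 C.lc (frm F) (sep F) C.con_adw).proj a x)
      simp only [_root_.sum_apply, smul_apply, WithLp.ofLp_sum, Finset.sum_apply,
        PiLp.smul_apply] at this
      rw [← C.P, this, Idg99.tA_apply, Om_sum C.lc (frm F) a b hv, neg_add_eq_sub]
    simp only [ContinuousLinearMap.coe_coe, Bc, BE, Bd.β, Bd.σ, σE, sub_apply, add_apply, _root_.sum_apply, map_sub, map_add,
      map_sum, ContinuousLinearMap.comp_apply, s2_pr2, f2_ds, PiLp.sub_apply, PiLp.add_apply,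
      WithLp.ofLp_sum, Finset.sum_apply, wd2_apply, sum_sub_distrib, k, tp_apply, s2_βE,
      ContinuousLinearMap.flip_apply, fa_base, opL_hsL, fp_base, _root_.neg_apply, smul_apply,
      Map77.pj_apply, C.lc.cD s.1 s.2 hv, oa_apply, f2_i2, s2_i2, PiLp.zero_apply, map_zero,
      zero_mul, mul_zero, adc_apply]
    abel

theorem rp_row (Φ : M → Eu κ) :
    Rp F Γ ((d.d0 F (base W Φ)).adj F) (cC F Γ W) (adw W) (zr d F Γ Φ) :=
  ((C.rp_d0 Φ).adj C.lc C.skew_adw C.skew_cC (C.P ▸ C.ok.alg_d0 _)).congr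
    (fun x v _ => by simp only [zr, add_apply, _root_.sum_apply, smul_apply, C.ok.row_σ]; rfl)
    C.ok.prjC.idem

theorem rp_full (Φ : M → Eu κ) :
    Rp F Γ (d.full F (base W Φ)) (cC F Γ W) (cT F Γ W) (zf d F Γ Φ) :=
  (C.rp_row Φ).pair (C.rp_lin Φ) rfl

theorem rp_adj (Φ : M → Eu κ) :
    Rp F Γ ((d.full F (base W Φ)).adj F) (cT F Γ W) (cC F Γ W) fun x =>
      (d.pC x).comp (Op.tr (zf d F Γ Φ x))
        + ∑ k, dft F Γ k x • ((d.full F (base W Φ)).adj F).σ k x :=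
  (C.rp_full Φ).adj C.lc C.skew_cC C.skew_cT (C.P ▸ C.ok.alg_full _)

omit C in
theorem par_nab {V : Type} [NormedAddCommGroup V] [NormedSpace ℝ V] {A : ι → M → V →L[ℝ] V}
    {p : M → V →L[ℝ] V} {u : M → V} {a : ι} (sp : SA I p x) (pp : nabE I F.e A a p x = 0)
    (hu : SA I u x) (pu : ∀ y, p y (u y) = u y) : p x (nab I F.e A a u x) = nab I F.e A a u x := by
  have := nab_app' (e := F.e) (A := A) a sp hu
  rw [pp, show (fun y => p y (u y)) = u from _root_.funext pu] at this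
  simpa using this.symm

omit C in
theorem par_curv {V : Type} [NormedAddCommGroup V] [NormedSpace ℝ V] {A : ι → M → V →L[ℝ] V}
    {p : M → V →L[ℝ] V} (hA : Con I F.P A) (sp : Sm I p) (pp : ∀ a y, nabE I F.e A a p y = 0)
    {v : V} (pv : p x v = v) (a b : ι) :
    p x (curv I F.e F.c A a b x v) = curv I F.e F.c A a b x v := by
  have := congrArg (fun T : V →L[ℝ] V => T v) ((frm F).curv_par (hA.sm · x) (sp x)
    (fun a => Eventually.of_forall (pp a)) a b)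
  simpa only [mul_apply_eq_comp, pv] using this.symm

theorem fa_nab {u : M → Cf ι κ} (hu : SA I u x) (pu : d.pC x (u x) = u x) (a b : ι) :
    fa (nab I F.e (cC F Γ W) a u x) b = cov I F.e Γ (adw W) (fun b y => fa (u y) b) a b x := by
  rw [f2_nab a hu, nab_c1 C.lc (frm F) (hu.clm fa) (C.P_fa pu)]

theorem s22_nab {u : M → P2 (HS κ) (Ef ι κ)} (hu : SA I u x) (pu : ps d.g d.pE x (u x) = u x)
    (a : ι) (s : ι × ι) : s2 _ _ (s2 _ _ (nab I F.e (cT F Γ W) a u x)) s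
      = cov2 I F.e Γ (adw W) (fun s y => s2 _ _ (s2 _ _ (u y)) s) a s x := by
  rw [s2_nab a hu, s2_nab a (hu.clm _), nab_c2 C.lc (frm F) ((hu.clm _).clm _) (C.sd_of pu).pr
    (C.sd_of pu).pr']

theorem curv_term {u w : Cf ι κ} (pu : d.pC x u = u) (pw : d.pC x w = w) (u₀ : M → Cf ι κ) :
    ∑ a, ∑ b, ⟪(d.full F u₀).σ a x u, (d.full F u₀).σ b x (curv I F.e F.c (cC F Γ W) a b x w)⟫_ℝ
      = -2 * kF d F Γ W x u w := by
  have s1 := fun a => (con_c1 C.lc (frm F) (sep F) C.con_adw).sm a x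
  have h0 := par_curv C.con_cC C.sm_pC C.pC_par pw
  have h3 := ric_term C.lc (frm F) (sep F) (C.vol x) C.con_adw (fa u) (C.P_fa pw)
  simp only [inner2 ((d.full F u₀).σ _ x u), inner2 (s2 _ _ ((d.full F u₀).σ _ x u)), C.ok.full_σ1,
    C.ok.full_σ2, Bd.OK.full_σ3, C.ok.inner_wd]
  simp only [p1_of pu, sp_of pu, p1_of (h0 _ _), sp_of (h0 _ _)]
  simp only [f2_curv s1 (C.con.sm · x), s2_curv s1 (C.con.sm · x), ← C.P, C.ok.sk _ x (fp u), kF,
    wK, smul_apply, _root_.sum_apply, mul_apply_eq_comp, real_inner_smul_right, inner_sum,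
    sum_add_distrib, sum_neg_distrib, C.curv_adw] at h3 ⊢
  linarith

theorem curv_term' {y z : P2 (HS κ) (Ef ι κ)} (py : ps d.g d.pE x y = y) (pz : ps d.g d.pE x z = z)
    (u₀ : M → Cf ι κ) : ∑ a, ∑ b, ⟪((d.full F u₀).adj F).σ a x y,
      ((d.full F u₀).adj F).σ b x (curv I F.e F.c (cT F Γ W) a b x z)⟫_ℝ
      = -2 * kA d F Γ W x y z := by
  have s1 := fun a => (con_c2 C.lc (frm F) (sep F) C.con_adw).sm a x
  have s0 := fun a => C.con_adw.sm a x
  have s3 := fun a => C.con_cE.sm a x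
  have h0 := par_curv C.con_cT C.sm_pT C.pT_par pz
  have h4 := sd_term C.lc (frm F) (sep F) (C.vol x) C.con_adw (f2 _ _ y) (f2 _ _ z) (C.sd_of py)
    (C.sd_of pz)
  simp only [adj_σ, inner_neg_neg, C.ok.tr_full, g_of py, sm_of py, p2_of py, g_of (h0 _ _),
    sm_of (h0 _ _), p2_of (h0 _ _)]
  simp only [inner2 (i1 _ _ _ - i2 _ _ _), map_sub, f2_i1, f2_i2, s2_i1, s2_i2, sub_zero, zero_sub,
    inner_neg_neg, inner_fm (X := HS κ) (_ + _), PiLp.add_apply, ea_apply,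
    f2_curv s0 s3, s2_curv s0 s3, f2_curv (C.con.sm · x) s1, s2_curv (C.con.sm · x) s1,
    Bd.Px, ← C.P,
    C.ok.sk _ x (f2 _ _ (s2 _ _ y)), kA, wK, smul_apply, _root_.sum_apply, mul_apply_eq_comp,
    real_inner_smul_right, inner_sum, sum_add_distrib, sum_neg_distrib, C.curv_adw] at h4 ⊢
  linarith

end

section app
variable {u w : M → Cf ι κ} (hu : SA I u x) (pu : ∀ y, d.pC y (u y) = u y)
include hu pu

/-- the Coulomb row -/
theorem full_row (Φ : M → Eu κ) : f2 _ _ ((d.full F (base W Φ)).app F u x)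
    = ∑ a, cov I F.e Γ (adw W) (fun b y => fa (u y) b) a a x
      + d.g x (hsL (rk1 (fp (u x)) (Φ x))) + ∑ k, dft F Γ k x • fa (u x) k := by
  classical
  have h := fun a => par_nab (C.sm_pC x) (C.pC_par a x) hu pu
  simp only [(C.rp_full Φ).app (pu x), dop, map_add, map_sum, C.ok.full_σ1, p1_of (h _),
    C.fa_nab hu (pu x), zf, f2_pr2, C.zr_apply (pu x), add_assoc]

/-- the Dirac row -/
theorem full_dir (Φ : M → Eu κ) : f2 _ _ (s2 _ _ ((d.full F (base W Φ)).app F u x))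
    = dir I F.e d.ρ W (fun y => fp (u y)) x
      + d.sm x (∑ a, d.ρ a x (opL (fa (u x) a) (Φ x))) := by
  classical
  have h := fun a => par_nab (C.sm_pC x) (C.pC_par a x) hu pu
  simp only [(C.rp_full Φ).app (pu x), dop, map_add, map_sum, C.ok.full_σ2, sp_of (h _),
    zf, s2_pr2, f2_zl]
  simp only [s2_nab _ hu, dir]

/-- the curvature row -/
theorem full_crv (Φ : M → Eu κ) : s2 _ _ (s2 _ _ ((d.full F (base W Φ)).app F u x))
    = d.p2 x (WithLp.toLp 2 fun s => cov I F.e Γ (adw W) (fun b y => fa (u y) b) s.1 s.2 x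
      - cov I F.e Γ (adw W) (fun b y => fa (u y) b) s.2 s.1 x
      - hsL (rk1 (Φ x) (d.ρ s.1 x (d.ρ s.2 x (fp (u x))))
        + rk1 (fp (u x)) (d.ρ s.1 x (d.ρ s.2 x (Φ x))))) := by
  classical
  have h := fun a => par_nab (C.sm_pC x) (C.pC_par a x) hu pu
  have k : ∀ a b, ∑ j, d.P a j x • fa (nab I F.e (cC F Γ W) j u x) b
      = fa (nab I F.e (cC F Γ W) a u x) b := fun a b => by
    rw [← (frm F).projN C.con_cC a u x, C.P]; simp
  simp only [(C.rp_full Φ).app (pu x), dop, map_add, map_sum, Bd.OK.full_σ3, p1_of (h _),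
    zf, s2_pr2, s2_zl]
  rw [← map_sum, ← map_neg, ← map_add]
  refine congrArg (d.p2 x) (fm_ext fun s => ?_)
  simp only [PiLp.add_apply, PiLp.neg_apply, WithLp.ofLp_sum, Finset.sum_apply, wd2_apply,
    sum_sub_distrib, k]
  simp only [C.fa_nab hu (pu x), sub_eq_add_neg]

end app

section adj
variable {u : M → P2 (HS κ) (Ef ι κ)} (hu : SA I u x) (pu : ∀ y, ps d.g d.pE y (u y) = u y)
  (Φ : M → Eu κ)
include hu pu

/-- the form part of the adjoint -/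
theorem adj_fa (k : ι) : fa (((d.full F (base W Φ)).adj F).app F u x - (d.pC x (Op.tr
      (zf d F Γ Φ x) (u x)) + ∑ k, dft F Γ k x • ((d.full F (base W Φ)).adj F).σ k x (u x))) k
    = -(nab I F.e (adw W) k (fun y => f2 _ _ (u y)) x
      + (2 : ℝ) • ∑ a, cov2 I F.e Γ (adw W) (fun s y => s2 _ _ (s2 _ _ (u y)) s) a (a, k) x) := by
  classical
  have h := fun a => par_nab (C.sm_pT x) (C.pT_par a x) hu pu
  have h4 := (frm F).projN C.con_adw k (fun y => f2 _ _ (u y)) x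
  rw [(C.rp_adj Φ).app (pu x)]
  simp only [add_apply, _root_.sum_apply, smul_apply, ContinuousLinearMap.comp_apply,
    add_sub_cancel_right, dop]
  simp only [adj_σ, C.ok.tr_full, g_of (h _), p2_of (h _)]
  simp only [map_sum, map_neg, map_sub, f2_i1, f2_i2, sub_zero, WithLp.ofLp_sum, Finset.sum_apply,
    PiLp.neg_apply, PiLp.add_apply, ea_apply, C.s22_nab hu (pu x), f2_nab _ hu, Bd.Px, ← C.P,
    sum_neg_distrib, sum_add_distrib, h4, smul_sum]

/-- the spinor part of the adjoint -/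
theorem adj_fp : fp (((d.full F (base W Φ)).adj F).app F u x - (d.pC x (Op.tr
      (zf d F Γ Φ x) (u x)) + ∑ k, dft F Γ k x • ((d.full F (base W Φ)).adj F).σ k x (u x)))
    = dir I F.e d.ρ W (fun y => f2 _ _ (s2 _ _ (u y))) x := by
  classical
  have h := fun a => par_nab (C.sm_pT x) (C.pT_par a x) hu pu
  rw [(C.rp_adj Φ).app (pu x)]
  simp only [add_apply, _root_.sum_apply, smul_apply, ContinuousLinearMap.comp_apply,
    add_sub_cancel_right, dop]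
  simp only [adj_σ, C.ok.tr_full, sm_of (h _)]
  simp only [map_sum, map_neg, map_sub, s2_i1, s2_i2, zero_sub, neg_neg, s2_nab _ hu,
    f2_nab _ (hu.clm _), dir]

end adj

variable [T2Space M] [BorelSpace M] (hR : Riem F) (Φ : M → Eu κ)
include hR

/-- Bochner formula for the gauge fixed linearisation -/
theorem boch {u w : M → Cf ι κ} (hu : Sm I u) (hw : Sm I w) (hc : HasCompactSupport w)
    (pu : ∀ y, d.pC y (u y) = u y) (pw : ∀ y, d.pC y (w y) = w y) :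
    ∫ x, ⟪(d.full F (base W Φ)).app F u x - zf d F Γ Φ x (u x),
        (d.full F (base W Φ)).app F w x - zf d F Γ Φ x (w x)⟫_ℝ ∂F.μ
      = ∫ x, (∑ a, ∑ b, ⟪cov I F.e Γ (adw W) (fun b y => fa (u y) b) a b x,
            cov I F.e Γ (adw W) (fun b y => fa (w y) b) a b x⟫_ℝ
          + ∑ a, ⟪nab I F.e W a (fun y => fp (u y)) x, nab I F.e W a (fun y => fp (w y)) x⟫_ℝ
          + kF d F Γ W x (u x) (w x)) ∂F.μ := by
  classical
  rw [(C.rp_full Φ).boch C.lc hR C.con_cC C.skew_cT (C.ok.cliffL_full C.P _) C.sm_pC C.pC_par hu hw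
    hc pu pw]
  refine integral_congr_ae (Eventually.of_forall fun x => ?_)
  simp only [C.curv_term (pu x) (pw x), inner2 (nab I F.e _ _ u x), inner_fm (X := HS κ),
    C.fa_nab (hu x) (pu x), C.fa_nab (hw x) (pw x), s2_nab _ (hu x), s2_nab _ (hw x),
    sum_add_distrib]
  ring

/-- Bochner formula for the adjoint -/
theorem boch_adj {u w : M → P2 (HS κ) (Ef ι κ)} (hu : Sm I u) (hw : Sm I w)
    (hc : HasCompactSupport w) (pu : ∀ y, ps d.g d.pE y (u y) = u y)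
    (pw : ∀ y, ps d.g d.pE y (w y) = w y) :
    ∫ x, ⟪((d.full F (base W Φ)).adj F).app F u x - d.pC x (Op.tr (zf d F Γ Φ x) (u x)),
        ((d.full F (base W Φ)).adj F).app F w x - d.pC x (Op.tr (zf d F Γ Φ x) (w x))⟫_ℝ ∂F.μ
      = ∫ x, (∑ a, ⟪nab I F.e (adw W) a (fun y => f2 _ _ (u y)) x,
            nab I F.e (adw W) a (fun y => f2 _ _ (w y)) x⟫_ℝ
          + ∑ a, ⟪nab I F.e W a (fun y => f2 _ _ (s2 _ _ (u y))) x,
            nab I F.e W a (fun y => f2 _ _ (s2 _ _ (w y))) x⟫_ℝ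
          + ∑ a, ∑ s, ⟪cov2 I F.e Γ (adw W) (fun s y => s2 _ _ (s2 _ _ (u y)) s) a s x,
            cov2 I F.e Γ (adw W) (fun s y => s2 _ _ (s2 _ _ (w y)) s) a s x⟫_ℝ
          + kA d F Γ W x (u x) (w x)) ∂F.μ := by
  classical
  have := (C.rp_adj Φ).boch C.lc hR C.con_cT C.skew_cC (C.ok.cliff_full C.P _).2 C.sm_pT C.pT_par
    hu hw hc pu pw
  simp only [hR.dft C.lc, zero_smul, sum_const_zero, add_zero, ContinuousLinearMap.comp_apply]
    at this
  rw [this]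
  refine integral_congr_ae (Eventually.of_forall fun x => ?_)
  simp only [C.curv_term' (pu x) (pw x), inner2 (nab I F.e _ _ u x),
    inner2 (s2 _ _ (nab I F.e _ _ u x)), inner_fm (X := HS κ), C.s22_nab (hu x) (pu x),
    C.s22_nab (hw x) (pw x), sum_add_distrib]
  simp only [f2_nab _ (hu x), f2_nab _ (hw x), s2_nab _ (hu x), s2_nab _ (hw x),
    f2_nab _ (SA.clm _ (hu x)), f2_nab _ (SA.clm _ (hw x))]
  ring

/-- Bochner formula at a reducible point -/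
theorem boch0 {u : M → Cf ι κ} (hu : Sm I u) (hc : HasCompactSupport u)
    (pu : ∀ y, d.pC y (u y) = u y) :
    ∫ x, ‖(d.full F (base W 0)).app F u x‖ ^ 2 ∂F.μ
      = ∫ x, (∑ a, ∑ b, ‖cov I F.e Γ (adw W) (fun b y => fa (u y) b) a b x‖ ^ 2
          + ∑ a, ‖nab I F.e W a (fun y => fp (u y)) x‖ ^ 2 + kF d F Γ W x (u x) (u x)) ∂F.μ := by
  have := C.boch hR 0 hu hu hc pu pu
  simpa only [zf_zero (hR.dft C.lc · _) (Pi.zero_apply _), zero_apply, sub_zero,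
    real_inner_self_eq_norm_sq] using this

/-- Bochner formula for the adjoint at a reducible point -/
theorem boch_adj0 {u : M → P2 (HS κ) (Ef ι κ)} (hu : Sm I u) (hc : HasCompactSupport u)
    (pu : ∀ y, ps d.g d.pE y (u y) = u y) :
    ∫ x, ‖((d.full F (base W 0)).adj F).app F u x‖ ^ 2 ∂F.μ
      = ∫ x, (∑ a, ‖nab I F.e (adw W) a (fun y => f2 _ _ (u y)) x‖ ^ 2
          + ∑ a, ‖nab I F.e W a (fun y => f2 _ _ (s2 _ _ (u y))) x‖ ^ 2
          + ∑ a, ∑ s, ‖cov2 I F.e Γ (adw W) (fun s y => s2 _ _ (s2 _ _ (u y)) s) a s x‖ ^ 2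
          + kA d F Γ W x (u x) (u x)) ∂F.μ := by
  have := C.boch_adj hR 0 hu hu hc pu pu
  have h0 : Op.tr (0 : CL (Cf ι κ) (P2 (HS κ) (Ef ι κ))) = 0 := by rw [← trL_apply, map_zero]
  simpa only [zf_zero (hR.dft C.lc · _) (Pi.zero_apply _), h0, zero_apply, map_zero, sub_zero,
    real_inner_self_eq_norm_sq] using this

end Cp

/-! ### restriction to open and closed sets -/

/-- the bundles cut down to `O` (forms) and `O'` (spinors) -/
def ind (d : Bd M ι κ) (O O' : Set M) : Bd M ι κ :=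
  ⟨d.P, d.o, d.ρ, O.indicator d.g, fun x => idx (d.Px x) (O.indicator d.g x),
    fun x => idx (sdm (d.Px x) (d.ox x)) (O.indicator d.g x), O'.indicator d.sp, O'.indicator d.sm⟩

section ind
variable {N : Type} [NormedAddCommGroup N] [NormedSpace ℝ N] {O O' : Set M}

theorem ind_ev (h : IsClopen O) (f : M → N) (x : M) :
    (x ∈ O ∧ O.indicator f =ᶠ[𝓝 x] f) ∨ (x ∉ O ∧ O.indicator f =ᶠ[𝓝 x] fun _ => 0) := by
  by_cases hx : x ∈ O
  · exact .inl ⟨hx, (h.2.eventually_mem hx).mono fun y hy => Set.indicator_of_mem hy f⟩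
  · exact .inr ⟨hx, (h.1.isOpen_compl.eventually_mem hx).mono fun y hy =>
      Set.indicator_of_notMem hy f⟩

theorem sm_ind (h : IsClopen O) {f : M → N} (hf : Sm I f) : Sm I (O.indicator f) := fun x => by
  rcases ind_ev h f x with ⟨-, k⟩ | ⟨-, k⟩
  · exact (hf x).congr_of_eventuallyEq k
  · exact contMDiffAt_const.congr_of_eventuallyEq k

theorem par_ind (h : IsClopen O) {A : ι → M → N →L[ℝ] N} {p : M → N →L[ℝ] N} {a : ι}
    (hp : nabE I F.e A a p x = 0) : nabE I F.e A a (O.indicator p) x = 0 := by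
  rcases ind_ev h p x with ⟨-, k⟩ | ⟨-, k⟩
  · rw [nabE_congr a k, hp]
  · rw [nabE_congr a k]; simp [nabE]

theorem prj_ind {V : Type} [NormedAddCommGroup V] [InnerProductSpace ℝ V] {p : M → V →L[ℝ] V}
    (h : Prj p) (O : Set M) : Prj (O.indicator p) :=
  ⟨fun x v => by by_cases hx : x ∈ O <;> simp [hx, h.idem],
    fun x v w => by by_cases hx : x ∈ O <;> simp [hx, h.symm]⟩

theorem ok_ind (h : d.OK) (O O' : Set M) : (ind d O O').OK where
  vol := h.vol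
  g := prj_ind h.g O
  p1 _ := rfl
  p2 _ := rfl
  sp := prj_ind h.sp O'
  sm := prj_ind h.sm O'
  sk := h.sk
  Pρ := h.Pρ
  clp a b x v := by by_cases hx : x ∈ O' <;> simp [ind, hx, h.clp]
  clm a b x v := by by_cases hx : x ∈ O' <;> simp [ind, hx, h.clm]
  mp a x v := by by_cases hx : x ∈ O' <;> simp [ind, hx, h.mp]
  pm a x v := by by_cases hx : x ∈ O' <;> simp [ind, hx, h.pm]

theorem Cp.ind (C : Cp d F Γ W) (h : IsClopen O) (h' : IsClopen O') : Cp (ind d O O') F Γ W :=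
  ⟨ok_ind C.ok O O', C.P, C.lc, C.so, C.sρ, sm_ind h C.sg, sm_ind h' C.ssp, sm_ind h' C.ssm, C.con,
    C.sk, fun a x => par_ind h (C.g a x), fun a x => par_ind h' (C.sp a x),
    fun a x => par_ind h' (C.sm a x), C.ρ⟩

end ind

/-! ### the bundles of a module -/

section md
variable {lam : Type} [Fintype lam] {m : Md M ι lam} {B : Base M ι lam} {G : Geo I M ι lam}
  {W : m.Cn}

/-- the bundles of a module -/
def bdOf (B : Base M ι lam) (m : Md M ι lam) : Bd M ι (Fin m.N) := ⟨B.P, B.o, m.ρ, m.pg, m.p1 B, m.p2 B, m.pp B, m.pm B⟩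

theorem vol_of (hB : B.OK I) (x : M) : Vol (fun a b => B.P a b x) fun a b c d => B.o a b c d x :=
  ⟨hB.pr x, hB.rk x, (hB.o12 · · · · x), (hB.o23 · · · · x), (hB.o34 · · · · x), (hB.oP · · · · x),
    hB.onm x⟩

theorem bdOf_ok (hB : B.OK I) (H : m.OK I B) : (bdOf B m).OK := by
  have k : ∀ {S T U : En (Fin m.N)}, S * T = U → ∀ v, S (T v) = U v := fun h v => h ▸ rfl
  have cl : ∀ a b x v, m.p x v = v → m.ρ a x (m.ρ b x v) + m.ρ b x (m.ρ a x v)
      = (-2 * B.P a b x) • v := fun a b x v h => by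
    have := congrArg (fun T : En (Fin m.N) => T v) ((H.cl x).rel a b)
    simpa only [add_apply, mul_apply_eq_comp, smul_apply, h] using this
  exact ⟨vol_of hB, ⟨pg_pg, inner_pg⟩, fun _ => rfl, fun _ => rfl,
    ⟨fun x => k (pp_pp hB H x), pp_sym hB H⟩, ⟨fun x => k (pm_pm hB H x), pm_sym hB H⟩, H.ρsk,
    fun a x => (H.cl x).proj a, fun a b x v => cl a b x _ (k (p_pp H x) v),
    fun a b x v => cl a b x _ (k (p_pm H x) v),
    fun a x v => (k (pm_rho hB H a x) _).trans (congrArg (m.ρ a x) (k (pp_pp hB H x) v)),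
    fun a x v => (k (pp_rho hB H a x) _).trans (congrArg (m.ρ a x) (k (pm_pm hB H x) v))⟩

variable (hB : B.OK I) (hG : G.OK B) (H : m.OK I B) (C : m.IsConn B G W)
include hB hG H C

theorem cp_of : Cp (bdOf B m) G.F G.F.Gam W :=
  ⟨bdOf_ok hB H, hG.P, lc_gam G.F, hB.so, H.sρ, Std94.sm_pg hB H, sm_pp H hB, sm_pm H hB,
    hG.P ▸ C.cc.toCon, C.sk, pg_par H C (Std94.sm_pg hB H), pp_par hB H C, pm_par hB H C, C.cc.comp⟩

theorem adc_curv_g (a b : ι) {ξ : m.A} (h : m.pg x ξ = ξ) :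
    adc (curv I G.F.e G.F.c W a b x) ξ = adc (opL (m.Fg G.F W x (a, b))) ξ := by
  rw [← curv_adW (C.cc.sm · x), curv_adW_g hB hG H C a b (h ▸ pg_mem x ξ)]

theorem inner_wK' (u : m.V) {v : m.V} (h : m.p x v = v) :
    ⟪u, wK I G.F.e G.F.c m.ρ W x v⟫_ℝ = sc G x / 4 * ⟪u, v⟫_ℝ
      + 1 / 4 * ∑ s, fL B G x s * ⟪u, rb m x s (m.J v)⟫_ℝ
      + 1 / 2 * ∑ s, ⟪u, opL (m.Fg G.F W x s) (rb m x s v)⟫_ℝ := by
  simp only [wK_eq hB hG H C, add_apply, smul_apply, _root_.sum_apply, mul_apply_eq_comp, h,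
    inner_add_right, real_inner_smul_right, inner_sum]

/-- the curvature term for a flat connection -/
theorem kF_flat {d : Bd M ι (Fin m.N)} (hρ : d.ρ = m.ρ) (h1 : m.Fg G.F W x = 0)
    (h2 : ∀ s, fL B G x s = 0) (u : Cf ι (Fin m.N)) {w : Cf ι (Fin m.N)}
    (hg : ∀ a, m.pg x (fa w a) = fa w a) (hp : m.p x (fp w) = fp w) :
    kF d G.F G.F.Gam W x u w = ∑ a, ∑ t, Ric I G.F.e G.F.c G.F.Gam a t x * ⟪fa u a, fa w t⟫_ℝ
      + sc G x / 4 * ⟪fp u, fp w⟫_ℝ := by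
  simp [kF, hρ, adc_curv_g hB hG H C _ _ (hg _), inner_wK' hB hG H C _ hp, h1, h2, adc_apply]

/-- the curvature term of the adjoint for a flat connection -/
theorem kA_flat {d : Bd M ι (Fin m.N)} (hρ : d.ρ = m.ρ) (h1 : m.Fg G.F W x = 0)
    (h2 : ∀ s, fL B G x s = 0) (y : P2 m.A (Ef ι (Fin m.N))) {z : P2 m.A (Ef ι (Fin m.N))}
    (hg : m.pg x (f2 _ _ z) = f2 _ _ z)
    (hg' : ∀ s, m.pg x (s2 _ _ (s2 _ _ z) s) = s2 _ _ (s2 _ _ z) s)
    (hp : m.p x (f2 _ _ (s2 _ _ z)) = f2 _ _ (s2 _ _ z)) :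
    kA d G.F G.F.Gam W x y z = sc G x / 2 * ⟪s2 _ _ (s2 _ _ y), s2 _ _ (s2 _ _ z)⟫_ℝ
      + 2 * ∑ a, ∑ b, ∑ k, ∑ j, Rm I G.F.e G.F.c G.F.Gam a b k j x
        * ⟪s2 _ _ (s2 _ _ y) (a, k), s2 _ _ (s2 _ _ z) (b, j)⟫_ℝ
      + sc G x / 4 * ⟪f2 _ _ (s2 _ _ y), f2 _ _ (s2 _ _ z)⟫_ℝ := by
  simp [kA, hρ, adc_curv_g hB hG H C _ _ (hg' _), adc_curv_g hB hG H C _ _ hg,
    inner_wK' hB hG H C _ hp, h1, h2, adc_apply]

omit hG C in
theorem bdOf_mem {w : Cf ι (Fin m.N)} (h : (bdOf B m).pC x w = w) :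
    (∀ a, m.pg x (fa w a) = fa w a) ∧ m.pp B x (fp w) = fp w ∧ m.p x (fp w) = fp w := by
  have h2 : m.pp B x (fp w) = fp w := sp_of h
  refine ⟨fun a => ?_, h2, ?_⟩
  · rw [← p1_of h]; exact (bdOf_ok hB H).g_p1 x _ a
  · rw [← h2, ← mul_apply_eq_comp, p_pp H]

end md

end Crest.Agent.X212.Wz78
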