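import Crest.Agent.X212.Wz78.Gw

/-! Parallel structures on `g`, Bianchi identity, divergence and Laplacian of the curvature. -/

open scoped Manifold ContDiff Topology InnerProductSpace
open Finset Filter

set_option linter.unusedSectionVars false

noncomputable section
namespace Crest.Agent.X212.Wz78
open An Sob92

section gen
variable {E H : Type*} [NormedAddCommGroup E] [NormedSpace ℝ E] [TopologicalSpace H]
  {I : ModelWithCorners ℝ E H} {M : Type*} [TopologicalSpace M] [ChartedSpace H M]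
  {V V' : Type*} [NormedAddCommGroup V] [NormedSpace ℝ V] [NormedAddCommGroup V'] [NormedSpace ℝ V']
  {ι : Type*} [Fintype ι] [IsManifold I 1 M]
  {e : ι → (x : M) → TangentSpace I x} {P : ι → ι → M → ℝ}
  {c : ι → ι → ι → M → ℝ} {A : ι → M → V →L[ℝ] V} {x : M}

theorem nab_map (L : V →L[ℝ] V') {A' : ι → M → V' →L[ℝ] V'} {u : M → V} (a : ι)
    (h : A' a x (L (u x)) = L (A a x (u x))) (hu : SA I u x) :
    nab I e A' a (fun y => L (u y)) x = L (nab I e A a u x) := by
  rw [nab, nab, dv_clm L hu.md, h, map_add]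

theorem nab_csmul (a : ι) (r : ℝ) {u : M → V} (hu : SA I u x) :
    nab I e A a (fun y => r • u y) x = r • nab I e A a u x := by
  rw [nab_smul a contMDiffAt_const hu]; simp

theorem nab_neg (a : ι) (u : M → V) : nab I e A a (fun y => -u y) x = -nab I e A a u x := by
  rw [nab, nab, show dv I (e a) (fun y => -u y) x = _ from dv_neg u x, map_neg, neg_add]

variable (I e c A) in
/-- The covariant exterior derivative of a `V`-valued two-form. -/
def d2 (θ : ι → ι → M → V) (a b m : ι) (x : M) : V :=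
  (nab I e A a (θ b m) x - ∑ k, c b m k x • θ k a x)
    + (nab I e A b (θ m a) x - ∑ k, c m a k x • θ k b x)
    + (nab I e A m (θ a b) x - ∑ k, c a b k x • θ k m x)

variable (I e A) in
/-- Frame divergence of a two-form. -/
def dv2 (θ : ι → ι → M → V) (m : ι) (x : M) : V := ∑ a, nab I e A a (θ a m) x

/-- Frame Laplacian of a closed two-form. -/
theorem Frm.lap2 (F : Frm I e P c) (hA : ∀ a, SA I (A a) x) {θ : ι → ι → M → V}
    (hs : ∀ a b, SA I (θ a b) x) (h1 : ∀ a b y, θ a b y = -θ b a y)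
    (h2 : ∀ a b m, ∀ᶠ y in 𝓝 x, d2 I e c A θ a b m y = 0) (b m : ι) :
    ∑ a, nab I e A a (nab I e A a (θ b m)) x
      = nab I e A b (dv2 I e A θ m) x - nab I e A m (dv2 I e A θ b) x
        + ∑ a, (curv I e c A a b x (θ a m x) - curv I e c A a m x (θ a b x))
        + ∑ a, ∑ k, (c a b k x • nab I e A k (θ a m) x - c a m k x • nab I e A k (θ a b) x)
        + ∑ a, nab I e A a (fun y => ∑ k,
          (c b m k y • θ k a y + c m a k y • θ k b y + c a b k y • θ k m y)) x := by
  have hn := fun a b m => F.sN hA a (hs b m)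
  have e1 : ∀ a, nab I e A a (θ b m) =ᶠ[𝓝 x] fun y =>
      nab I e A b (θ a m) y - nab I e A m (θ a b) y + ∑ k,
        (c b m k y • θ k a y + c m a k y • θ k b y + c a b k y • θ k m y) := fun a =>
    (h2 a b m).mono fun y hy => by
      rw [d2, show θ m a = fun y => -θ a m y from _root_.funext (h1 m a), nab_neg] at hy
      simp only [sum_add_distrib]
      rw [← sub_eq_zero, ← hy]; abel
  have e2 : ∀ b m, nab I e A b (dv2 I e A θ m) x = ∑ a, nab I e A b (nab I e A a (θ a m)) x :=
    fun b m => nab_sum b _ fun a => hn a a m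
  simp only [e2, ← F.nab_comm hA _ _ (hs _ _), ← sum_sub_distrib, ← sum_add_distrib]
  refine sum_congr rfl fun a _ => ?_
  have hS : SA I (fun y => ∑ k,
      (c b m k y • θ k a y + c m a k y • θ k b y + c a b k y • θ k m y)) x := SA.sum _ fun k _ =>
    (((F.sc _ _ _ x).smul (hs _ _)).add ((F.sc _ _ _ x).smul (hs _ _))).add
      ((F.sc _ _ _ x).smul (hs _ _))
  rw [nab_congr a (e1 a), nab_add a ((hn b a m).sub (hn m a b)) hS,
    nab_sub a (hn b a m) (hn m a b)]
  simp only [sum_sub_distrib]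
  abel

/-- Frame divergence of the dual of a closed two-form. -/
theorem dv2_star {θ : ι → ι → M → V} {o : ι → ι → ι → ι → M → ℝ} (hs : ∀ a b, SA I (θ a b) x)
    (ho : ∀ a b k l, SA I (o a b k l) x) (o12 : ∀ a b k l, o a b k l x = -o b a k l x)
    (o23 : ∀ a b k l, o a b k l x = -o a k b l x) (o34 : ∀ a b k l, o a b k l x = -o a b l k x)
    (h2 : ∀ a b m, d2 I e c A θ a b m x = 0) (m : ι) :
    dv2 I e A (fun a b y => ∑ k, ∑ l, o a b k l y • θ k l y) m x
      = ∑ a, ∑ k, ∑ l, (dv I (e a) (o a m k l) x • θ k l x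
        + o a m k l x • ∑ j, c k l j x • θ j a x) := by
  have cyc : ∀ X : ι → ι → ι → V,
      ∑ a, ∑ k, ∑ l, o a m k l x • X k l a = ∑ a, ∑ k, ∑ l, o a m k l x • X a k l := fun X => by
    have : ∀ a k l, o a m k l x = o k m l a x := fun a k l => by
      rw [o12, o23, o34, o12 k]; ring
    rw [sum_congr rfl fun a _ => sum_congr rfl fun k _ => sum_congr rfl fun l _ => by
      rw [this a k l], sum_comm]
    exact sum_congr rfl fun k _ => sum_comm
  have h := cyc fun a k l => nab I e A a (θ k l) x - ∑ j, c k l j x • θ j a x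
  have h' := (cyc fun k l a => nab I e A a (θ k l) x - ∑ j, c k l j x • θ j a x).symm
  have h3 : (3 : ℝ) • ∑ a, ∑ k, ∑ l, o a m k l x •
      (nab I e A a (θ k l) x - ∑ j, c k l j x • θ j a x) = 0 := by
    have : ∑ a, ∑ k, ∑ l, o a m k l x • d2 I e c A θ a k l x = 0 := by simp [h2]
    simp only [d2, smul_add, sum_add_distrib, h, h'] at this
    rw [← this]; module
  rw [smul_eq_zero, or_iff_right three_ne_zero] at h3
  simp only [smul_sub, sum_sub_distrib, sub_eq_zero] at h3
  simp only [dv2, sum_add_distrib, ← h3]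
  simp only [← sum_add_distrib]
  refine sum_congr rfl fun a _ => ?_
  rw [nab_sum a _ fun k => SA.sum _ fun l _ => (ho a m k l).smul (hs k l)]
  refine sum_congr rfl fun k _ => ?_
  rw [nab_sum a _ fun l => (ho a m k l).smul (hs k l)]
  exact sum_congr rfl fun l _ => nab_smul a (ho a m k l) (hs k l)

end gen

section ip
variable {E H : Type*} [NormedAddCommGroup E] [NormedSpace ℝ E] [TopologicalSpace H]
  {I : ModelWithCorners ℝ E H} {M : Type*} [TopologicalSpace M] [ChartedSpace H M]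
  {V : Type*} [NormedAddCommGroup V] [InnerProductSpace ℝ V]
  {ι : Type*} [Fintype ι] [IsManifold I 1 M]
  {e : ι → (x : M) → TangentSpace I x} {A : ι → M → V →L[ℝ] V} {x : M}

/-- An orthogonal projector whose range is preserved by a metric connection is parallel. -/
theorem proj_par {π : M → V →L[ℝ] V} (hs : SA I π x) (h1 : ∀ y, π y * π y = π y)
    (h2 : ∀ y v w, ⟪π y v, w⟫_ℝ = ⟪v, π y w⟫_ℝ) (a : ι) (hA : Skew (A a x))
    (h : ∀ v, π x (nab I e A a (fun y => π y v) x) = nab I e A a (fun y => π y v) x) :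
    nabE I e A a π x = 0 := by
  have e1 : ∀ v, π x (nabE I e A a π x v) = nabE I e A a π x v := fun v => by
    have := h v
    rw [nab_app' (u := fun _ => v) a hs contMDiffAt_const, map_add, ← mul_apply_eq_comp (π x) (π x),
      h1] at this
    exact add_right_cancel this
  have e2 : ∀ v w, ⟪nabE I e A a π x v, w⟫_ℝ = ⟪v, nabE I e A a π x w⟫_ℝ := fun v w => by
    have hc : ∀ v : V, SA I (fun _ : M => v) x := fun _ => contMDiffAt_const
    have := dv_inner (e := e) a hA (hs.app (hc v)) (hc w)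
    simp only [h2] at this
    rw [dv_inner a hA (hc v) (hs.app (hc w)), nab_app' a hs (hc v), nab_app' a hs (hc w)] at this
    simp only [inner_add_left, inner_add_right, h2] at this
    linarith
  have e3 := nabE_mul (e := e) (A := A) a hs hs
  simp only [h1] at e3
  rw [show π x * nabE I e A a π x = _ from ContinuousLinearMap.ext e1, right_eq_add] at e3
  ext v
  refine ext_inner_left ℝ fun w => ?_
  rw [← e1, ← h2, ← e2, ← mul_apply_eq_comp, e3]; simp

theorem SA.toLp {α : Type*} [Fintype α] {f : α → M → V} (h : ∀ s, SA I (f s) x) :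
    SA I (fun y => (WithLp.toLp 2 fun s => f s y : PiLp 2 fun _ : α => V)) x :=
  SA.clm (PiLp.continuousLinearEquiv 2 ℝ fun _ : α => V).symm.toContinuousLinearMap
    (contMDiffAt_pi_space.2 h)

theorem SA.comp {α : Type*} [Fintype α] {f : M → PiLp 2 fun _ : α => V} (h : SA I f x) (s : α) :
    SA I (fun y => f y s) x := SA.clm (PiLp.proj 2 (fun _ : α => V) s) h

end ip

variable {E : Type} [NormedAddCommGroup E] [NormedSpace ℝ E] [FiniteDimensional ℝ E]
  [MeasurableSpace E] [BorelSpace E]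
  {HM : Type} [TopologicalSpace HM] {I : ModelWithCorners ℝ E HM}
  {M : Type} [TopologicalSpace M] [ChartedSpace HM M] [IsManifold I ∞ M]
  [MeasurableSpace M] {ι : Type} [Fintype ι] {lam : Type} [Fintype lam]
  {m : Md M ι lam} {B : Base M ι lam} {G : Geo I M ι lam} {W : m.Cn} {x : M}
  {e : ι → (x : M) → TangentSpace I x} {c : ι → ι → ι → M → ℝ}

theorem sa_adW {a : ι} (h : SA I (W a) x) : SA I (m.adW W a) x := SA.clm adcL h

theorem opL_nab (a : ι) {ξ : M → m.A} (h : SA I ξ x) :
    nabE I e W a (fun y => opL (ξ y)) x = opL (nab I e (m.adW W) a ξ x) :=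
  nab_map (A' := fun a y => ad _ (W a y)) opL a (opL_adc _ _).symm h

theorem hsL_nab (a : ι) {T : M → En (Fin m.N)} (h : SA I T x) :
    nab I e (m.adW W) a (fun y => hsL (T y)) x = hsL (nabE I e W a T x) :=
  nab_map (A := fun a y => ad _ (W a y)) hsL a (by rw [Md.adW, adc_apply, opL_hsL]; rfl) h

theorem sa_rk1 {u v : M → m.V} (hu : SA I u x) (hv : SA I v x) :
    SA I (fun y => rk1 (u y) (v y)) x :=
  SA.app (SA.clm (ContinuousLinearMap.smulRightL ℝ m.V m.V) (SA.clm (innerSL ℝ) hv)) hu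

theorem rk1_nab (a : ι) (hW : Skw (W a x)) {u v : M → m.V} (hu : SA I u x) (hv : SA I v x) :
    nabE I e W a (fun y => rk1 (u y) (v y)) x
      = rk1 (nab I e W a u x) (v x) + rk1 (u x) (nab I e W a v x) := by
  ext1 w
  have hc : SA I (fun _ : M => w) x := contMDiffAt_const
  have := nab_app' (e := e) (A := W) a (sa_rk1 hu hv) hc
  simp only [rk1_apply] at this
  rw [nab_smul a (hv.inner hc) hu, dv_inner a hW hv hc, add_smul, add_right_comm,
    add_left_inj] at this
  rw [← this, add_apply, rk1_apply, rk1_apply, add_comm]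

theorem curv_adW (hW : ∀ a, SA I (W a) x) (a b : ι) :
    curv I e c (m.adW W) a b x = adc (curv I e c W a b x) :=
  curv_map adcL hW a b (adc_lie _ _)

section conn
variable (hB : B.OK I) (hG : G.OK B) (H : m.OK I B) (C : m.IsConn B G W)
include C

theorem con_adW : Con I B.P (m.adW W) :=
  ⟨fun a x => sa_adW (C.cc.sm a x), fun a x => by
    simp only [Md.adW, ← adcL_apply, ← map_smul, ← map_sum, C.cc.proj]⟩

theorem adW_skw (a : ι) (x : M) : Skw (m.adW W a x) := adc_skw (C.sk a x)

include H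

/-- The connection preserves `g`. -/
theorem nab_mem_g (a : ι) {ξ : M → m.A} (hs : SA I ξ x) (h : ∀ y, ξ y ∈ m.gS y) :
    nab I G.F.e (m.adW W) a ξ x ∈ m.gS x := by
  have hT := SA.clm opL hs
  have key : ∀ {T : M → En (Fin m.N)}, SA I T x → (∀ y, T y * opL (ξ y) = opL (ξ y) * T y) →
      nabE I G.F.e W a T x * opL (ξ x) = opL (ξ x) * nabE I G.F.e W a T x →
      T x * opL (nab I G.F.e (m.adW W) a ξ x) = opL (nab I G.F.e (m.adW W) a ξ x) * T x :=
    fun {T} h1 h2 h3 => by
      have := nabE_mul (e := G.F.e) (A := W) a h1 hT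
      simp only [h2] at this
      rw [nabE_mul a hT h1, h3, add_comm, add_right_inj, opL_nab a hs] at this
      exact this.symm
  refine ⟨fun v w => ?_, ?_, key contMDiffAt_const (fun y => g_J (h y)) (by simp [nabE_J C]),
    fun b => key (H.sρ b x) (fun y => g_ρ (h y) b) ?_,
    fun s => key (SA.app (H.sj x) contMDiffAt_const) (fun y => g_j (h y) s) ?_⟩
  · simp only [← opL_nab a hs, nabE, add_apply, sub_apply, mul_apply_eq_comp, inner_add_left,
      inner_sub_left, inner_add_right, inner_sub_right, skew_dv hT (fun y => g_skw (h y)) a v,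
      C.sk a x _, g_skw (h x) _]
    ring
  · have := nabE_mul (e := G.F.e) (A := W) a (H.sp x) hT
    simp only [fun y => g_p (h y)] at this
    rw [show nabE I G.F.e W a m.p x = 0 from C.cc.par a x, zero_mul, zero_add, opL_nab a hs] at this
    exact this.symm
  · rw [show nabE I G.F.e W a (m.ρ b) x = _ from C.cc.comp a b x]
    simp only [sum_mul, mul_sum, smul_mul_assoc, mul_smul_comm, g_ρ (h x)]
  · rw [nabE_j C H a contMDiffAt_const, g_j (h x)]

theorem rb_nab (a : ι) (s : ι × ι) (x : M) : nabE I G.F.e W a (fun y => rb m y s) x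
    = ∑ k, G.F.Gam a s.1 k x • rb m x (k, s.2) + ∑ k, G.F.Gam a s.2 k x • rb m x (s.1, k) := by
  have h := fun b => show nabE I G.F.e W a (m.ρ b) x = _ from C.cc.comp a b x
  have hs := fun b k => SA.mul (H.sρ b x) (H.sρ k x)
  unfold rb
  rw [nabE_smul a contMDiffAt_const ((hs _ _).sub (hs _ _)), nabE_sub a (hs _ _) (hs _ _),
    nabE_mul a (H.sρ _ x) (H.sρ _ x), nabE_mul a (H.sρ _ x) (H.sρ _ x), h, h]
  simp only [dv_const, Pi.zero_apply, zero_smul, sum_mul, mul_sum, smul_mul_assoc,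
    mul_smul_comm, smul_comm _ (1 / 2 : ℝ), ← smul_sum, smul_sub, sum_sub_distrib]
  module

theorem rp_nab (hB : B.OK I) (a : ι) (s : ι × ι) (x : M) : nabE I G.F.e W a (fun y => rp m B y s) x
    = ∑ k, G.F.Gam a s.1 k x • rp m B x (k, s.2) + ∑ k, G.F.Gam a s.2 k x • rp m B x (s.1, k) := by
  unfold rp
  rw [nabE_mul a (sm_rb H s x) (sm_pp H hB x), rb_nab H C, pp_par hB H C]
  simp only [add_mul, sum_mul, smul_mul_assoc, mul_zero, add_zero]

include hB hG in
/-- On `g` the curvature of the induced connection is the bracket with `Fg`. -/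
theorem curv_adW_g (a b : ι) {ξ : m.A} (h : ξ ∈ m.gS x) :
    curv I G.F.e G.F.c (m.adW W) a b x ξ = adc (opL (m.Fg G.F W x (a, b))) ξ := by
  rw [curv_adW fun a => C.cc.sm a x, adc_apply, adc_apply]
  congr 1
  have e1 : curv I G.F.e G.F.c W a b x * opL ξ = curv I G.F.e G.F.c W a b x * m.p x * opL ξ := by
    rw [mul_assoc, g_p h]
  have e2 : opL ξ * curv I G.F.e G.F.c W a b x = opL ξ * (curv I G.F.e G.F.c W a b x * m.p x) := by
    rw [C.cc.curv_p (gfrm hG), ← mul_assoc, g_p' H h]
  rw [e1, e2, curv_eq hB hG H C]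
  simp only [add_mul, mul_add, smul_mul_assoc, mul_smul_comm, mul_assoc, g_p h, spin, sum_mul,
    mul_sum, g_ρ h]
  simp only [← mul_assoc, g_ρ h, ← g_J h]
  rw [mul_assoc m.J, g_p' H h]
  abel

variable (hs : Sm I m.pg)
include hs

theorem pg_par (a : ι) (x : M) : nabE I G.F.e (m.adW W) a m.pg x = 0 :=
  proj_par (hs x) pg_mul_pg inner_pg a (adW_skw C a x) fun _ => pg_of_mem
    (nab_mem_g H C a (SA.app (hs x) contMDiffAt_const) fun y => pg_mem y _)

theorem pg_nab (a : ι) {ξ : M → m.A} (h : SA I ξ x) :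
    nab I G.F.e (m.adW W) a (fun y => m.pg y (ξ y)) x = m.pg x (nab I G.F.e (m.adW W) a ξ x) := by
  rw [nab_app' a (hs x) h, pg_par H C hs]; simp

omit H C in
theorem sa_q {u v : M → m.V} (hu : SA I u x) (hv : SA I v x) :
    SA I (fun y => m.q y (u y) (v y)) x := SA.app (hs x) (SA.clm hsL (sa_rk1 hu hv))

theorem q_nab (a : ι) {u v : M → m.V} (hu : SA I u x) (hv : SA I v x) :
    nab I G.F.e (m.adW W) a (fun y => m.q y (u y) (v y)) x
      = m.q x (nab I G.F.e W a u x) (v x) + m.q x (u x) (nab I G.F.e W a v x) := by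
  unfold Md.q
  rw [pg_nab H C hs a (SA.clm hsL (sa_rk1 hu hv)), hsL_nab a (sa_rk1 hu hv),
    rk1_nab a (C.sk a x) hu hv, map_add, map_add]

omit C in
theorem sa_mu (hB : B.OK I) {u v : M → m.V} (hu : SA I u x) (hv : SA I v x) (s : ι × ι) :
    SA I (fun y => m.mu B y (u y) (v y) s) x := by
  simp only [mu_apply hB H]
  exact sa_q hs hu (SA.app (sm_rp hB H s x) hv)

theorem mu_nab (hB : B.OK I) (a : ι) {u v : M → m.V} (hu : SA I u x) (hv : SA I v x) (s : ι × ι) :
    nab I G.F.e (m.adW W) a (fun y => m.mu B y (u y) (v y) s) x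
      = m.mu B x (nab I G.F.e W a u x) (v x) s + m.mu B x (u x) (nab I G.F.e W a v x) s
        + ∑ k, G.F.Gam a s.1 k x • m.mu B x (u x) (v x) (k, s.2)
        + ∑ k, G.F.Gam a s.2 k x • m.mu B x (u x) (v x) (s.1, k) := by
  simp only [mu_apply hB H]
  rw [q_nab H C hs a hu (SA.app (sm_rp hB H s x) hv), nab_app' a (sm_rp hB H s x) hv,
    rp_nab H C hB]
  simp only [← qL_apply, add_apply, _root_.sum_apply, smul_apply, map_add, map_sum, map_smul]
  abel

include hG

omit H in
theorem sm_Fg (s : ι × ι) : Sm I fun y => m.Fg G.F W y s := fun x =>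
  SA.app (hs x) (SA.clm hsL ((gfrm hG).sCurv (fun a => C.cc.sm a x) _ _))

theorem Fg_nab (a : ι) (s : ι × ι) (x : M) : nab I G.F.e (m.adW W) a (fun y => m.Fg G.F W y s) x
    = m.pg x (hsL (nabE I G.F.e W a (curv I G.F.e G.F.c W s.1 s.2) x)) := by
  have h := (gfrm hG).sCurv (fun a => C.cc.sm a x) s.1 s.2
  rw [← hsL_nab a h, ← pg_nab H C hs a (SA.clm hsL h)]
  rfl

/-- Bianchi identity for `Fg`. -/
theorem Fg_bianchi (a b k : ι) (x : M) :
    d2 I G.F.e G.F.c (m.adW W) (fun a b y => m.Fg G.F W y (a, b)) a b k x = 0 := by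
  have := congrArg (fun T => m.pg x (hsL T))
    ((glc hG).bianchi2 (gfrm hG) (gsep hG) C.cc.toCon a b k x)
  simp only [map_add, map_sub, map_sum, map_smul, map_zero] at this
  simp only [d2, Fg_nab hG H C hs]
  exact this

/-- The divergence of `Fg` in terms of its self-dual part. -/
theorem Fg_div (hB : B.OK I) (k : ι) (x : M) :
    dv2 I G.F.e (m.adW W) (fun a b y => m.Fg G.F W y (a, b)) k x
      = (2 : ℝ) • dv2 I G.F.e (m.adW W) (fun a b y => m.p2 B y (m.Fg G.F W y) (a, b)) k x
        - (1 / 2 : ℝ) • ∑ a, ∑ i, ∑ l, (G.F.D a (B.o a k i l) x • m.Fg G.F W x (i, l)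
          + B.o a k i l x • ∑ j, G.F.c i l j x • m.Fg G.F W x (j, a)) := by
  have hF := fun s => sm_Fg hG C hs s x
  have h := dv2_star (e := G.F.e) (c := G.F.c) (A := m.adW W)
    (θ := fun a b y => m.Fg G.F W y (a, b)) (fun a b => hF (a, b))
    (fun a b k l => hB.so a b k l x) (fun a b k l => hB.o12 a b k l x)
    (fun a b k l => hB.o23 a b k l x) (fun a b k l => hB.o34 a b k l x)
    (fun a b k => Fg_bianchi hG H C hs a b k x) k
  have e1 : ∀ a b y, m.p2 B y (m.Fg G.F W y) (a, b) = (1 / 2 : ℝ) • m.Fg G.F W y (a, b)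
      + (1 / 4 : ℝ) • ∑ i, ∑ l, B.o a b i l y • m.Fg G.F W y (i, l) := fun a b y => by
    simp only [Md.p2, idx_apply, pg_of_mem (Fg_mem _ _), Base.sd, div_eq_inv_mul, mul_smul,
      ← smul_sum, add_smul, sum_add_distrib, a2_Fg hG C, mul_one]
    simp only [Base.st, div_eq_inv_mul, mul_smul, ← smul_sum, Fintype.sum_prod_type]
    module
  have hS : ∀ a, SA I (fun y => ∑ i, ∑ l, B.o a k i l y • m.Fg G.F W y (i, l)) x := fun a =>
    SA.sum _ fun i _ => SA.sum _ fun l _ => SA.smul (hB.so _ _ _ _ x) (hF _)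
  simp only [Pre.D_def, ← h]
  simp only [dv2, e1, fun a => nab_add (e := G.F.e) (A := m.adW W) a
    (SA.smul (f := fun _ => (1 / 2 : ℝ)) contMDiffAt_const (hF (a, k)))
    (SA.smul (f := fun _ => (1 / 4 : ℝ)) contMDiffAt_const (hS a)),
    fun a r => nab_csmul (e := G.F.e) (A := m.adW W) a r (hF (a, k)),
    fun a r => nab_csmul (e := G.F.e) (A := m.adW W) a r (hS a), sum_add_distrib, ← smul_sum]
  module

/-- The frame Laplacian of `Fg`. -/
theorem Fg_lap (hB : B.OK I) (b k : ι) (x : M) :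
    ∑ a, nab I G.F.e (m.adW W) a (nab I G.F.e (m.adW W) a fun y => m.Fg G.F W y (b, k)) x
      = nab I G.F.e (m.adW W) b (dv2 I G.F.e (m.adW W) (fun a b y => m.Fg G.F W y (a, b)) k) x
        - nab I G.F.e (m.adW W) k (dv2 I G.F.e (m.adW W) (fun a b y => m.Fg G.F W y (a, b)) b) x
        + ∑ a, (adc (opL (m.Fg G.F W x (a, b))) (m.Fg G.F W x (a, k))
          - adc (opL (m.Fg G.F W x (a, k))) (m.Fg G.F W x (a, b)))
        + ∑ a, ∑ j, (G.F.c a b j x • nab I G.F.e (m.adW W) j (fun y => m.Fg G.F W y (a, k)) x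
          - G.F.c a k j x • nab I G.F.e (m.adW W) j (fun y => m.Fg G.F W y (a, b)) x)
        + ∑ a, nab I G.F.e (m.adW W) a (fun y => ∑ j, (G.F.c b k j y • m.Fg G.F W y (j, a)
          + G.F.c k a j y • m.Fg G.F W y (j, b) + G.F.c a b j y • m.Fg G.F W y (j, k))) x := by
  rw [(gfrm hG).lap2 (θ := fun a b y => m.Fg G.F W y (a, b)) (fun a => (con_adW C).sm a x)
    (fun a b => sm_Fg hG C hs (a, b) x) (fun a b _ => Fg_swap hG C (b, a))
    (fun a b k => Eventually.of_forall (Fg_bianchi hG H C hs a b k))]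
  simp only [curv_adW_g hB hG H C _ _ (Fg_mem _ _)]

end conn

end Crest.Agent.X212.Wz78
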