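import Crest.Agent.X212.Wz78.Sd
import Crest.Agent.X212.Std94.Xi
import Crest.Agent.X212.Std94.Alt

/-! The moment map of a spin^u module. -/

open scoped Manifold ContDiff Topology InnerProductSpace
open Finset Filter

set_option linter.unusedSectionVars false

noncomputable section
namespace Crest.Agent.X212.Wz78
open An

variable {E : Type} [NormedAddCommGroup E] [NormedSpace ℝ E] [FiniteDimensional ℝ E]
  [MeasurableSpace E] [BorelSpace E]
  {HM : Type} [TopologicalSpace HM] {I : ModelWithCorners ℝ E HM}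
  {M : Type} [TopologicalSpace M] [ChartedSpace HM M] [IsManifold I ∞ M]
  [MeasurableSpace M] {ι : Type} [Fintype ι] {lam : Type} [Fintype lam]
  {m : Md M ι lam} {B : Base M ι lam} {x : M}

variable (m) in
/-- Clifford action of `e a ∧ e b`. -/
def rb (x : M) (s : ι × ι) : En (Fin m.N) :=
  (1 / 2 : ℝ) • (m.ρ s.1 x * m.ρ s.2 x - m.ρ s.2 x * m.ρ s.1 x)

variable (m B) in
/-- Its restriction to `V⁺`. -/
def rp (x : M) (s : ι × ι) : En (Fin m.N) := rb m x s * m.pp B x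

variable (m) in
/-- `q` as a continuous bilinear map. -/
def qL (x : M) : CL m.V (CL m.V m.A) :=
  (ContinuousLinearMap.compL ℝ m.V (En (Fin m.N)) m.A (m.pg x ∘L hsL)).comp
    (((ContinuousLinearMap.compL ℝ m.V (CL m.V ℝ) (En (Fin m.N))).flip (innerSL ℝ)).comp
      (ContinuousLinearMap.smulRightL ℝ m.V m.V).flip)

theorem qL_apply (u v : m.V) : qL m x u v = m.q x u v := rfl

theorem q_mem (u v : m.V) : m.q x u v ∈ m.gS x := pg_mem x _

theorem inner_q (ξ : m.A) (u v : m.V) : ⟪ξ, m.q x u v⟫_ℝ = ⟪opL (m.pg x ξ) v, u⟫_ℝ := by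
  rw [Md.q, ← inner_pg, inner_rk1]

theorem inner_q' {ξ : m.A} (h : ξ ∈ m.gS x) (u v : m.V) :
    ⟪ξ, m.q x u v⟫_ℝ = ⟪opL ξ v, u⟫_ℝ := by rw [inner_q, pg_of_mem h]

theorem norm_q (u v : m.V) : ‖m.q x u v‖ ≤ ‖u‖ * ‖v‖ := (norm_pg x _).trans (norm_hsL_rk1 u v).le

theorem q_swap (u v : m.V) : m.q x u v = -m.q x v u := ext_inner_left ℝ fun ξ => by
  rw [inner_neg_right, inner_q, inner_q, g_skw (pg_mem x ξ), real_inner_comm]

theorem q_skw {T : En (Fin m.N)} (hT : Skw T) (h : ∀ ξ ∈ m.gS x, opL ξ * T = T * opL ξ)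
    (u v : m.V) : m.q x u (T v) = -m.q x (T u) v := ext_inner_left ℝ fun ξ => by
  rw [inner_neg_right, inner_q, inner_q, ← mul_apply_eq_comp, h _ (pg_mem x ξ), mul_apply_eq_comp,
    hT]

theorem q_sym {T : En (Fin m.N)} (hT : Sym T) (h : ∀ ξ ∈ m.gS x, opL ξ * T = T * opL ξ)
    (u v : m.V) : m.q x u (T v) = m.q x (T u) v := ext_inner_left ℝ fun ξ => by
  rw [inner_q, inner_q, ← mul_apply_eq_comp, h _ (pg_mem x ξ), mul_apply_eq_comp, hT]

theorem q_ad {ξ : m.A} (h : ξ ∈ m.gS x) (u v : m.V) :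
    m.q x (opL ξ u) v + m.q x u (opL ξ v) = adc (opL ξ) (m.q x u v) := by
  rw [Md.q, Md.q, Md.q, ← pg_adc h, adc_apply, opL_hsL, ← map_add, ← map_add]
  congr 2
  ext1 w
  simp [g_skw h v w, sub_eq_add_neg]

theorem rb_swap (s : ι × ι) : rb m x s.swap = -rb m x s := by
  simp only [rb, Prod.fst_swap, Prod.snd_swap, ← smul_neg, neg_sub]

theorem rb_comm {T : En (Fin m.N)} (h : ∀ a, T * m.ρ a x = m.ρ a x * T) (s : ι × ι) :
    T * rb m x s = rb m x s * T := by
  simp only [rb, mul_smul_comm, smul_mul_assoc, mul_sub, sub_mul,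
    fun a b => (Commute.mul_right (h a) (h b)).eq]

theorem rp_comm {T : En (Fin m.N)} (hp : T * m.p x = m.p x * T)
    (h : ∀ a, T * m.ρ a x = m.ρ a x * T) (s : ι × ι) : T * rp m B x s = rp m B x s * T :=
  (Commute.mul_right (rb_comm h s) (pp_comm hp h)).eq

variable (m B) in
/-- `mu` as a continuous bilinear map. -/
def muL (x : M) : CL m.V (CL m.V (Fm (ι × ι) m.A)) :=
  (ContinuousLinearMap.compL ℝ m.V (ι × ι → m.A) (Fm (ι × ι) m.A) (m.p2 B x ∘L
    (PiLp.continuousLinearEquiv 2 ℝ fun _ : ι × ι => m.A).symm.toContinuousLinearMap)).comp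
    (∑ s, (ContinuousLinearMap.compL ℝ m.V m.A (ι × ι → m.A)
      (open Classical in ContinuousLinearMap.single ℝ (fun _ : ι × ι => m.A) s)).comp
      (((ContinuousLinearMap.compL ℝ m.V m.V m.A).flip (m.ρ s.1 x * m.ρ s.2 x)).comp (qL m x)))

theorem muL_apply (u v : m.V) : muL m B x u v = m.mu B x u v := by
  simp only [muL, Md.mu, ContinuousLinearMap.comp_apply, ContinuousLinearMap.compL_apply]
  congr 2
  ext1 s
  simp [qL_apply, Finset.sum_apply, Pi.single_apply]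

section H
variable (hB : B.OK I) (H : m.OK I B)
include H

theorem rb_eq (s : ι × ι) : rb m x s = m.ρ s.1 x * m.ρ s.2 x + B.P s.1 s.2 x • m.p x := by
  rw [rb, (H.cl x).swap s.1 s.2]; module

theorem rb_p (s : ι × ι) : rb m x s * m.p x = rb m x s := by
  simp only [rb, smul_mul_assoc, sub_mul, mul_assoc, (H.cl x).pr]

theorem rb_skw (s : ι × ι) : Skw (rb m x s) := fun v w => by
  simp only [rb, smul_apply, sub_apply, mul_apply_eq_comp, real_inner_smul_left,
    real_inner_smul_right, inner_sub_left, inner_sub_right, H.ρsk _ x _]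
  ring

theorem sm_rb (s : ι × ι) : Sm I fun x => rb m x s := fun x => SA.smul contMDiffAt_const
  ((SA.mul (H.sρ _ x) (H.sρ _ x)).sub (SA.mul (H.sρ _ x) (H.sρ _ x)))

theorem a2_rho (s : ι × ι) : ∑ t, B.a2 x s t • (m.ρ t.1 x * m.ρ t.2 x) = rb m x s := by
  have h4 : ∀ a b, ∑ k, ∑ l, (B.P a k x * B.P b l x) • (m.ρ k x * m.ρ l x) = m.ρ a x * m.ρ b x :=
    fun a b => by rw [← rr_mul, (H.cl x).proj, (H.cl x).proj]
  have h5 := h4 s.2 s.1
  simp only [mul_comm (B.P s.2 _ x)] at h5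
  simp only [Base.a2, Fintype.sum_prod_type, div_eq_inv_mul, mul_smul (2⁻¹ : ℝ), ← smul_sum,
    sub_smul, sum_sub_distrib, h4, h5, rb, mul_one]

theorem g_rp {ξ : m.A} (h : ξ ∈ m.gS x) (s : ι × ι) : opL ξ * rp m B x s = rp m B x s * opL ξ :=
  rp_comm (by rw [g_p' H h, g_p h]) (fun a => (g_ρ h a).symm) s

theorem J_rp (s : ι × ι) : m.J * rp m B x s = rp m B x s * m.J :=
  rp_comm (H.Jp x) (fun a => H.Jρ a x) s

theorem j_rp (t : Eu lam) (s : ι × ι) : m.j x t * rp m B x s = rp m B x s * m.j x t :=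
  rp_comm (by rw [j_p H, H.pj]) (fun a => H.jρ a x t) s

theorem q_J (u v : m.V) : m.q x u (m.J v) = -m.q x (m.J u) v :=
  q_skw H.Jsk (fun _ h => (g_J h).symm) u v

theorem q_j (t : Eu lam) (u v : m.V) : m.q x u (m.j x t v) = m.q x (m.j x t u) v :=
  q_sym (H.jsym x t) (fun _ h => (g_j h t).symm) u v

theorem q_p (u v : m.V) : m.q x u (m.p x v) = m.q x u v := ext_inner_left ℝ fun ξ => by
  rw [inner_q, inner_q, ← mul_apply_eq_comp, g_p' H (pg_mem x ξ)]

include hB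

theorem sm_rp (s : ι × ι) : Sm I fun x => rp m B x s := fun x =>
  SA.mul (sm_rb H s x) (sm_pp H hB x)

theorem st_rho (s : ι × ι) :
    ∑ t, B.st x s t • (m.ρ t.1 x * m.ρ t.2 x) = -(rb m x s * m.om B x) := by
  obtain ⟨U, h⟩ := b_on hB x
  have := h.star (H.cl x) s.1 s.2
  simp only [Base.st, Fintype.sum_prod_type, div_eq_inv_mul, mul_smul, ← smul_sum, this, rb,
    smul_mul_assoc, smul_neg, mul_one]
  rfl

/-- Self-dual forms act on `V⁺` only. -/
theorem sd_rho (s : ι × ι) : ∑ t, B.sd x s t • (m.ρ t.1 x * m.ρ t.2 x) = rp m B x s := by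
  simp only [Base.sd, div_eq_inv_mul, mul_smul, ← smul_sum, add_smul, sum_add_distrib, a2_rho H,
    st_rho hB H, rp, Md.pp, mul_smul_comm, mul_sub, rb_p H, mul_one, ← sub_eq_add_neg]

theorem sd_rp (s : ι × ι) : ∑ t, B.sd x s t • rp m B x t = rp m B x s := by
  simp only [← sd_rho hB H, smul_sum, smul_smul]
  rw [sum_comm]
  simp only [← sum_smul, sd_sd hB]

theorem pp_rb (s : ι × ι) : m.pp B x * rb m x s = rp m B x s := by
  simp only [rp, rb, mul_smul_comm, smul_mul_assoc, mul_sub, sub_mul, pp_rho2 hB H]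

theorem rp_pp (s : ι × ι) : rp m B x s * m.pp B x = rp m B x s := by
  rw [rp, mul_assoc, pp_pp hB H]

theorem pp_rp (s : ι × ι) : m.pp B x * rp m B x s = rp m B x s := by
  rw [← pp_rb hB H, ← mul_assoc, pp_pp hB H]

theorem rp_skw (s : ι × ι) : Skw (rp m B x s) := fun v w => by
  conv_rhs => rw [← pp_rb hB H]
  rw [rp, mul_apply_eq_comp, rb_skw H, pp_sym hB H, mul_apply_eq_comp]

theorem sum_rb_sq : ∑ s, rb m x s * rb m x s = (-12 : ℝ) • m.p x := by
  have C := H.cl x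
  have h0 : ∑ a, ∑ b, B.P a b x * B.P a b x = 4 := by
    rw [← hB.rk x]
    refine sum_congr rfl fun a _ => ?_
    rw [← (hB.pr x).idem a a]
    exact sum_congr rfl fun b _ => congrArg _ ((hB.pr x).symm a b)
  have h1 : ∑ a, ∑ b, B.P a b x • (m.ρ a x * m.ρ b x) = (-4 : ℝ) • m.p x := by
    rw [C.sym_sum (hB.pr x).symm, h0]
  have h2 : ∑ a, m.ρ a x * m.ρ a x = (-4 : ℝ) • m.p x := by
    simp only [← h1, ← mul_smul_comm, ← mul_sum, C.proj]
  have h3 : ∑ a, ∑ b, m.ρ a x * m.ρ b x * (m.ρ a x * m.ρ b x) = (-8 : ℝ) • m.p x := by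
    have : ∀ a b, m.ρ a x * m.ρ b x * (m.ρ a x * m.ρ b x) = -(m.ρ a x * m.ρ a x * (m.ρ b x * m.ρ b x))
        - (2 : ℝ) • B.P a b x • (m.ρ a x * m.ρ b x) := fun a b => by
      rw [mul_assoc, ← mul_assoc (m.ρ b x), C.swap a b]
      simp only [sub_mul, neg_mul, mul_sub, mul_neg, smul_mul_assoc, mul_smul_comm, C.pl, mul_assoc,
        mul_smul]
    simp only [this, sum_sub_distrib, sum_neg_distrib, ← smul_sum, h1, ← mul_sum, ← sum_mul, h2,
      smul_mul_smul_comm, H.pidem]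
    module
  have h4 : ∑ a, ∑ b, (B.P a b x * B.P a b x) • m.p x = (4 : ℝ) • m.p x := by
    simp only [← sum_smul, h0]
  simp only [rb_eq H, Fintype.sum_prod_type, mul_add, add_mul, sum_add_distrib, h3,
    smul_mul_smul_comm, H.pidem, h4]
  simp only [mul_smul_comm, smul_mul_assoc, mul_assoc, C.pr, ← mul_assoc (m.p x), C.pl, h1]
  module

theorem sum_norm_rb (v : m.V) : ∑ s, ‖rb m x s v‖ ^ 2 = 12 * ‖m.p x v‖ ^ 2 := by
  have := congrArg (fun T : En (Fin m.N) => ⟪v, T v⟫_ℝ) (sum_rb_sq hB H (x := x))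
  simp only [_root_.sum_apply, inner_sum, smul_apply, real_inner_smul_right] at this
  simp only [← real_inner_self_eq_norm_sq, rb_skw H _ v, H.psym x v, ← mul_apply_eq_comp, H.pidem,
    sum_neg_distrib, this]
  ring

theorem norm_pp (v : m.V) : ‖m.pp B x v‖ ≤ ‖v‖ := by
  have := real_inner_le_norm v (m.pp B x v)
  have h := pp_sym hB H x v (m.pp B x v)
  rw [← mul_apply_eq_comp, pp_pp hB H, real_inner_self_eq_norm_sq] at h
  by_contra! h1
  nlinarith [norm_nonneg v]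

theorem sum_norm_rp (v : m.V) : ∑ s, ‖rp m B x s v‖ ^ 2 = 12 * ‖m.pp B x v‖ ^ 2 := by
  simp only [rp, mul_apply_eq_comp, sum_norm_rb hB H]
  rw [← mul_apply_eq_comp, p_pp H]

theorem mu_apply (u v : m.V) (s : ι × ι) : m.mu B x u v s = m.q x u (rp m B x s v) := by
  simp only [Md.mu, Md.p2, idx_apply, ← sd_rho hB H, _root_.sum_apply, smul_apply, ← qL_apply,
    map_sum, map_smul, mul_apply_eq_comp]
  simp only [qL_apply, pg_of_mem (q_mem _ _)]

theorem inner_mu (η : Fm (ι × ι) m.A) (u v : m.V) :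
    ⟪η, m.mu B x u v⟫_ℝ = ∑ s, ⟪opL (m.pg x (η s)) (rp m B x s v), u⟫_ℝ := by
  rw [PiLp.inner_apply]
  simp only [mu_apply hB H, inner_q]

omit H in
theorem p2_mu (u v : m.V) : m.p2 B x (m.mu B x u v) = m.mu B x u v := p2_p2 hB _

theorem mu_symm (u v : m.V) : m.mu B x u v = m.mu B x v u := by
  ext1 s
  rw [mu_apply hB H, mu_apply hB H, q_skw (rp_skw hB H s) fun _ h => g_rp H h s, ← q_swap]

theorem mu_pp (u v : m.V) : m.mu B x u (m.pp B x v) = m.mu B x u v := by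
  ext1 s
  rw [mu_apply hB H, mu_apply hB H, ← mul_apply_eq_comp, rp_pp hB H]

theorem mu_J (u v : m.V) : m.mu B x u (m.J v) = -m.mu B x (m.J u) v := by
  ext1 s
  rw [PiLp.neg_apply, mu_apply hB H, mu_apply hB H, ← mul_apply_eq_comp, ← J_rp H,
    mul_apply_eq_comp, q_J H]

theorem mu_j (t : Eu lam) (u v : m.V) : m.mu B x u (m.j x t v) = m.mu B x (m.j x t u) v := by
  ext1 s
  rw [mu_apply hB H, mu_apply hB H, ← mul_apply_eq_comp, ← j_rp H, mul_apply_eq_comp, q_j H]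

theorem mu_JJ (u v : m.V) : m.mu B x (m.J u) (m.J v) = m.mu B x u v := by
  rw [mu_J hB H, ← mul_apply_eq_comp, H.Jsq, ← muL_apply, ← muL_apply]
  simp

theorem mu_J_self (u : m.V) : m.mu B x u (m.J u) = 0 := by
  have := mu_J hB H (x := x) u u
  rw [mu_symm hB H (m.J u), eq_neg_iff_add_eq_zero, ← two_smul ℝ] at this
  exact (smul_eq_zero.1 this).resolve_left two_ne_zero

theorem mu_cs (c : ℂ) (u v : m.V) :
    m.mu B x (cs m.J c u) (cs m.J c v) = ‖c‖ ^ 2 • m.mu B x u v := by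
  simp only [cs, ← muL_apply, map_add, map_smul, add_apply, smul_apply]
  simp only [muL_apply, mu_JJ hB H, mu_J hB H u, Complex.sq_norm, Complex.normSq_apply]
  module

theorem mu_ad {ξ : m.A} (h : ξ ∈ m.gS x) (u v : m.V) (s : ι × ι) :
    m.mu B x (opL ξ u) v s + m.mu B x u (opL ξ v) s = adc (opL ξ) (m.mu B x u v s) := by
  simp only [mu_apply hB H, ← q_ad h]
  rw [← mul_apply_eq_comp, ← g_rp H h, mul_apply_eq_comp]

theorem norm_mu (u v : m.V) : ‖m.mu B x u v‖ ≤ 4 * ‖u‖ * ‖v‖ := by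
  refine (abs_le_of_sq_le_sq' ?_ (by positivity)).2
  rw [PiLp.norm_sq_eq_of_L2]
  calc _ ≤ ∑ s, ‖u‖ ^ 2 * ‖rp m B x s v‖ ^ 2 := sum_le_sum fun s _ => by
        rw [mu_apply hB H, ← mul_pow]; exact pow_le_pow_left₀ (norm_nonneg _) (norm_q _ _) 2
    _ ≤ _ := by
        rw [← mul_sum, sum_norm_rp hB H]
        have := mul_le_mul_of_nonneg_left (pow_le_pow_left₀ (norm_nonneg _) (norm_pp hB H (x := x) v) 2)
          (sq_nonneg ‖u‖)
        nlinarith [sq_nonneg (‖u‖ * ‖v‖)]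

end H

section proper
open Std94 Quaternion
variable (hB : B.OK I) (H : m.OK I B)
include hB

theorem line_eq (x : M) : ∃ s₀, ‖s₀‖ = 1 ∧ B.l x s₀ = s₀ ∧
    ∀ s, B.l x s = ⟪s₀, s⟫_ℝ • s₀ + ⟪B.il s₀, s⟫_ℝ • B.il s₀ := by
  classical
  obtain ⟨s, hs⟩ := exists_l hB x
  obtain ⟨t, h1, h2⟩ : ∃ t, ‖t‖ = 1 ∧ B.l x t = t := ⟨‖B.l x s‖⁻¹ • B.l x s, norm_smul_inv_norm hs,
    by rw [map_smul, ← mul_apply_eq_comp, hB.lidem]⟩
  have h3 : B.l x (B.il t) = B.il t := by rw [← mul_apply_eq_comp, ← hB.ill, mul_apply_eq_comp, h2]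
  have h4 : ⟪t, t⟫_ℝ = 1 := by rw [real_inner_self_eq_norm_sq, h1, one_pow]
  have h5 : ⟪B.il t, t⟫_ℝ = 0 := Skew.self hB.ilsk t
  have h6 : ⟪t, B.il t⟫_ℝ = 0 := by rw [real_inner_comm, h5]
  have h7 : ⟪B.il t, B.il t⟫_ℝ = 1 := by
    rw [hB.ilsk, ← mul_apply_eq_comp, hB.ilsq]; simp [h1]
  have h8 : ∀ u v : Eu lam, trE (rk1 u v) = ⟪v, u⟫_ℝ := fun u v => by
    rw [← one_mul (rk1 u v), ← inner_hsL_sym fun _ _ => rfl, inner_rk1, opL_hsL]; rfl
  have hT : hsL (B.l x - rk1 t t - rk1 (B.il t) (B.il t)) = 0 := by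
    rw [← inner_self_eq_zero (𝕜 := ℝ), inner_hsL_sym fun v w => by
      simp only [sub_apply, rk1_apply, inner_sub_left, inner_sub_right, real_inner_smul_left,
        real_inner_smul_right, hB.lsym x v, real_inner_comm v]; ring]
    have : (B.l x - rk1 t t - rk1 (B.il t) (B.il t)) * (B.l x - rk1 t t - rk1 (B.il t) (B.il t))
        = B.l x - rk1 t t - rk1 (B.il t) (B.il t) := by
      ext1 v
      simp only [mul_apply_eq_comp, sub_apply, rk1_apply, map_sub, map_smul, h2, h3, h4, h5, h6, h7,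
        ← hB.lsym x _ v, ← mul_apply_eq_comp (B.l x) (B.l x), hB.lidem]
      module
    rw [this, map_sub, map_sub, h8, h8, h4, h7, trE_eq, hB.lrk]; norm_num
  refine ⟨t, h1, h2, fun v => ?_⟩
  have := congrArg (fun ξ => opL ξ v) hT
  simp only [opL_hsL, map_zero, sub_apply, rk1_apply, zero_apply] at this
  rwa [sub_sub, sub_eq_zero] at this

include H

theorem exists_q4 (x : M) : ∃ U k, On (fun a b => B.P a b x) (fun a b c d => B.o a b c d x) U ∧
    Q4 (m.p x) m.J k (rr U fun a => m.ρ a x) ∧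
    ∀ s, ∃ a b : ℝ, m.j x s = a • k + b • (m.J * k) := by
  obtain ⟨U, h⟩ := b_on hB x
  obtain ⟨t, h1, h2, h3⟩ := line_eq hB x
  have D := h.cl4 (H.cl x)
  have c : ∀ {T : En (Fin m.N)}, (∀ a, T * m.ρ a x = m.ρ a x * T) → ∀ i v,
      T (rr U (fun a => m.ρ a x) i v) = rr U (fun a => m.ρ a x) i (T v) := fun h i v => by
    simp only [← mul_apply_eq_comp, rr, mul_sum, sum_mul, mul_smul_comm, smul_mul_assoc, h]
  refine ⟨U, m.j x t, h, ⟨fun v => ?_, H.psym x, ?_, fun v => ?_, H.Jsk, fun v => ?_, fun a v => ?_,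
    fun a b hab v => ?_, fun a v => ?_, fun a v => ?_, fun a v w => ?_,
    fun a v => (c (fun a => H.Jρ a x) a v).symm, fun v => ?_, H.jsym x t, fun v => ?_,
    c fun a => H.jρ a x t⟩, fun s => ⟨_, _, by rw [← H.jl, h3, map_add, map_smul, map_smul, H.jil]⟩⟩
  · rw [← mul_apply_eq_comp, H.pidem]
  · exact finrank_range_of_trace (fun v => by
      simp only [ContinuousLinearMap.coe_coe]; rw [← mul_apply_eq_comp, H.pidem])
      (by rw [H.prk]; norm_num)
  · rw [← mul_apply_eq_comp, H.Jsq]; rfl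
  · rw [← mul_apply_eq_comp, ← H.Jp, mul_apply_eq_comp]
  · rw [← mul_apply_eq_comp, D.sq]; rfl
  · rw [← mul_apply_eq_comp, D.anti a b hab]; rfl
  · rw [← mul_apply_eq_comp, D.Pγ]
  · rw [← mul_apply_eq_comp, D.γP]
  · simp only [rr, _root_.sum_apply, smul_apply, sum_inner, inner_sum, real_inner_smul_left,
      real_inner_smul_right, H.ρsk _ x v, mul_neg, sum_neg_distrib]
  · rw [← mul_apply_eq_comp, H.jsq, h2, h1]; simp
  · rw [← mul_apply_eq_comp, H.jJ]; rfl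

/-- Properness of the moment map. -/
theorem mu_proper {Φ : m.V} (hΦ : m.pp B x Φ = Φ) : ‖Φ‖ ^ 2 ≤ 12 * ‖m.mu B x Φ Φ‖ := by
  obtain ⟨U, k, h, Q, hj⟩ := exists_q4 hB H x
  obtain ⟨u, N⟩ := Q.exists_nf
  obtain ⟨y, hy⟩ := N.onto Φ
  rw [← hΦ, ← mul_apply_eq_comp, p_pp H, hΦ] at hy
  have ho : m.om B x Φ = -Φ := by rw [← hΦ, ← mul_apply_eq_comp, om_pp hB H]; rfl
  rw [show m.om B x = _ from h.om_eq (H.cl x), ← hy] at ho
  simp only [Ind95.om, mul_apply_eq_comp, N.ru, om0, ← map_neg] at ho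
  have z : ∀ y : ℍ, y = -y → y = 0 := fun y hy => by
    have : (2 : ℝ) • y = 0 := by rw [two_smul]; nth_rewrite 1 [hy]; simp
    simpa using this
  have y1 : y 1 = 0 := z _ (congrArg (fun y : S4 => y 1) (u.injective ho))
  have y3 : y 3 = 0 := z _ (congrArg (fun y : S4 => y 3) (u.injective ho))
  have key : ∀ i : Fin 4, i ≠ 0 → ∀ c : ℍ, c.re = 0 → ‖c‖ = 1 →
      ⟪Std94.Rm c (r0 (qe 0) (r0 (qe i) y)), y⟫_ℝ ^ 2 ≤ 16 * ‖m.mu B x Φ Φ‖ ^ 2 := by
    intro i hi c hc hc1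
    have I4 := (N.it4_iff Q N (Xi u u c)).2 ⟨c, rfl⟩
    have hJ : m.J * Xi u u c = Xi u u c * m.J := ContinuousLinearMap.ext fun v => (I4.J v).symm
    have hk : k * Xi u u c = Xi u u c * k := ContinuousLinearMap.ext fun v => (I4.k v).symm
    have hr : ∀ i, rr U (fun a => m.ρ a x) i * Xi u u c = Xi u u c * rr U (fun a => m.ρ a x) i :=
      fun i => ContinuousLinearMap.ext fun v => (I4.r i v).symm
    have hg : hsL (Xi u u c) ∈ m.gS x := mem_g ((skew_Xi_iff u c).2 hc)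
      (ContinuousLinearMap.ext I4.pl) hJ
      (fun a => by
        rw [show m.ρ a x = _ from h.rho (H.cl x) a]
        simp only [sum_mul, mul_sum, smul_mul_assoc, mul_smul_comm, hr])
      fun s => by
        obtain ⟨a, b, e⟩ := hj s
        simp only [e, add_mul, mul_add, smul_mul_assoc, mul_smul_comm, mul_assoc, hk]
        rw [← mul_assoc, hJ, mul_assoc]
    have hn : ‖hsL (Xi u u c)‖ ^ 2 = 16 := by
      have := hs_Xi u u c c
      rw [hs_eq_sum (EuclideanSpace.basisFun _ ℝ), real_inner_self_eq_norm_sq c, hc1] at this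
      rw [← real_inner_self_eq_norm_sq, inner_hsL]
      simpa using this
    set η : Fm (ι × ι) m.A := WithLp.toLp 2 fun s => (U 0 s.1 * U i s.2) • hsL (Xi u u c) with hη
    have e1 : ‖η‖ ^ 2 = 16 := by
      have h0 := h.on 0 0
      have h1 := h.on i i
      rw [if_pos rfl] at h0 h1
      rw [PiLp.norm_sq_eq_of_L2]
      simp only [hη, norm_smul, mul_pow, hn, Real.norm_eq_abs, sq_abs, ← sum_mul,
        Fintype.sum_prod_type, ← mul_sum]
      simp only [sq, h0, h1, one_mul]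
    have e2 : ∑ s : ι × ι, (U 0 s.1 * U i s.2) • rb m x s
        = rr U (fun a => m.ρ a x) 0 * rr U (fun a => m.ρ a x) i := by
      have : ∑ a, ∑ b, U 0 a * U i b * B.P a b x = 0 := by
        have := h.on 0 i
        rw [if_neg hi.symm] at this
        rw [← this]
        refine sum_congr rfl fun a _ => ?_
        rw [← h.UP i a, mul_sum]
        exact sum_congr rfl fun b _ => by rw [(hB.pr x).symm a b, mul_assoc]
      simp only [rb_eq H, smul_add, sum_add_distrib, Fintype.sum_prod_type, smul_smul, ← sum_smul,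
        this, zero_smul, add_zero, rr, rr_mul]
    have e3 : ⟪η, m.mu B x Φ Φ⟫_ℝ = ⟪Std94.Rm c (r0 (qe 0) (r0 (qe i) y)), y⟫_ℝ := by
      simp only [inner_mu hB H, hη, map_smul, pg_of_mem hg, opL_hsL, rp, mul_apply_eq_comp, hΦ,
        smul_apply, ← sum_inner]
      simp only [← map_smul (Xi u u c), ← map_sum]
      simp only [← smul_apply, ← _root_.sum_apply, e2, mul_apply_eq_comp, ← hy, N.ru, Xi_u,
        LinearIsometry.inner_map_map]
    rw [← e3, ← e1, ← mul_pow]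
    exact sq_le_sq' (neg_le_of_abs_le (abs_real_inner_le_norm _ _)) (real_inner_le_norm _ _)
  have n1 : ∀ i, ‖qe i‖ = 1 := fun i => by
    rw [← sq_eq_sq₀ (norm_nonneg _) zero_le_one, ← real_inner_self_eq_norm_sq, Std94.inner_q]
    fin_cases i <;> simp [qe]
  have k := fun i hi j (hj : (qe j).re = 0) => key i hi (qe j) hj (n1 j)
  have k11 := k 1 (by decide) 1 rfl
  have k12 := k 1 (by decide) 2 rfl
  have k13 := k 1 (by decide) 3 rfl
  have k21 := k 2 (by decide) 1 rfl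
  have k22 := k 2 (by decide) 2 rfl
  have k23 := k 2 (by decide) 3 rfl
  have k31 := k 3 (by decide) 1 rfl
  have k32 := k 3 (by decide) 2 rfl
  have k33 := k 3 (by decide) 3 rfl
  refine (abs_le_of_sq_le_sq' ?_ (by positivity)).2
  rw [← hy, u.norm_map, ← real_inner_self_eq_norm_sq, hy, mul_pow, inner4, y1, y3]
  simp only [Std94.inner_q]
  simp [inner4, Std94.inner_q, Rm_apply, r0_apply, y1, y3, qe_0, qe_1, qe_2, qe_3]
    at k11 k12 k13 k21 k22 k23 k31 k32 k33 ⊢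
  generalize (y 0).re = a0, (y 0).imI = a1, (y 0).imJ = a2, (y 0).imK = a3, (y 2).re = c0,
    (y 2).imI = c1, (y 2).imJ = c2, (y 2).imK = c3 at *
  linarith [sq_nonneg (a0 * c0 + a1 * c1 + a2 * c2 + a3 * c3),
    sq_nonneg (a0 * a0 + a1 * a1 + a2 * a2 + a3 * a3 - (c0 * c0 + c1 * c1 + c2 * c2 + c3 * c3))]

end proper

end Crest.Agent.X212.Wz78
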