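import Crest.Agent.X212.Wz78.Core
import Crest.Agent.X212.An.Defs

/-! Metric connections: Bochner formula, Green identities, integrated Weitzenboeck formula. -/

open scoped Manifold ContDiff Topology InnerProductSpace
open Finset Filter MeasureTheory

set_option linter.unusedSectionVars false

noncomputable section
namespace Crest.Agent.X212.Wz78
open Sob92

section pointwise
variable {E H : Type*} [NormedAddCommGroup E] [NormedSpace ℝ E] [TopologicalSpace H]
  {I : ModelWithCorners ℝ E H} {M : Type*} [TopologicalSpace M] [ChartedSpace H M]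
  {V : Type*} [NormedAddCommGroup V] [InnerProductSpace ℝ V]
  {W : Type*} [NormedAddCommGroup W] [NormedSpace ℝ W]
  {ι : Type*} [Fintype ι] [IsManifold I 1 M]

/-- Skew endomorphisms. -/
def Skew (T : V →L[ℝ] V) : Prop := ∀ v w, ⟪T v, w⟫_ℝ = -⟪v, T w⟫_ℝ

theorem Skew.self {T : V →L[ℝ] V} (h : Skew T) (v : V) : ⟪T v, v⟫_ℝ = 0 := by
  have := h v v
  rw [real_inner_comm (T v) v] at this
  linarith

variable (I) in
/-- Divergence of the vector field `∑ f a • e a`. -/
def dvg (e : ι → (x : M) → TangentSpace I x) (g : ι → M → ℝ) (f : ι → M → ℝ) : M → ℝ :=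
  fun x => ∑ a, (dv I (e a) (f a) x + g a x * f a x)

variable (I) in
/-- The (positive) Laplacian on functions. -/
def lap0 (e : ι → (x : M) → TangentSpace I x) (g : ι → M → ℝ) (f : M → ℝ) : M → ℝ :=
  fun x => -dvg I e g (fun a => dv I (e a) f) x

variable {e : ι → (x : M) → TangentSpace I x} {P : ι → ι → M → ℝ} {g : ι → M → ℝ}
  {c Γ : ι → ι → ι → M → ℝ} {A ρ : ι → M → V →L[ℝ] V} {p : M → V →L[ℝ] V} {u w : M → V} {x : M}

theorem SA.inner (hu : SA I u x) (hw : SA I w x) : SA I (fun y => ⟪u y, w y⟫_ℝ) x :=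
  ((innerSL ℝ (E := V)).contDiff.contMDiff.contMDiffAt.comp x hu).clm_apply hw

theorem dv_inner' (a : ι) (hA : Skew (A a x)) (hu : MDifferentiableAt I 𝓘(ℝ, V) u x)
    (hw : MDifferentiableAt I 𝓘(ℝ, V) w x) : dv I (e a) (fun y => ⟪u y, w y⟫_ℝ) x
      = ⟪nab I e A a u x, w x⟫_ℝ + ⟪u x, nab I e A a w x⟫_ℝ := by
  have : dv I (e a) (fun y => ⟪u y, w y⟫_ℝ) x = ⟪dv I (e a) u x, w x⟫_ℝ + ⟪u x, dv I (e a) w x⟫_ℝ :=
    dv_bil (e := e a) (innerSL ℝ (E := V)) hu hw
  rw [this, nab, nab, inner_add_left, inner_add_right, hA]; ring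

theorem dv_inner (a : ι) (hA : Skew (A a x)) (hu : SA I u x) (hw : SA I w x) :
    dv I (e a) (fun y => ⟪u y, w y⟫_ℝ) x
      = ⟪nab I e A a u x, w x⟫_ℝ + ⟪u x, nab I e A a w x⟫_ℝ := dv_inner' a hA hu.md hw.md

theorem LC.div_sum (L : LC I e P c Γ) (F : Frm I e P c) (hg : ∀ k, g k x = ∑ a, Γ a k a x)
    {T : ι → W} (hT : ∀ k, ∑ m, P k m x • T m = T k) :
    ∑ a, ∑ k, Γ a a k x • T k = -∑ k, g k x • T k := by
  have h : ∑ a, ∑ k, dv I (e a) (P a k) x • T k = 0 := by
    have h1 : ∀ a k, dv I (e a) (P a k) x = ∑ b, P a b x * dv I (e b) (P a k) x :=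
      fun a k => (F.projD a (P a k) x).symm
    calc _ = ∑ b, ∑ a, ∑ k, dv I (e b) (P a k) x • (P a b x • T k) := by
          symm
          rw [sum_comm]
          refine sum_congr rfl fun a _ => ?_
          rw [sum_comm]
          refine sum_congr rfl fun k _ => ?_
          rw [h1, sum_smul]
          exact sum_congr rfl fun b _ => by rw [smul_smul, mul_comm]
      _ = 0 := sum_eq_zero fun b _ => F.dP_zero b x (T := fun a k => P a b x • T k)
          (fun a k => by simp only [smul_smul, ← sum_smul, (F.pr x).idem])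
          fun a k => by simp only [smul_comm (P k _ x), ← smul_sum, hT]
  simp only [L.met, add_smul, sum_add_distrib] at h
  simp only [hg, sum_smul]
  rw [sum_comm (f := fun k a => Γ a k a x • T k), eq_neg_of_add_eq_zero_left h]

/-- The Riemannian divergence in terms of the Levi-Civita coefficients. -/
theorem LC.div_eq (L : LC I e P c Γ) (F : Frm I e P c) (k : ι) (x : M) :
    ∑ b, ∑ l, c b k l x * P l b x = ∑ a, Γ a k a x := by
  have h1 : ∑ a, Γ k a a x = 0 := by
    have h2 : ∑ a, dv I (e k) (P a a) x = 2 * ∑ a, ∑ b, P a b x * dv I (e k) (P b a) x := by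
      rw [mul_sum]
      refine sum_congr rfl fun a _ => ?_
      rw [F.dP, mul_sum]
      refine sum_congr rfl fun b _ => ?_
      rw [show P a b = P b a from _root_.funext fun y => (F.pr y).symm a b]; ring
    have h3 : ∑ a, ∑ b, P a b x * dv I (e k) (P b a) x = 0 := by
      have := F.dP_zero k x (T := fun b a => P a b x)
        (fun b a => by rw [← (F.pr x).idem a b]
                       exact sum_congr rfl fun l _ => by rw [(F.pr x).symm b l, smul_eq_mul, mul_comm])
        fun b a => (F.pr x).idem a b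
      rw [sum_comm, ← this]
      exact sum_congr rfl fun b _ => sum_congr rfl fun a _ => by rw [smul_eq_mul, mul_comm]
    rw [h3] at h2
    simp only [L.met, sum_add_distrib] at h2
    linarith
  simp only [← L.tors, sum_sub_distrib, h1, sub_zero]

/-- Green identity for the connection Laplacian. -/
theorem Frm.inner_lap (F : Frm I e P c) (hs : ∀ a, SA I (A a) x) (hA : ∀ a, Skew (A a x))
    (hu : SA I u x) (hw : SA I w x) :
    ⟪lap I e g A u x, w x⟫_ℝ = ∑ a, ⟪nab I e A a u x, nab I e A a w x⟫_ℝ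
      - dvg I e g (fun a y => ⟪nab I e A a u y, w y⟫_ℝ) x := by
  simp only [lap, dvg, inner_neg_left, sum_inner, inner_add_left, real_inner_smul_left,
    fun a => dv_inner (e := e) a (hA a) (F.sN hs a hu) hw, sum_add_distrib]
  ring

/-- Bochner formula. -/
theorem Frm.lap0_inner (F : Frm I e P c) (hs : ∀ a, SA I (A a) x)
    (hA : ∀ a, ∀ᶠ y in 𝓝 x, Skew (A a y)) (hu : SA I u x) (hw : SA I w x) :
    lap0 I e g (fun y => ⟪u y, w y⟫_ℝ) x = ⟪lap I e g A u x, w x⟫_ℝ + ⟪u x, lap I e g A w x⟫_ℝ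
      - 2 * ∑ a, ⟪nab I e A a u x, nab I e A a w x⟫_ℝ := by
  have h1 : ∀ a, dv I (e a) (fun y => ⟪u y, w y⟫_ℝ)
      =ᶠ[𝓝 x] fun y => ⟪nab I e A a u y, w y⟫_ℝ + ⟪u y, nab I e A a w y⟫_ℝ := fun a => by
    filter_upwards [hA a, hu.ev, hw.ev] with y h1 h2 h3 using dv_inner' a h1 h2 h3
  have h2 := fun a => (hA a).self_of_nhds
  simp only [lap0, dvg, fun a => dv_congr (e := e a) (h1 a), fun a => (h1 a).self_of_nhds,
    fun a => dv_add' (e := e a) ((F.sN hs a hu).inner hw) (hu.inner (F.sN hs a hw)),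
    fun a => dv_inner (e := e) a (h2 a) (F.sN hs a hu) hw,
    fun a => dv_inner (e := e) a (h2 a) hu (F.sN hs a hw), lap, inner_neg_left, inner_neg_right,
    sum_inner, inner_sum, inner_add_left, inner_add_right, real_inner_smul_left,
    real_inner_smul_right, sum_add_distrib, mul_add]
  ring

/-- Green identity for the Dirac operator. -/
theorem CC.inner_dir (C : CC I e P Γ p ρ A) (L : LC I e P c Γ) (F : Frm I e P c)
    (hg : ∀ k, g k x = ∑ a, Γ a k a x) (hA : ∀ a, Skew (A a x)) (hρ : ∀ a, Skew (ρ a x))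
    (hu : SA I u x) (hw : SA I w x) :
    ⟪dir I e ρ A u x, w x⟫_ℝ = ⟪u x, dir I e ρ A w x⟫_ℝ
      + dvg I e g (fun a y => ⟪ρ a y (u y), w y⟫_ℝ) x := by
  have h := L.div_sum F hg (T := fun k => ⟪ρ k x (u x), w x⟫_ℝ) fun k => by
    rw [← (C.cl x).proj k, _root_.sum_apply, sum_inner]
    simp only [smul_apply, real_inner_smul_left, smul_eq_mul]
  simp only [smul_eq_mul, fun a => hρ a (u x), mul_neg, sum_neg_distrib] at h
  simp only [dir, dvg, sum_inner, inner_sum, sum_add_distrib,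
    fun a => dv_inner (e := e) a (hA a) ((C.sρ a x).app hu) hw,
    fun a => nab_app (e := e) (A := A) a (C.sρ a x) hu, C.comp, inner_add_left, _root_.sum_apply,
    smul_apply, real_inner_smul_left, fun a => hρ a (u x), sum_neg_distrib, mul_neg]
  linarith

end pointwise

section An
open An
variable {E : Type} [NormedAddCommGroup E] [NormedSpace ℝ E] [FiniteDimensional ℝ E]
  [MeasurableSpace E] [BorelSpace E]
  {HM : Type} [TopologicalSpace HM] {I : ModelWithCorners ℝ E HM}
  {M : Type} [TopologicalSpace M] [ChartedSpace HM M] [IsManifold I ∞ M]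
  [MeasurableSpace M] {ι : Type} [Fintype ι]
  {V : Type} [NormedAddCommGroup V] [InnerProductSpace ℝ V]

theorem frPr (F : Fr I M ι) (x : M) : Pr fun a b => F.P a b x where
  symm a b := F.P_symm a b x
  idem a b := by
    classical
    have := F.P_ker x (fun k => F.P b k x - if k = b then 1 else 0)
      (by simp [sub_smul, sum_sub_distrib, F.P_e]) a
    simp only [mul_sub, sum_sub_distrib, mul_ite, mul_one, mul_zero, sum_ite_eq', mem_univ,
      if_true] at this
    rw [← sub_eq_zero, ← this]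
    simp only [fun k => F.P_symm b k x]

theorem frm (F : Fr I M ι) : Frm I F.e F.P F.c where
  se a x := F.sm a x
  sP a b x := F.P_sm a b x
  sc a b k x := F.c_sm a b k x
  pr := frPr F
  proj := F.P_e
  br a b f x hf := F.br a b f x (hf.of_le (by norm_cast))

/-- The measure is Riemannian up to a locally constant factor. -/
def Riem (F : Fr I M ι) : Prop := ∀ k x, F.dv k x = ∑ b, ∑ l, F.c b k l x * F.P l b x

variable {F : Fr I M ι} {Γ : ι → ι → ι → M → ℝ} {A ρ : ι → M → V →L[ℝ] V} {p : M → V →L[ℝ] V}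
  {u w : M → V}

theorem Riem.hg (h : Riem F) (L : LC I F.e F.P F.c Γ) (x : M) (k : ι) :
    F.dv k x = ∑ a, Γ a k a x := (h k x).trans (L.div_eq (frm F) k x)

variable [T2Space M] [BorelSpace M]

theorem integ {f : M → ℝ} (hf : Sm I f) (hc : HasCompactSupport f) : Integrable f F.μ :=
  hf.continuous.integrable_of_hasCompactSupport hc

theorem sm_dvg {f : ι → M → ℝ} (hf : ∀ a, Sm I (f a)) : Sm I (dvg I F.e F.dv f) := fun x =>
  SA.sum _ fun a _ => (F.sm_D (hf a) a x).add (SA.mul (F.dv_sm a x) (hf a x))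

theorem integ_dvg_aux {f : M → ℝ} (hf : Sm I f) (hc : HasCompactSupport f) (a : ι) :
    Integrable (fun x => F.dv a x * f x) F.μ :=
  integ (fun x => SA.mul (F.dv_sm a x) (hf x)) hc.mul_left

theorem integ_dvg {f : ι → M → ℝ} (hf : ∀ a, Sm I (f a)) (hc : ∀ a, HasCompactSupport (f a)) :
    Integrable (dvg I F.e F.dv f) F.μ :=
  integrable_finsetSum _ fun a _ =>
    (integ (F.sm_D (hf a) a) (F.hcs_D (hc a) a)).add (integ_dvg_aux (hf a) (hc a) a)

/-- Divergence theorem. -/
theorem integral_dvg {f : ι → M → ℝ} (hf : ∀ a, Sm I (f a)) (hc : ∀ a, HasCompactSupport (f a)) :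
    ∫ x, dvg I F.e F.dv f x ∂F.μ = 0 := by
  refine (integral_finsetSum (f := fun a x => F.D a (f a) x + F.dv a x * f a x) _ fun a _ =>
    (integ (F.sm_D (hf a) a) (F.hcs_D (hc a) a)).add (integ_dvg_aux (hf a) (hc a) a)).trans ?_
  refine sum_eq_zero fun a _ => ?_
  rw [integral_add (integ (F.sm_D (hf a) a) (F.hcs_D (hc a) a)) (integ_dvg_aux (hf a) (hc a) a),
    F.ibp a (f a) (hf a) (hc a), neg_add_cancel]

omit [T2Space M] [BorelSpace M] in
theorem hcs_inner (u : M → V) (hc : HasCompactSupport w) :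
    HasCompactSupport fun x => ⟪u x, w x⟫_ℝ := hc.mono fun x hx h => hx (by simp [h])

omit [BorelSpace M] in
theorem hcs_nab (a : ι) (hc : HasCompactSupport w) : HasCompactSupport (nab I F.e A a w) :=
  (dv_hcs hc).add (hc.mono fun x hx h => hx (by simp [h]))

omit [T2Space M] [BorelSpace M] in
theorem sm_nab (hs : ∀ a, Sm I (A a)) (a : ι) (hu : Sm I u) : Sm I (nab I F.e A a u) :=
  fun x => (frm F).sN (fun a => hs a x) a (hu x)

omit [T2Space M] [BorelSpace M] in
theorem sm_lap (hs : ∀ a, Sm I (A a)) (hu : Sm I u) : Sm I (lap I F.e F.dv A u) := fun x =>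
  (SA.sum _ fun a _ => (sm_nab hs a (sm_nab hs a hu) x).add
    (SA.smul (F.dv_sm a x) (sm_nab hs a hu x))).neg

/-- `lap` is `∇^*∇`. -/
theorem integral_lap (hs : ∀ a, Sm I (A a)) (hA : ∀ a x, Skew (A a x)) (hu : Sm I u) (hw : Sm I w)
    (hc : HasCompactSupport w) : ∫ x, ⟪lap I F.e F.dv A u x, w x⟫_ℝ ∂F.μ
      = ∫ x, ∑ a, ⟪nab I F.e A a u x, nab I F.e A a w x⟫_ℝ ∂F.μ := by
  have h1 : ∀ a, Sm I fun y => ⟪nab I F.e A a u y, w y⟫_ℝ :=
    fun a x => SA.inner (sm_nab hs a hu x) (hw x)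
  simp only [fun x => (frm F).inner_lap (g := F.dv) (fun a => hs a x) (fun a => hA a x) (hu x) (hw x)]
  rw [integral_sub (integrable_finsetSum _ fun a _ => integ
      (fun x => SA.inner (sm_nab hs a hu x) (sm_nab hs a hw x)) (hcs_inner _ (hcs_nab a hc)))
    (integ_dvg h1 fun a => hcs_inner _ hc), integral_dvg h1 fun a => hcs_inner _ hc, sub_zero]

omit [BorelSpace M] in
theorem hcs_dir (hc : HasCompactSupport w) : HasCompactSupport (dir I F.e ρ A w) :=
  (HasCompactSupport.finset_sum (s := univ) (f := fun a x => ρ a x (nab I F.e A a w x))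
    fun a _ => (hcs_nab (F := F) (A := A) a hc).mono fun x hx h => hx (by simp [h])).mono
    fun x hx h => hx (by simpa [dir] using h)

/-- The Dirac operator is formally self-adjoint. -/
theorem integral_dir (C : CC I F.e F.P Γ p ρ A) (L : LC I F.e F.P F.c Γ) (hR : Riem F)
    (hA : ∀ a x, Skew (A a x)) (hρ : ∀ a x, Skew (ρ a x)) (hu : Sm I u) (hw : Sm I w)
    (hc : HasCompactSupport w) :
    ∫ x, ⟪dir I F.e ρ A u x, w x⟫_ℝ ∂F.μ = ∫ x, ⟪u x, dir I F.e ρ A w x⟫_ℝ ∂F.μ := by
  have h1 : ∀ a, Sm I fun y => ⟪ρ a y (u y), w y⟫_ℝ :=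
    fun a x => SA.inner (SA.app (C.sρ a x) (hu x)) (hw x)
  simp only [fun x => C.inner_dir L (frm F) (hR.hg L x) (fun a => hA a x) (fun a => hρ a x)
    (hu x) (hw x)]
  rw [integral_add (integ (fun x => SA.inner (hu x) (C.dir_sm (frm F) (hw x)))
      (hcs_inner _ (hcs_dir hc))) (integ_dvg h1 fun a => hcs_inner _ hc),
    integral_dvg h1 fun a => hcs_inner _ hc, add_zero]

omit [T2Space M] [BorelSpace M] in
theorem sm_curv (hs : ∀ a, Sm I (A a)) (a b : ι) : Sm I (curv I F.e F.c A a b) := fun x =>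
  (((F.sm_D (hs b) a x).sub (F.sm_D (hs a) b x)).add
    ((SA.mul (hs a x) (hs b x)).sub (SA.mul (hs b x) (hs a x)))).sub
    (SA.sum _ fun k _ => SA.smul (F.c_sm a b k x) (hs k x))

omit [T2Space M] [BorelSpace M] in
theorem sm_wK (hs : ∀ a, Sm I (A a)) (hρ : ∀ a, Sm I (ρ a)) : Sm I (wK I F.e F.c ρ A) := fun x =>
  SA.smul contMDiffAt_const (SA.sum _ fun a _ => SA.sum _ fun b _ =>
    SA.mul (SA.mul (hρ a x) (hρ b x)) (sm_curv hs a b x))

/-- Integrated Weitzenboeck formula. -/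
theorem integral_weitz (C : CC I F.e F.P Γ p ρ A) (L : LC I F.e F.P F.c Γ) (hR : Riem F)
    (hA : ∀ a x, Skew (A a x)) (hρ : ∀ a x, Skew (ρ a x)) (hu : Sm I u) (hw : Sm I w)
    (hp : ∀ x, p x (u x) = u x) (hc : HasCompactSupport w) :
    ∫ x, ⟪dir I F.e ρ A u x, dir I F.e ρ A w x⟫_ℝ ∂F.μ
      = ∫ x, ∑ a, ⟪nab I F.e A a u x, nab I F.e A a w x⟫_ℝ ∂F.μ
        + ∫ x, ⟪wK I F.e F.c ρ A x (u x), w x⟫_ℝ ∂F.μ := by
  rw [← integral_dir C L hR hA hρ (fun x => C.dir_sm (frm F) (hu x)) hw hc,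
    ← integral_lap C.sm hA hu hw hc, ← integral_add
      (integ (fun x => SA.inner (sm_lap C.sm hu x) (hw x)) (hcs_inner _ hc))
      (integ (fun x => SA.inner (SA.app (sm_wK C.sm C.sρ x) (hu x)) (hw x)) (hcs_inner _ hc))]
  simp only [fun x => C.weitz L (frm F) (hR.hg L x) (hu x) (Eventually.of_forall hp),
    inner_add_left]

end An

end Crest.Agent.X212.Wz78
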