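import Crest.Agent.X212.Wz78.Lich

/-! Variation of the connection, second Bianchi identity, parallel chirality. -/

open scoped Manifold ContDiff Topology
open Finset Filter

set_option linter.unusedSectionVars false

noncomputable section
namespace Crest.Agent.X212.Wz78
open Sob92

variable {E H : Type*} [NormedAddCommGroup E] [NormedSpace ℝ E] [TopologicalSpace H]
  {I : ModelWithCorners ℝ E H} {M : Type*} [TopologicalSpace M] [ChartedSpace H M]
  {V W : Type*} [NormedAddCommGroup V] [NormedSpace ℝ V] [NormedAddCommGroup W] [NormedSpace ℝ W]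
  {ι : Type*} [Fintype ι] [IsManifold I 1 M]

section defs
variable (I) (e : ι → (x : M) → TangentSpace I x)

/-- Covariant derivative of an endomorphism field. -/
def nabE (A : ι → M → V →L[ℝ] V) (a : ι) (T : M → V →L[ℝ] V) : M → V →L[ℝ] V :=
  fun x => dv I (e a) T x + (A a x * T x - T x * A a x)

/-- Covariant exterior derivative of an endomorphism valued one-form. -/
def dA (c : ι → ι → ι → M → ℝ) (A B : ι → M → V →L[ℝ] V) (a b : ι) : M → V →L[ℝ] V :=
  fun x => nabE I e A a (B b) x - nabE I e A b (B a) x - ∑ k, c a b k x • B k x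

/-- Exterior derivative of a one-form. -/
def d1 (c : ι → ι → ι → M → ℝ) (α : ι → M → W) (a b : ι) : M → W :=
  fun x => dv I (e a) (α b) x - dv I (e b) (α a) x - ∑ k, c a b k x • α k x

end defs

variable {e : ι → (x : M) → TangentSpace I x} {P : ι → ι → M → ℝ} {g : ι → M → ℝ}
  {c Γ : ι → ι → ι → M → ℝ} {A B ρ : ι → M → V →L[ℝ] V} {p : M → V →L[ℝ] V} {u : M → V} {x : M}

theorem nabE_eq (a : ι) (T : M → V →L[ℝ] V) :
    nabE I e A a T = nab I e (fun a y => ad V (A a y)) a T := rfl

theorem nab_app' (a : ι) {T : M → V →L[ℝ] V} (hT : SA I T x) (hu : SA I u x) :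
    nab I e A a (fun y => T y (u y)) x = nabE I e A a T x (u x) + T x (nab I e A a u x) :=
  nab_app a hT hu

theorem nabE_mul (a : ι) {S T : M → V →L[ℝ] V} (hS : SA I S x) (hT : SA I T x) :
    nabE I e A a (fun y => S y * T y) x = nabE I e A a S x * T x + S x * nabE I e A a T x := by
  simp only [nabE, dv_mul hS hT]; noncomm_ring

theorem nabE_smul (a : ι) {f : M → ℝ} {T : M → V →L[ℝ] V} (hf : SA I f x) (hT : SA I T x) :
    nabE I e A a (fun y => f y • T y) x = dv I (e a) f x • T x + f x • nabE I e A a T x :=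
  nab_smul (A := fun a y => ad V (A a y)) a hf hT

theorem nabE_add (a : ι) {S T : M → V →L[ℝ] V} (hS : SA I S x) (hT : SA I T x) :
    nabE I e A a (fun y => S y + T y) x = nabE I e A a S x + nabE I e A a T x :=
  nab_add (A := fun a y => ad V (A a y)) a hS hT

theorem nabE_sub (a : ι) {S T : M → V →L[ℝ] V} (hS : SA I S x) (hT : SA I T x) :
    nabE I e A a (fun y => S y - T y) x = nabE I e A a S x - nabE I e A a T x :=
  nab_sub (A := fun a y => ad V (A a y)) a hS hT

theorem nabE_sum (a : ι) {κ : Type*} (s : Finset κ) {T : κ → M → V →L[ℝ] V}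
    (hT : ∀ i, SA I (T i) x) :
    nabE I e A a (fun y => ∑ i ∈ s, T i y) x = ∑ i ∈ s, nabE I e A a (T i) x :=
  nab_sum (A := fun a y => ad V (A a y)) a s hT

theorem nabE_congr (a : ι) {S T : M → V →L[ℝ] V} (h : S =ᶠ[𝓝 x] T) :
    nabE I e A a S x = nabE I e A a T x := nab_congr (A := fun a y => ad V (A a y)) a h

theorem Frm.sNE (F : Frm I e P c) (hA : ∀ a, SA I (A a) x) (a : ι) {T : M → V →L[ℝ] V}
    (hT : SA I T x) : SA I (nabE I e A a T) x :=
  (F.sD a hT).add (((hA a).mul hT).sub (hT.mul (hA a)))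

theorem nab_addA (a : ι) (u : M → V) (x : M) :
    nab I e (A + B) a u x = nab I e A a u x + B a x (u x) := by
  simp only [nab, Pi.add_apply, add_apply, add_assoc]

theorem nabE_addA (a : ι) (T : M → V →L[ℝ] V) (x : M) :
    nabE I e (A + B) a T x = nabE I e A a T x + (B a x * T x - T x * B a x) := by
  simp only [nabE, Pi.add_apply]; noncomm_ring

theorem dir_addA (u : M → V) (x : M) :
    dir I e ρ (A + B) u x = dir I e ρ A u x + ∑ a, ρ a x (B a x (u x)) := by
  simp only [dir, nab_addA, map_add, sum_add_distrib]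

theorem curv_addA (hA : ∀ a, SA I (A a) x) (hB : ∀ a, SA I (B a) x) (a b : ι) :
    curv I e c (A + B) a b x
      = curv I e c A a b x + dA I e c A B a b x + (B a x * B b x - B b x * B a x) := by
  simp only [curv, dA, nabE, Pi.add_apply, dv_add (hA _).md (hB _).md, smul_add, sum_add_distrib]
  noncomm_ring

theorem wK_addA (hA : ∀ a, SA I (A a) x) (hB : ∀ a, SA I (B a) x) :
    wK I e c ρ (A + B) x = wK I e c ρ A x + (1 / 2 : ℝ) • ∑ a, ∑ b,
      ρ a x * ρ b x * (dA I e c A B a b x + (B a x * B b x - B b x * B a x)) := by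
  simp only [wK, curv_addA hA hB, add_assoc, mul_add _ (curv I e c A _ _ x), sum_add_distrib,
    smul_add]

theorem lap_addA (F : Frm I e P c) (hA : ∀ a, SA I (A a) x) (hB : ∀ a, SA I (B a) x)
    (hu : SA I u x) : lap I e g (A + B) u x = lap I e g A u x
      - ∑ a, ((2 : ℝ) • B a x (nab I e A a u x) + (nabE I e A a (B a) x + g a x • B a x) (u x)
        + B a x (B a x (u x))) := by
  have h : ∀ a, nab I e (A + B) a u = fun y => nab I e A a u y + B a y (u y) :=
    fun a => _root_.funext fun y => nab_addA a u y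
  simp only [lap, nab_addA _ (nab I e (A + B) _ u)]
  simp only [h, fun a => nab_add (e := e) (A := A) a (F.sN hA a hu) ((hB a).app hu),
    fun a => nab_app' (e := e) (A := A) a (hB a) hu, map_add, smul_add, add_apply, smul_apply,
    two_smul, sum_add_distrib]
  abel

/-- The abelian case: `B a = α a • J` with `J` parallel. -/
theorem dA_smul {α : ι → M → ℝ} {J : M → V →L[ℝ] V} (hα : ∀ a, SA I (α a) x) (hJ : SA I J x)
    (h : ∀ a, nabE I e A a J x = 0) (a b : ι) :
    dA I e c A (fun a y => α a y • J y) a b x = d1 I e c α a b x • J x := by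
  simp only [dA, d1, fun a b => nabE_smul (e := e) (A := A) a (hα b) hJ, h, smul_zero, add_zero,
    sub_smul, sum_smul, smul_eq_mul, mul_smul]

theorem curv_add_smul {α : ι → M → ℝ} {J : M → V →L[ℝ] V} (hA : ∀ a, SA I (A a) x)
    (hα : ∀ a, SA I (α a) x) (hJ : SA I J x) (h : ∀ a, nabE I e A a J x = 0) (a b : ι) :
    curv I e c (A + fun a y => α a y • J y) a b x = curv I e c A a b x + d1 I e c α a b x • J x := by
  rw [curv_addA hA fun a => (hα a).smul hJ, dA_smul hα hJ h]
  simp only [smul_mul_smul_comm, mul_comm (α a x), sub_self, add_zero]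

theorem wK_add_smul {α : ι → M → ℝ} {J : M → V →L[ℝ] V} (hA : ∀ a, SA I (A a) x)
    (hα : ∀ a, SA I (α a) x) (hJ : SA I J x) (h : ∀ a, nabE I e A a J x = 0) :
    wK I e c ρ (A + fun a y => α a y • J y) x = wK I e c ρ A x
      + (1 / 2 : ℝ) • ∑ a, ∑ b, d1 I e c α a b x • (ρ a x * ρ b x * J x) := by
  simp only [wK, curv_add_smul hA hα hJ h, mul_add, sum_add_distrib, smul_add, mul_smul_comm]

theorem Con.add (hA : Con I P A) (hB : Con I P B) : Con I P (A + B) :=
  ⟨fun a x => (hA.sm a x).add (hB.sm a x), fun a x => by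
    simp only [Pi.add_apply, smul_add, sum_add_distrib, hA.proj, hB.proj]⟩

/-- Adding a one-form which commutes with the Clifford structure. -/
theorem CC.addA (C : CC I e P Γ p ρ A) (hB : Con I P B) (hp : ∀ a x, B a x * p x = p x * B a x)
    (hρ : ∀ a b x, B a x * ρ b x = ρ b x * B a x) : CC I e P Γ p ρ (A + B) :=
  { C.toCon.add hB with
    sp := C.sp
    sρ := C.sρ
    cl := C.cl
    par := fun a x => (nabE_addA a p x).trans (by rw [hp, sub_self, add_zero]; exact C.par a x)
    comp := fun a b x => (nabE_addA a (ρ b) x).trans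
      (by rw [hρ, sub_self, add_zero]; exact C.comp a b x) }

/-- The difference of two Clifford connections commutes with the Clifford structure. -/
theorem CC.sub_comm (C : CC I e P Γ p ρ A) (C' : CC I e P Γ p ρ B) (a b : ι) (x : M) :
    (A a x - B a x) * ρ b x = ρ b x * (A a x - B a x) := by
  have := (C.comp a b x).trans (C'.comp a b x).symm
  rw [add_right_inj] at this
  rw [sub_mul, mul_sub, sub_eq_iff_eq_add.1 this]; abel

theorem tw_addA (hA : ∀ a, SA I (A a) x) (hB : ∀ a, SA I (B a) x) (a b : ι) :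
    tw I e c Γ p ρ (A + B) a b x = tw I e c Γ p ρ A a b x
      + (dA I e c A B a b x + (B a x * B b x - B b x * B a x)) * p x := by
  simp only [tw, curv_addA hA hB, add_mul]; abel

/-- Second Bianchi identity `d_A F = 0`. -/
theorem LC.bianchi2 (L : LC I e P c Γ) (F : Frm I e P c) (S : Sep I e P) (hA : Con I P A)
    (a b m : ι) (x : M) :
    (nabE I e A a (curv I e c A b m) x - ∑ k, c b m k x • curv I e c A k a x)
      + (nabE I e A b (curv I e c A m a) x - ∑ k, c m a k x • curv I e c A k b x)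
      + (nabE I e A m (curv I e c A a b) x - ∑ k, c a b k x • curv I e c A k m x) = 0 := by
  ext v
  have hs := fun a => hA.sm a x
  have hu : ∀ y, SA I (fun _ : M => v) y := fun _ => contMDiffAt_const
  have h := L.ricci F hs (θ := fun k => nab I e A k fun _ => v) (fun k => F.sN hs k (hu x))
    fun k => F.projN hA k _ x
  have hH : ∀ a b, cov I e Γ A (fun k => nab I e A k fun _ => v) a b
    = hess I e Γ A a b fun _ => v := fun _ _ => rfl
  have sH := fun a b => L.sCov F hs (θ := fun k => nab I e A k fun _ => v)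
    (fun k => F.sN hs k (hu x)) a b
  have hc := fun a b m => L.cD (x := x) a b (T := fun k => hess I e Γ A k m (fun _ => v) x)
    fun k => L.hess_proj1 F S hA k m _ x
  have hc' := fun a b m => L.cD (x := x) a b (T := fun k => curv I e c A k m x)
    fun k => L.curv_p1 F S hA k m x
  simp only [hH] at sH
  have hN : ∀ a b m, nabE I e A a (curv I e c A b m) x v
      = nab I e A a (hess I e Γ A b m fun _ => v) x - nab I e A a (hess I e Γ A m b fun _ => v) x
        - curv I e c A b m x (nab I e A a (fun _ => v) x) := fun a b m => by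
    rw [← nab_sub a (sH b m) (sH m b)]
    simp only [fun y => L.hess_skew F hA b m (hu y)]
    rw [nab_app' a (F.sCurv hs b m) (hu x), add_sub_cancel_right]
  have hb : ∑ l, Rm I e c Γ a b m l x • nab I e A l (fun _ => v) x
      + ∑ l, Rm I e c Γ b m a l x • nab I e A l (fun _ => v) x
      + ∑ l, Rm I e c Γ m a b l x • nab I e A l (fun _ => v) x = 0 := by
    simp only [← sum_add_distrib, ← add_smul, L.Rm_bi F S, zero_smul, sum_const_zero]
  simp only [hH, hc] at h
  simp only [add_apply, sub_apply, hc', hN, h, _root_.sum_apply, smul_apply, zero_apply]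
  simp only [← L.hess_skew F hA _ _ (hu x), smul_sub, sum_sub_distrib]
  rw [← neg_eq_zero, ← hb]; abel

/-- An even element which anticommutes with `ρ` and squares to `p` is parallel. -/
theorem CC.par_of_anti (C : CC I e P Γ p ρ A) {w : M → V →L[ℝ] V} (hs : SA I w x)
    (h1 : ∀ᶠ y in 𝓝 x, ∀ b, w y * ρ b y = -(ρ b y * w y)) (h2 : ∀ᶠ y in 𝓝 x, w y * w y = p y)
    (h3 : ∀ᶠ y in 𝓝 x, p y * w y = w y)
    (h4 : ∀ T : V →L[ℝ] V, (∀ b, T * ρ b x = -(ρ b x * T)) → T * w x = w x * T) (a : ι) :
    nabE I e A a w x = 0 := by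
  have e0 : nabE I e A a p x = 0 := C.par a x
  have e1 : ∀ b, nabE I e A a w x * ρ b x = -(ρ b x * nabE I e A a w x) := fun b => by
    have := nabE_congr (e := e) (A := A) a (S := fun y => w y * ρ b y + ρ b y * w y)
      (T := fun _ => 0) (h1.mono fun y hy => by simp [hy b])
    rw [nabE_add a (hs.mul (C.sρ b x)) ((C.sρ b x).mul hs), nabE_mul a hs (C.sρ b x),
      nabE_mul a (C.sρ b x) hs, show nabE I e A a (ρ b) x = _ from C.comp a b x] at this
    simp only [mul_sum, sum_mul, mul_smul_comm, smul_mul_assoc, h1.self_of_nhds, smul_neg,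
      sum_neg_distrib, nabE, dv_const, Pi.zero_apply, mul_zero, zero_mul, sub_zero,
      add_zero] at this ⊢
    rw [eq_neg_iff_add_eq_zero, ← this]; abel
  have e2 := nabE_congr (e := e) (A := A) a h2
  have e3 := nabE_congr (e := e) (A := A) a h3
  rw [nabE_mul a hs hs, e0, h4 _ e1, ← two_smul ℝ, smul_eq_zero] at e2
  rw [nabE_mul a (C.sp x) hs, e0, zero_mul, zero_add, ← h2.self_of_nhds, mul_assoc,
    e2.resolve_left two_ne_zero, mul_zero] at e3
  exact e3.symm

omit [IsManifold I 1 M] in
theorem comm_four {𝔸 : Type*} [Ring 𝔸] [Algebra ℝ 𝔸] {r : ι → 𝔸} {T : 𝔸}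
    (h : ∀ b, T * r b = -(r b * T)) (o : ι → ι → ι → ι → ℝ) :
    T * ∑ a, ∑ b, ∑ c, ∑ d, o a b c d • (r a * r b * r c * r d)
      = (∑ a, ∑ b, ∑ c, ∑ d, o a b c d • (r a * r b * r c * r d)) * T := by
  have h2 : ∀ a b, T * (r a * r b) = r a * r b * T := fun a b => by
    rw [← mul_assoc, h, neg_mul, mul_assoc, h, mul_neg, neg_neg, mul_assoc]
  have h4 : ∀ a b c d, T * (r a * r b * r c * r d) = r a * r b * r c * r d * T := fun a b c d => by
    rw [mul_assoc (r a * r b), ← mul_assoc T, h2, mul_assoc, h2, ← mul_assoc]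
  simp only [mul_sum, sum_mul, mul_smul_comm, smul_mul_assoc, h4]

end Crest.Agent.X212.Wz78
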