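import Crest.Agent.X212.Wz78.Int

/-! Riemann tensor in a spanning frame, Ricci identity, Lichnerowicz formula. -/

open scoped Manifold ContDiff Topology
open Finset Filter

set_option linter.unusedSectionVars false

noncomputable section
namespace Crest.Agent.X212.Wz78
open Sob92

section main
variable {E H : Type*} [NormedAddCommGroup E] [NormedSpace ℝ E] [TopologicalSpace H]
  {I : ModelWithCorners ℝ E H} {M : Type*} [TopologicalSpace M] [ChartedSpace H M]
  {V W : Type*} [NormedAddCommGroup V] [NormedSpace ℝ V] [NormedAddCommGroup W] [NormedSpace ℝ W]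
  {ι : Type*} [Fintype ι] [IsManifold I 1 M]

section defs
variable (I) (e : ι → (x : M) → TangentSpace I x)

/-- Linear relations between the frame derivations are killed by `P`. -/
def Sep (P : ι → ι → M → ℝ) : Prop := ∀ x (v : ι → ℝ),
  (∀ f : M → ℝ, (∀ᶠ y in 𝓝 x, SA I f y) → ∑ k, v k * dv I (e k) f x = 0) →
    ∀ l, ∑ k, v k * P k l x = 0

/-- Riemann tensor `g(R(e a, e b) e m, e l)`. -/
def Rm (c Γ : ι → ι → ι → M → ℝ) (a b m l : ι) : M → ℝ := fun x =>
  dv I (e a) (Γ b m l) x - dv I (e b) (Γ a m l) x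
    + ∑ k, (Γ a m k x * Γ b l k x - Γ b m k x * Γ a l k x) - ∑ k, c a b k x * Γ k m l x

/-- Scalar curvature. -/
def scal (c Γ : ι → ι → ι → M → ℝ) : M → ℝ := fun x => ∑ a, ∑ b, Rm I e c Γ a b b a x

/-- Covariant derivative of a `V`-valued one-form. -/
def cov (Γ : ι → ι → ι → M → ℝ) (A : ι → M → V →L[ℝ] V) (θ : ι → M → V) (a b : ι) : M → V :=
  fun x => nab I e A a (θ b) x - ∑ k, Γ a b k x • θ k x

/-- Twisting curvature. -/
def tw (c Γ : ι → ι → ι → M → ℝ) (p : M → V →L[ℝ] V) (ρ A : ι → M → V →L[ℝ] V) (a b : ι) :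
    M → V →L[ℝ] V := fun x =>
  curv I e c A a b x * p x - spin (fun a => ρ a x) fun m l => Rm I e c Γ a b m l x

end defs

/-- The adjoint action. -/
def ad (V : Type*) [NormedAddCommGroup V] [NormedSpace ℝ V] :
    (V →L[ℝ] V) →L[ℝ] (V →L[ℝ] V) →L[ℝ] V →L[ℝ] V :=
  ContinuousLinearMap.mul ℝ (V →L[ℝ] V) - (ContinuousLinearMap.mul ℝ (V →L[ℝ] V)).flip

@[simp] theorem ad_apply (S T : V →L[ℝ] V) : ad V S T = S * T - T * S := rfl

variable {e : ι → (x : M) → TangentSpace I x} {P : ι → ι → M → ℝ}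
  {c Γ : ι → ι → ι → M → ℝ} {A ρ : ι → M → V →L[ℝ] V} {p : M → V →L[ℝ] V} {u : M → V} {x : M}

theorem SA.clm (L : V →L[ℝ] W) (hu : SA I u x) : SA I (fun y => L (u y)) x :=
  L.contDiff.contMDiff.contMDiffAt.comp x hu

theorem nab_zero (a : ι) (u : M → V) : nab I e (fun _ _ => 0) a u = dv I (e a) u :=
  _root_.funext fun _ => by simp [nab]

theorem curv_zero (a b : ι) : curv I e c (fun _ _ => (0 : V →L[ℝ] V)) a b x = 0 := by simp [curv]

theorem con_zero : Con I P (fun _ _ => (0 : V →L[ℝ] V)) :=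
  ⟨fun _ _ => contMDiffAt_const, fun _ _ => by simp⟩

theorem Frm.sCurv (F : Frm I e P c) (hA : ∀ a, SA I (A a) x) (a b : ι) :
    SA I (curv I e c A a b) x :=
  (((F.sD a (hA b)).sub (F.sD b (hA a))).add (((hA a).mul (hA b)).sub ((hA b).mul (hA a)))).sub
    (SA.sum _ fun k _ => (F.sc a b k x).smul (hA k))

/-- Curvature of an induced connection. -/
theorem curv_map (φ : (V →L[ℝ] V) →L[ℝ] W →L[ℝ] W) (hA : ∀ a, SA I (A a) x) (a b : ι)
    (hφ : φ (A a x * A b x - A b x * A a x) = φ (A a x) * φ (A b x) - φ (A b x) * φ (A a x)) :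
    curv I e c (fun a y => φ (A a y)) a b x = φ (curv I e c A a b x) := by
  simp only [curv, dv_clm φ (hA _).md, map_sub φ (_ + _), map_add, hφ, map_sum, map_smul,
    map_sub φ (dv _ _ _ _)]

theorem curv_ad (hA : ∀ a, SA I (A a) x) (a b : ι) :
    curv I e c (fun a y => ad V (A a y)) a b x = ad V (curv I e c A a b x) :=
  curv_map _ hA a b (by ext1 T; simp only [ad_apply, sub_apply, mul_apply_eq_comp]; noncomm_ring)

/-- A parallel endomorphism commutes with the curvature. -/
theorem Frm.curv_par (F : Frm I e P c) (hA : ∀ a, SA I (A a) x) {T : M → V →L[ℝ] V}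
    (hT : SA I T x) (h : ∀ a, ∀ᶠ y in 𝓝 x, dv I (e a) T y + (A a y * T y - T y * A a y) = 0)
    (a b : ι) : curv I e c A a b x * T x = T x * curv I e c A a b x := by
  have h0 : ∀ a b, nab I e (fun a y => ad V (A a y)) a (nab I e (fun a y => ad V (A a y)) b T) x
      = 0 := fun a b => by
    rw [nab_congr (u := nab I e (fun a y => ad V (A a y)) b T) (v := fun _ => 0) a (h b)]
    simp [nab]
  have h1 : ∀ a, nab I e (fun a y => ad V (A a y)) a T x = 0 := fun a => (h a).self_of_nhds
  have := F.nab_comm (A := fun a y => ad V (A a y)) (fun a => (hA a).clm _) a b hT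
  rw [curv_ad hA] at this
  simp only [h0, h1, smul_zero, sum_const_zero, sub_zero, ad_apply] at this
  exact sub_eq_zero.1 this.symm

theorem LC.cD (L : LC I e P c Γ) (a b : ι) {T : ι → W} (hT : ∀ k, ∑ l, P k l x • T l = T k) :
    ∑ k, c a b k x • T k = ∑ k, Γ a b k x • T k - ∑ k, Γ b a k x • T k := by
  simp only [← sum_sub_distrib, ← sub_smul, L.tors, sum_smul]
  rw [sum_comm]
  exact sum_congr rfl fun k _ => by simp only [mul_smul, ← smul_sum, hT]

theorem LC.sRm (L : LC I e P c Γ) (F : Frm I e P c) (a b m l : ι) (x : M) :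
    SA I (Rm I e c Γ a b m l) x :=
  (((F.sD a (L.sm b m l x)).sub (F.sD b (L.sm a m l x))).add (SA.sum _ fun k _ =>
    ((L.sm a m k x).mul (L.sm b l k x)).sub ((L.sm b m k x).mul (L.sm a l k x)))).sub
    (SA.sum _ fun k _ => (F.sc a b k x).mul (L.sm k m l x))

theorem LC.sScal (L : LC I e P c Γ) (F : Frm I e P c) (x : M) : SA I (scal I e c Γ) x :=
  SA.sum _ fun _ _ => SA.sum _ fun _ _ => L.sRm F _ _ _ _ x

theorem LC.sCov (L : LC I e P c Γ) (F : Frm I e P c) (hA : ∀ a, SA I (A a) x) {θ : ι → M → V}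
    (hθ : ∀ a, SA I (θ a) x) (a b : ι) : SA I (cov I e Γ A θ a b) x :=
  (F.sN hA a (hθ b)).sub (SA.sum _ fun k _ => (L.sm a b k x).smul (hθ k))

theorem LC.ΓΓ (L : LC I e P c Γ) (F : Frm I e P c) (a b m : ι) {T : ι → W}
    (hT : ∀ k, ∑ l, P k l x • T l = T k) :
    ∑ k, Γ b m k x • ∑ l, Γ a k l x • T l = -∑ l, (∑ k, Γ b m k x * Γ a l k x) • T l := by
  have := F.dP_zero a x (T := fun k l => Γ b m k x • T l)
    (fun k l => by
      simp only [smul_smul, ← sum_smul]
      rw [← L.proj b m k x]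
      congr 1
      exact sum_congr rfl fun j _ => by rw [(F.pr x).symm k j, mul_comm])
    fun k l => by simp only [smul_comm (P l _ x), ← smul_sum, hT]
  simp only [L.met, add_smul, sum_add_distrib] at this
  rw [eq_neg_iff_add_eq_zero, ← this]
  simp only [smul_sum, sum_smul, smul_smul, mul_comm]
  congr 1
  exact sum_comm

/-- Ricci identity. -/
theorem LC.ricci (L : LC I e P c Γ) (F : Frm I e P c) (hA : ∀ a, SA I (A a) x) {θ : ι → M → V}
    (hθ : ∀ a, SA I (θ a) x) (hp : ∀ k, ∑ l, P k l x • θ l x = θ k x) (a b m : ι) :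
    curv I e c A a b x (θ m x) = ∑ l, Rm I e c Γ a b m l x • θ l x
      + (nab I e A a (cov I e Γ A θ b m) x - nab I e A b (cov I e Γ A θ a m) x
        + ∑ k, (Γ b m k x • cov I e Γ A θ a k x - Γ a m k x • cov I e Γ A θ b k x)
        - ∑ k, c a b k x • cov I e Γ A θ k m x) := by
  have h1 : ∀ a b, nab I e A a (cov I e Γ A θ b m) x = nab I e A a (nab I e A b (θ m)) x
      - ∑ k, (dv I (e a) (Γ b m k) x • θ k x + Γ b m k x • nab I e A a (θ k) x) := fun a b => by
    unfold cov
    rw [nab_sub a (F.sN hA b (hθ m)) (SA.sum _ fun k _ => (L.sm b m k x).smul (hθ k)),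
      nab_sum a _ fun k => (L.sm b m k x).smul (hθ k)]
    simp only [fun k => nab_smul (e := e) (A := A) a (L.sm b m k x) (hθ k)]
  have h2 : ∑ l, (∑ k, c a b k x * Γ k m l x) • θ l x
      = ∑ k, c a b k x • ∑ l, Γ k m l x • θ l x := by
    simp only [sum_smul, smul_sum, smul_smul]; exact sum_comm
  rw [← F.nab_comm hA a b (hθ m), h1, h1]
  simp only [cov, Rm, smul_sub, sub_smul, add_smul, sum_add_distrib, sum_sub_distrib,
    L.ΓΓ F _ _ _ hp, h2]
  abel

theorem LC.Rm_s34 (L : LC I e P c Γ) (F : Frm I e P c) (a b m l : ι) (x : M) :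
    Rm I e c Γ a b m l x = -Rm I e c Γ a b l m x := by
  have h := F.br a b (P m l) x (F.sP m l x)
  have h1 : ∀ a b, dv I (e a) (dv I (e b) (P m l)) x
      = dv I (e a) (Γ b m l) x + dv I (e a) (Γ b l m) x := fun a b => by
    rw [show dv I (e b) (P m l) = fun y => Γ b m l y + Γ b l m y from
      _root_.funext fun y => L.met b m l y, dv_add' (L.sm _ _ _ x) (L.sm _ _ _ x)]
  simp only [h1, L.met, mul_add, sum_add_distrib] at h
  simp only [Rm, sum_sub_distrib, mul_comm (Γ a l _ x), mul_comm (Γ b l _ x)]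
  linarith

theorem LC.Rm_p4 (L : LC I e P c Γ) (F : Frm I e P c) (a b m l : ι) (x : M) :
    ∑ k, Rm I e c Γ a b m k x * P k l x = Rm I e c Γ a b m l x := by
  have h := L.ricci F (V := ℝ) (A := fun _ _ => 0) (x := x) (fun _ => contMDiffAt_const)
    (θ := fun k => P k l) (fun k => F.sP k l x) (fun k => (F.pr x).idem k l) a b m
  have h1 : ∀ a m, cov I e Γ (fun _ _ => (0 : ℝ →L[ℝ] ℝ)) (fun k => P k l) a m = Γ a l m :=
    fun a m => _root_.funext fun y => by simp [cov, nab_zero, L.met, L.proj]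
  have h2 := L.Rm_s34 F a b m l x
  simp only [h1, curv_zero, nab_zero, smul_eq_mul, zero_apply] at h
  simp only [Rm, sum_sub_distrib] at h h2 ⊢
  simp only [mul_comm (Γ a l _ x), mul_comm (Γ b l _ x)] at h2
  linarith

theorem LC.proj1 (L : LC I e P c Γ) (F : Frm I e P c) (S : Sep I e P) (j b l : ι) (x : M) :
    ∑ a, P j a x * Γ a b l x = Γ j b l x := by
  have := S x (fun l => ∑ a, P j a x * Γ a b l x - Γ j b l x) (fun f hf => by
    have hs := fun a b => L.hess_skew F (V := ℝ) con_zero a b hf.self_of_nhds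
    have hp := L.hess_proj F (V := ℝ) con_zero b j hf.self_of_nhds
    simp only [curv_zero, zero_apply, sub_eq_zero] at hs
    simp only [hs b] at hp
    simp only [hess, nab_zero, smul_sub, sum_sub_distrib, F.projD] at hp
    simp only [smul_eq_mul, mul_sum, sub_right_inj] at hp
    simp only [sub_mul, sum_sub_distrib, sum_mul, ← hp, mul_assoc, sub_eq_zero]
    exact sum_comm) l
  simp only [sub_mul, sum_sub_distrib, L.proj, sum_mul, mul_assoc] at this
  rw [sum_comm] at this
  simpa only [← mul_sum, L.proj, sub_eq_zero] using this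

theorem LC.Rm_s12 (L : LC I e P c Γ) (F : Frm I e P c) (S : Sep I e P) (a b m l : ι) (x : M) :
    Rm I e c Γ a b m l x = -Rm I e c Γ b a m l x := by
  have h := fun a b => L.cD (x := x) a b (T := fun k => Γ k m l x) fun k => L.proj1 F S k m l x
  simp only [smul_eq_mul] at h
  simp only [Rm, h, sum_sub_distrib]
  ring

theorem LC.hess_proj1 (L : LC I e P c Γ) (F : Frm I e P c) (S : Sep I e P) (hA : Con I P A)
    (j b : ι) (u : M → V) (x : M) :
    ∑ a, P j a x • hess I e Γ A a b u x = hess I e Γ A j b u x := by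
  simp only [hess, smul_sub, sum_sub_distrib, F.projN hA, smul_sum, smul_smul]
  rw [sum_comm]
  simp only [← sum_smul, L.proj1 F S]

theorem LC.Rm_bi (L : LC I e P c Γ) (F : Frm I e P c) (S : Sep I e P) (a b m l : ι) (x : M) :
    Rm I e c Γ a b m l x + Rm I e c Γ b m a l x + Rm I e c Γ m a b l x = 0 := by
  have := S x (fun l => Rm I e c Γ a b m l x + Rm I e c Γ b m a l x + Rm I e c Γ m a b l x)
    (fun f hf => by
      have h := L.ricci F (V := ℝ) (A := fun _ _ => 0) (x := x) (fun _ => contMDiffAt_const)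
        (θ := fun k => nab I e (fun _ _ => 0) k f)
        (fun k => F.sN (fun _ => contMDiffAt_const) k hf.self_of_nhds)
        fun k => F.projN con_zero k f x
      have hH : ∀ a b, cov I e Γ (fun _ _ => (0 : ℝ →L[ℝ] ℝ))
        (fun k => nab I e (fun _ _ => 0) k f) a b = hess I e Γ (fun _ _ => 0) a b f :=
          fun _ _ => rfl
      have hs : ∀ a b, hess I e Γ (fun _ _ => (0 : ℝ →L[ℝ] ℝ)) a b f
          =ᶠ[𝓝 x] hess I e Γ (fun _ _ => 0) b a f := fun a b => hf.mono fun y hy => by
        have := L.hess_skew F (V := ℝ) con_zero a b hy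
        simpa [curv_zero, sub_eq_zero] using this
      have hc := fun a b m => L.cD (x := x) a b
        (T := fun k => hess I e Γ (fun _ _ => (0 : ℝ →L[ℝ] ℝ)) k m f x)
        fun k => L.hess_proj1 F S con_zero k m f x
      simp only [hH, hc, curv_zero, zero_apply] at h
      have h1 := h a b m
      have h2 := h b m a
      have h3 := h m a b
      rw [nab_congr m (hs a b), nab_congr a (hs m b)] at h3
      rw [nab_congr b (hs a m)] at h1
      simp only [fun k => (hs k m).eq_of_nhds] at h1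
      simp only [fun k => (hs k a).eq_of_nhds] at h2
      simp only [fun k => (hs k b).eq_of_nhds] at h3
      simp only [sum_sub_distrib, nab_zero, smul_eq_mul] at h1 h2 h3
      simp only [add_mul, sum_add_distrib]
      linarith) l
  simpa only [add_mul, sum_add_distrib, L.Rm_p4 F] using this

theorem LC.curvT (L : LC I e P c Γ) (F : Frm I e P c) (S : Sep I e P) (x : M) :
    Curv fun a b m l => Rm I e c Γ a b m l x :=
  ⟨fun a b m l => L.Rm_s12 F S a b m l x, fun a b m l => L.Rm_s34 F a b m l x,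
    fun a b m l => L.Rm_bi F S a b m l x⟩

theorem LC.Rm_p3 (L : LC I e P c Γ) (F : Frm I e P c) (a b m l : ι) (x : M) :
    ∑ k, Rm I e c Γ a b k l x * P k m x = Rm I e c Γ a b m l x := by
  simp only [fun k => L.Rm_s34 F a b k l x, neg_mul, sum_neg_distrib, L.Rm_p4 F]

theorem LC.Rm_p2 (L : LC I e P c Γ) (F : Frm I e P c) (S : Sep I e P) (a b m l : ι) (x : M) :
    ∑ k, Rm I e c Γ a k m l x * P k b x = Rm I e c Γ a b m l x := by
  simp only [fun k => (L.curvT F S x).pair a k m l, L.Rm_p4 F]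

theorem LC.Rm_p1 (L : LC I e P c Γ) (F : Frm I e P c) (S : Sep I e P) (a b m l : ι) (x : M) :
    ∑ k, Rm I e c Γ k b m l x * P k a x = Rm I e c Γ a b m l x := by
  simp only [fun k => (L.curvT F S x).pair k b m l, L.Rm_p3 F]

theorem LC.scalT_eq (L : LC I e P c Γ) (F : Frm I e P c) (x : M) :
    scalT (fun a b => P a b x) (fun a b m l => Rm I e c Γ a b m l x) = scal I e c Γ x := by
  unfold scalT scal
  refine sum_congr rfl fun a _ => ?_
  have h : ∀ b l, ∑ m, Rm I e c Γ a b m l x * P b m x = Rm I e c Γ a b b l x := fun b l => by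
    simp only [(F.pr x).symm b, L.Rm_p3 F]
  simp only [h, sum_mul, (F.pr x).symm a]
  rw [sum_comm]
  simp only [L.Rm_p4 F]

theorem LC.curv_anti (L : LC I e P c Γ) (hA : Con I P A) (a b : ι) (x : M) :
    curv I e c A a b x = -curv I e c A b a x := by
  simp only [curv, L.cD _ _ fun k => hA.proj k x]; abel

theorem LC.curv_p2 (L : LC I e P c Γ) (F : Frm I e P c) (S : Sep I e P) (hA : Con I P A)
    (a j : ι) (x : M) : ∑ b, P j b x • curv I e c A a b x = curv I e c A a j x := by
  ext v
  have h := fun a b => L.hess_skew F hA a b (u := fun _ => v) (x := x) contMDiffAt_const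
  simp only [_root_.sum_apply, smul_apply, ← h, smul_sub, sum_sub_distrib, L.hess_proj1 F S hA,
    L.hess_proj F hA _ _ contMDiffAt_const]

theorem LC.curv_p1 (L : LC I e P c Γ) (F : Frm I e P c) (S : Sep I e P) (hA : Con I P A)
    (j b : ι) (x : M) : ∑ a, P j a x • curv I e c A a b x = curv I e c A j b x := by
  simp only [fun a => L.curv_anti hA a b x, smul_neg, sum_neg_distrib, L.curv_p2 F S hA]

theorem CC.curv_p (C : CC I e P Γ p ρ A) (F : Frm I e P c) (a b : ι) (x : M) :
    curv I e c A a b x * p x = p x * curv I e c A a b x :=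
  F.curv_par (fun a => C.sm a x) (C.sp x) (fun a => Eventually.of_forall (C.par a)) a b

/-- The curvature of a Clifford connection acts on `ρ` by the Riemann tensor. -/
theorem CC.curv_comp (C : CC I e P Γ p ρ A) (L : LC I e P c Γ) (F : Frm I e P c) (a b m : ι)
    (x : M) : curv I e c A a b x * ρ m x - ρ m x * curv I e c A a b x
      = ∑ l, Rm I e c Γ a b m l x • ρ l x := by
  have h := L.ricci F (A := fun a y => ad V (A a y)) (x := x) (fun a => SA.clm _ (C.sm a x))
    (fun a => C.sρ a x) (C.cl x).proj a b m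
  have h0 : ∀ a b, cov I e Γ (fun a y => ad V (A a y)) ρ a b = fun _ => 0 := fun a b =>
    _root_.funext fun y => by simpa [cov, nab, sub_eq_zero] using C.comp a b y
  rw [curv_ad fun a => C.sm a x] at h
  simpa [h0, nab] using h

/-- The twisting curvature commutes with Clifford multiplication. -/
theorem CC.tw_comm (C : CC I e P Γ p ρ A) (L : LC I e P c Γ) (F : Frm I e P c) (a b m : ι)
    (x : M) : tw I e c Γ p ρ A a b x * ρ m x = ρ m x * tw I e c Γ p ρ A a b x := by
  have h1 := C.curv_comp L F a b m x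
  have h2 := (C.cl x).spin_comm (fun m l => L.Rm_s34 F a b m l x) (fun m l => L.Rm_p4 F a b m l x) m
  simp only [tw, sub_mul, mul_sub, mul_assoc, (C.cl x).pl]
  rw [C.curv_p F, ← mul_assoc, (C.cl x).pr, sub_eq_iff_eq_add.1 h1, sub_eq_iff_eq_add.1 h2]
  abel

/-- Lichnerowicz formula. -/
theorem CC.lich (C : CC I e P Γ p ρ A) (L : LC I e P c Γ) (F : Frm I e P c) (S : Sep I e P)
    (x : M) : wK I e c ρ A x = (scal I e c Γ x / 4) • p x
      + (1 / 2 : ℝ) • ∑ a, ∑ b, ρ a x * ρ b x * tw I e c Γ p ρ A a b x := by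
  rw [← L.scalT_eq F, ← (C.cl x).lich (F.pr x) (L.curvT F S x), ← smul_add, wK]
  simp only [← sum_add_distrib, tw, ← mul_add, add_sub_cancel, C.curv_p F, ← mul_assoc]
  simp only [mul_assoc _ _ (p x), (C.cl x).pr]

end main

section An
open An
variable {E : Type} [NormedAddCommGroup E] [NormedSpace ℝ E] [FiniteDimensional ℝ E]
  [MeasurableSpace E] [BorelSpace E]
  {HM : Type} [TopologicalSpace HM] {I : ModelWithCorners ℝ E HM}
  {M : Type} [TopologicalSpace M] [ChartedSpace HM M] [IsManifold I ∞ M]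
  [MeasurableSpace M] {ι : Type} [Fintype ι]

theorem sep (F : Fr I M ι) : Sep I F.e F.P := fun x v h l => by
  have h0 : ∑ b, v b • F.e b x = 0 := by
    refine (SeparatingDual.eq_iff_forall_dual_eq (R := ℝ) (V := E)).2 fun L => ?_
    have hs : ∀ᶠ y in 𝓝 x, SA I (extChartAt I x) y :=
      mem_of_superset (chart_source_mem_nhds HM x) fun y hy => contMDiffAt_extChartAt' hy
    have := h (fun y => L (extChartAt I x y)) (hs.mono fun y hy => hy.clm L)
    simp only [dv_clm L hs.self_of_nhds.md] at this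
    simp only [dv, mfderiv_extChartAt_self] at this
    refine Eq.trans ?_ (this.trans (map_zero L).symm)
    refine (map_sum L (fun b => v b • (F.e b x : E)) univ).trans ?_
    exact sum_congr rfl fun b _ => map_smul L (v b) (F.e b x : E)
  simpa only [F.P_symm l, mul_comm] using F.P_ker x v h0 l

end An

end Crest.Agent.X212.Wz78
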