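import Crest.Agent.X212.Wz78.Par
import Crest.Agent.X212.Cmp73.St
import Crest.Agent.X212.Cmp73.Ine
import Crest.Agent.X212.Std94.Smo

/-!
# Row 212: the refined Kato inequality for curvature forms (`Cmp73.Kat`)
-/

set_option linter.unusedSectionVars false
set_option maxHeartbeats 400000
open scoped Manifold ContDiff Topology InnerProductSpace
open Finset Filter
noncomputable section
namespace Crest.Agent.X212.Wz78
open An Sob92

section alg
variable {ι : Type*} [Fintype ι] {V : Type*} [NormedAddCommGroup V] [InnerProductSpace ℝ V]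

theorem cyc (f : ι → ι → ι → ℝ) : ∑ a, ∑ b, ∑ c, f b c a = ∑ a, ∑ b, ∑ c, f a b c := by
  rw [sum_comm]
  exact sum_congr rfl fun b _ => sum_comm

theorem nsq_sub (u v : V) : ‖u - v‖ ^ 2 ≤ 2 * ‖u‖ ^ 2 + 2 * ‖v‖ ^ 2 := by
  have := norm_sub_le u v
  nlinarith [norm_nonneg (u - v), norm_nonneg u, norm_nonneg v, sq_nonneg (‖u‖ - ‖v‖)]

theorem nsq_sum {κ : Type*} [Fintype κ] (v : κ → V) :
    ‖∑ a, v a‖ ^ 2 ≤ Fintype.card κ * ∑ a, ‖v a‖ ^ 2 :=
  (pow_le_pow_left₀ (norm_nonneg _) (norm_sum_le _ _) 2).trans sq_sum_le_card_mul_sum_sq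

theorem nsq_three (u v w : V) : ‖u + v + w‖ ^ 2 ≤ 3 * (‖u‖ ^ 2 + ‖v‖ ^ 2 + ‖w‖ ^ 2) := by
  have := nsq_sum ![u, v, w]
  simpa [Fin.sum_univ_three] using this

theorem wedge_sq {ν : ι → ℝ} (hν : ∑ a, ν a ^ 2 = 1) {η : ι → ι → V} (h : ∀ b c, η b c = -η c b) :
    ∑ a, ∑ b, ∑ c, ‖ν a • η b c + ν b • η c a + ν c • η a b‖ ^ 2
      = 3 * ∑ b, ∑ c, ‖η b c‖ ^ 2 - 6 * ∑ c, ‖∑ a, ν a • η a c‖ ^ 2 := by
  have h1 : ∑ a, ∑ b, ∑ c, ν a * (ν a * ⟪η b c, η b c⟫_ℝ) = ∑ b, ∑ c, ‖η b c‖ ^ 2 := by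
    simp only [← mul_assoc, ← sq, ← mul_sum, ← sum_mul, hν, one_mul, real_inner_self_eq_norm_sq]
  have h2 : ∑ a, ∑ b, ∑ c, ν a * (ν b * ⟪η b c, η c a⟫_ℝ) = -∑ c, ‖∑ a, ν a • η a c‖ ^ 2 := by
    rw [← cyc, ← sum_neg_distrib]
    refine sum_congr rfl fun c _ => ?_
    simp only [← real_inner_self_eq_norm_sq, sum_inner, inner_sum, real_inner_smul_left,
      real_inner_smul_right, ← sum_neg_distrib]
    refine sum_congr rfl fun a _ => sum_congr rfl fun b _ => ?_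
    rw [h c a, inner_neg_right]; ring
  have h3 := cyc fun a b c => ν a * (ν a * ⟪η b c, η b c⟫_ℝ)
  have h4 := cyc fun a b c => ν b * (ν b * ⟪η c a, η c a⟫_ℝ)
  have h5 := cyc fun a b c => ν a * (ν b * ⟪η b c, η c a⟫_ℝ)
  have h6 := cyc fun a b c => ν b * (ν c * ⟪η c a, η a b⟫_ℝ)
  have h7 : ∀ a b c, ‖ν a • η b c + ν b • η c a + ν c • η a b‖ ^ 2
      = ν a * (ν a * ⟪η b c, η b c⟫_ℝ) + ν b * (ν b * ⟪η c a, η c a⟫_ℝ)
        + ν c * (ν c * ⟪η a b, η a b⟫_ℝ) + 2 * (ν a * (ν b * ⟪η b c, η c a⟫_ℝ))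
        + 2 * (ν b * (ν c * ⟪η c a, η a b⟫_ℝ)) + 2 * (ν c * (ν a * ⟪η a b, η b c⟫_ℝ)) :=
    fun a b c => by
      simp only [← real_inner_self_eq_norm_sq, inner_add_left, inner_add_right,
        real_inner_smul_left, real_inner_smul_right, real_inner_comm (η b c) (η c a),
        real_inner_comm (η c a) (η a b), real_inner_comm (η a b) (η b c)]
      ring
  simp only [h7, sum_add_distrib, ← mul_sum (a := (2 : ℝ))]
  linarith

theorem kato_unit {ν : ι → ℝ} (hν : ∑ a, ν a ^ 2 = 1) {S : ι → ι → ι → V}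
    (hS : ∀ a b c, S a b c = -S a c b) {δ : ℝ} (hd : ∀ a b c, ‖S a b c + S b c a + S c a b‖ ≤ δ)
    (hv : ∀ c, ‖∑ a, S a a c‖ ≤ δ) :
    (21 + 12 * Fintype.card ι) * ∑ b, ∑ c, ‖∑ a, ν a • S a b c‖ ^ 2
      ≤ (18 + 12 * Fintype.card ι) * ∑ a, ∑ b, ∑ c, ‖S a b c‖ ^ 2
        + (2 * Fintype.card ι ^ 3 + 12 * Fintype.card ι) * δ ^ 2 := by
  set N : ℝ := (Fintype.card ι : ℝ)
  set η : ι → ι → V := fun b c => ∑ a, ν a • S a b c with hη
  set T : ι → ι → ι → V := fun a b c => S a b c - ν a • η b c with hT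
  have e0 : ∀ b c, η b c = -η c b := fun b c => by
    simp only [hη, ← sum_neg_distrib, ← smul_neg, ← hS]
  have e1 : ∑ a, ∑ b, ∑ c, ‖T a b c‖ ^ 2
      = ∑ a, ∑ b, ∑ c, ‖S a b c‖ ^ 2 - ∑ b, ∑ c, ‖η b c‖ ^ 2 := by
    rw [cyc fun b c a => ‖T a b c‖ ^ 2, cyc fun b c a => ‖S a b c‖ ^ 2]
    simp only [← sum_sub_distrib]
    refine sum_congr rfl fun b _ => sum_congr rfl fun c _ => ?_
    have k : ∑ a, ν a * ⟪S a b c, η b c⟫_ℝ = ‖η b c‖ ^ 2 := by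
      rw [← real_inner_self_eq_norm_sq]
      conv_rhs => rw [hη]; simp only [sum_inner, real_inner_smul_left]
    simp only [hT, norm_sub_sq_real, real_inner_smul_right, norm_smul, mul_pow, Real.norm_eq_abs,
      sq_abs, sum_add_distrib, sum_sub_distrib, ← mul_sum, ← sum_mul, k, hν]
    ring
  have e2 : ∀ a b c, ‖ν a • η b c + ν b • η c a + ν c • η a b‖ ^ 2
      ≤ 2 * δ ^ 2 + 6 * (‖T a b c‖ ^ 2 + ‖T b c a‖ ^ 2 + ‖T c a b‖ ^ 2) := fun a b c => by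
    have k : ν a • η b c + ν b • η c a + ν c • η a b
        = S a b c + S b c a + S c a b - (T a b c + T b c a + T c a b) := by simp only [hT]; abel
    have := nsq_three (T a b c) (T b c a) (T c a b)
    have := pow_le_pow_left₀ (norm_nonneg _) (hd a b c) 2
    rw [k]
    linarith [nsq_sub (S a b c + S b c a + S c a b) (T a b c + T b c a + T c a b)]
  have e3 : ∀ c, ‖∑ a, ν a • η a c‖ ^ 2 ≤ 2 * δ ^ 2 + 2 * N * ∑ a, ∑ b, ‖T a b c‖ ^ 2 := fun c => by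
    have k : ∑ a, ν a • η a c = ∑ a, S a a c - ∑ a, T a a c := by
      simp only [hT, sum_sub_distrib]; abel
    have k1 := nsq_sum fun a => T a a c
    have k2 : ∑ a, ‖T a a c‖ ^ 2 ≤ ∑ a, ∑ b, ‖T a b c‖ ^ 2 := sum_le_sum fun a _ =>
      single_le_sum (f := fun b => ‖T a b c‖ ^ 2) (fun _ _ => sq_nonneg _) (mem_univ a)
    have := pow_le_pow_left₀ (norm_nonneg _) (hv c) 2
    have := mul_le_mul_of_nonneg_left k2 (Nat.cast_nonneg (α := ℝ) (Fintype.card ι))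
    rw [k]
    linarith [nsq_sub (∑ a, S a a c) (∑ a, T a a c)]
  have e4 := sum_le_sum fun a (_ : a ∈ univ) => sum_le_sum fun b (_ : b ∈ univ) =>
    sum_le_sum fun c (_ : c ∈ univ) => e2 a b c
  have e5 := sum_le_sum fun c (_ : c ∈ univ) => e3 c
  have c1 := cyc fun a b c => ‖T a b c‖ ^ 2
  have c2 := cyc fun a b c => ‖T b c a‖ ^ 2
  have c3 := cyc fun a b c => ‖T c a b‖ ^ 2
  rw [wedge_sq hν e0] at e4
  simp only [sum_add_distrib, ← mul_sum, sum_const, card_univ, nsmul_eq_mul] at e4 e5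
  rw [c1] at c2
  have c4 : ∑ c, ∑ a, ∑ b, ‖T a b c‖ ^ 2 = ∑ a, ∑ b, ∑ c, ‖T a b c‖ ^ 2 := c1
  rw [c4] at e4 e5
  rw [c2, e1] at e4
  rw [e1] at e5
  change _ * ∑ b, ∑ c, ‖η b c‖ ^ 2 ≤ _
  nlinarith

variable (ι) in
/-- the constant of the refined Kato inequality -/
def kK : ℝ := (18 + 12 * Fintype.card ι) / (21 + 12 * Fintype.card ι)

theorem kK_lt : kK ι < 1 := (div_lt_one (by positivity)).2 (by linarith)

/-- refined Kato inequality for arrays -/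
theorem kato {S : ι → ι → ι → V} (hS : ∀ a b c, S a b c = -S a c b) {δ : ℝ}
    (hd : ∀ a b c, ‖S a b c + S b c a + S c a b‖ ≤ δ) (hv : ∀ c, ‖∑ a, S a a c‖ ≤ δ)
    (θ : ι → ι → V) : ∑ a, (∑ b, ∑ c, ⟪S a b c, θ b c⟫_ℝ) ^ 2
      ≤ (kK ι * ∑ a, ∑ b, ∑ c, ‖S a b c‖ ^ 2 + (Fintype.card ι ^ 3 + Fintype.card ι) * δ ^ 2)
        * ∑ b, ∑ c, ‖θ b c‖ ^ 2 := by
  set v : ι → ℝ := fun a => ∑ b, ∑ c, ⟪S a b c, θ b c⟫_ℝ with hv'
  set w : ℝ := ∑ a, v a ^ 2 with hw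
  have k0 : 0 ≤ kK ι := by unfold kK; positivity
  rcases (show 0 ≤ w by positivity).eq_or_lt with h | h
  · rw [← h]; positivity
  have s0 : 0 < √w := Real.sqrt_pos.2 h
  have hν : ∑ a, (v a / √w) ^ 2 = 1 := by
    simp only [div_pow, ← sum_div, Real.sq_sqrt h.le]; exact div_self h.ne'
  have h1 := kato_unit hν hS hd hv
  have h2 : ∑ b, ∑ c, ⟪∑ a, (v a / √w) • S a b c, θ b c⟫_ℝ = √w := by
    simp only [sum_inner, real_inner_smul_left]
    rw [← cyc fun b c a => v a / √w * ⟪S a b c, θ b c⟫_ℝ]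
    simp only [← mul_sum, div_mul_eq_mul_div, ← sum_div]
    rw [div_eq_iff s0.ne', Real.mul_self_sqrt h.le, hw]
    simp only [sq, hv']
  have h3 : √w ≤ ∑ s : ι × ι, ‖∑ a, (v a / √w) • S a s.1 s.2‖ * ‖θ s.1 s.2‖ := by
    rw [Fintype.sum_prod_type]
    exact h2.ge.trans <| sum_le_sum fun b _ => sum_le_sum fun c _ => real_inner_le_norm _ _
  have h4 := (pow_le_pow_left₀ s0.le h3 2).trans (sum_mul_sq_le_sq_mul_sq _ _ _)
  rw [Real.sq_sqrt h.le, Fintype.sum_prod_type, Fintype.sum_prod_type] at h4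
  refine h4.trans (mul_le_mul_of_nonneg_right ?_ (by positivity))
  have p0 : (0 : ℝ) < 21 + 12 * Fintype.card ι := by positivity
  rw [kK, div_mul_eq_mul_div, div_add' _ _ _ p0.ne', le_div_iff₀ p0, mul_comm]
  refine h1.trans (add_le_add_right ?_ _)
  have n0 : (0 : ℝ) ≤ Fintype.card ι := Nat.cast_nonneg _
  rw [mul_right_comm]
  gcongr
  nlinarith [pow_nonneg n0 3, pow_nonneg n0 4, pow_nonneg n0 2]

end alg

section gen
variable {E H : Type*} [NormedAddCommGroup E] [NormedSpace ℝ E] [TopologicalSpace H]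
  {I : ModelWithCorners ℝ E H} {M : Type*} [TopologicalSpace M] [ChartedSpace H M]
  {V : Type*} [NormedAddCommGroup V] [NormedSpace ℝ V] {ι : Type*} [Fintype ι] [IsManifold I 1 M]
  {e : ι → (x : M) → TangentSpace I x} {P : ι → ι → M → ℝ}
  {c : ι → ι → ι → M → ℝ} {A : ι → M → V →L[ℝ] V} {x : M}

/-- Frame Laplacian of a two-form. -/
theorem Frm.lap2' (F : Frm I e P c) (hA : ∀ a, SA I (A a) x) {θ : ι → ι → M → V}
    (hs : ∀ a b, SA I (θ a b) x) (h1 : ∀ a b y, θ a b y = -θ b a y) (b m : ι) :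
    ∑ a, nab I e A a (nab I e A a (θ b m)) x
      = nab I e A b (dv2 I e A θ m) x - nab I e A m (dv2 I e A θ b) x
        + ∑ a, (curv I e c A a b x (θ a m x) - curv I e c A a m x (θ a b x))
        + ∑ a, ∑ k, (c a b k x • nab I e A k (θ a m) x - c a m k x • nab I e A k (θ a b) x)
        + ∑ a, nab I e A a (fun y => ∑ k,
          (c b m k y • θ k a y + c m a k y • θ k b y + c a b k y • θ k m y)) x
        + ∑ a, nab I e A a (d2 I e c A θ a b m) x := by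
  have hn := fun a b m => F.sN hA a (hs b m)
  have e1 : ∀ a, d2 I e c A θ a b m = fun y => nab I e A a (θ b m) y -
      (nab I e A b (θ a m) y - nab I e A m (θ a b) y + ∑ k,
        (c b m k y • θ k a y + c m a k y • θ k b y + c a b k y • θ k m y)) := fun a =>
    _root_.funext fun y => by
      rw [d2, show θ m a = fun y => -θ a m y from _root_.funext (h1 m a), nab_neg]
      simp only [sum_add_distrib]
      abel
  have e2 : ∀ b m, nab I e A b (dv2 I e A θ m) x = ∑ a, nab I e A b (nab I e A a (θ a m)) x :=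
    fun b m => nab_sum b _ fun a => hn a a m
  simp only [e2, ← F.nab_comm hA _ _ (hs _ _), ← sum_sub_distrib, ← sum_add_distrib]
  refine sum_congr rfl fun a _ => ?_
  have hS : SA I (fun y => ∑ k,
      (c b m k y • θ k a y + c m a k y • θ k b y + c a b k y • θ k m y)) x := SA.sum _ fun k _ =>
    (((F.sc _ _ _ x).smul (hs _ _)).add ((F.sc _ _ _ x).smul (hs _ _))).add
      ((F.sc _ _ _ x).smul (hs _ _))
  have hT : SA I (fun y => nab I e A b (θ a m) y - nab I e A m (θ a b) y + ∑ k,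
      (c b m k y • θ k a y + c m a k y • θ k b y + c a b k y • θ k m y)) x :=
    ((hn b a m).sub (hn m a b)).add hS
  rw [e1, nab_sub a (hn a b m) hT,
    nab_add a ((hn b a m).sub (hn m a b)) hS, nab_sub a (hn b a m) (hn m a b)]
  simp only [sum_sub_distrib]
  abel

end gen

section vb
variable {Q : Type} {F : Filter Q} {p : Q → ℝ → Prop} {u : Q → ℝ → ℝ} {V : Q → Type}
  [∀ q, NormedAddCommGroup (V q)] [∀ q, NormedSpace ℝ (V q)] {f g : ∀ q, V q}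

variable (F p u) in
/-- bounded by a multiple of `u` along the filter -/
def Vb (f : ∀ q, V q) : Prop := ∃ K, 0 ≤ K ∧ ∀ᶠ q in F, ∀ μ, p q μ → ‖f q‖ ≤ K * u q μ

theorem Vb.add (h : Vb F p u f) (h' : Vb F p u g) : Vb F p u fun q => f q + g q :=
  let ⟨K, h0, h1⟩ := h
  let ⟨K', h0', h1'⟩ := h'
  ⟨K + K', add_nonneg h0 h0', (h1.and h1').mono fun _ hq μ hp => (norm_add_le _ _).trans
    ((add_le_add (hq.1 μ hp) (hq.2 μ hp)).trans_eq (add_mul ..).symm)⟩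

theorem Vb.neg (h : Vb F p u f) : Vb F p u fun q => -f q := by simpa only [Vb, norm_neg] using h

theorem Vb.sub (h : Vb F p u f) (h' : Vb F p u g) : Vb F p u fun q => f q - g q := by
  simpa only [sub_eq_add_neg] using h.add h'.neg

theorem Vb.norm (h : Vb F p u f) : Vb F p u (V := fun _ => ℝ) fun q => ‖f q‖ := by
  simpa only [Vb, norm_norm] using h

theorem Vb.sum {κ : Type*} [Fintype κ] {f : κ → ∀ q, V q} (h : ∀ i, Vb F p u (f i)) :
    Vb F p u fun q => ∑ i, f i q := by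
  classical
  induction (univ : Finset κ) using Finset.induction_on with
  | empty => exact ⟨0, le_rfl, .of_forall fun _ _ _ => by simp⟩
  | insert i s hi ih => simpa only [sum_insert hi] using (h i).add ih

theorem Vb.smul {r : Q → ℝ} (hr : ∃ K, ∀ᶠ q in F, ‖r q‖ ≤ K) (h : Vb F p u f) :
    Vb F p u fun q => r q • f q :=
  let ⟨K, h0, h1⟩ := h
  let ⟨C, hC⟩ := hr
  ⟨max C 0 * K, by positivity, (h1.and hC).mono fun _ hq μ hp => by
    rw [norm_smul, mul_assoc]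
    exact mul_le_mul (hq.2.trans (le_max_left _ _)) (hq.1 μ hp) (norm_nonneg _) (le_max_right _ _)⟩

theorem Vb.unif {κ : Type*} [Fintype κ] {f : κ → ∀ q, V q} (h : ∀ i, Vb F p u (f i)) :
    ∃ K, 0 ≤ K ∧ ∀ᶠ q in F, ∀ μ, p q μ → ∀ i, ‖f i q‖ ≤ K * u q μ :=
  let ⟨K, h0, h1⟩ := Vb.sum fun i => (h i).norm
  ⟨K, h0, h1.mono fun q hq μ hp i => (single_le_sum (f := fun i => ‖f i q‖)
    (fun _ _ => norm_nonneg _) (mem_univ i)).trans ((le_abs_self _).trans (hq μ hp))⟩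

end vb

section fam
open Cmp73 (Fb Sy Wt B0 Kat sU sP L0 Dw)
variable {E : Type} [NormedAddCommGroup E] [NormedSpace ℝ E] {HM : Type} [TopologicalSpace HM]
  {I : ModelWithCorners ℝ E HM} {ι : Type} [Fintype ι]
  {α : Type} {X : α → Type} [∀ n, TopologicalSpace (X n)] [∀ n, ChartedSpace HM (X n)]
  [∀ n, IsManifold I ∞ (X n)] [∀ n, MeasurableSpace (X n)] {b : Fb I ι X} {L : Sy ι X}
  {V : α → Type} [∀ n, NormedAddCommGroup (V n)] [∀ n, InnerProductSpace ℝ (V n)]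
  {A : ∀ n, ι → X n → V n →L[ℝ] V n}

theorem vb_wt {σ : ℕ → ℕ × ℕ} {f : ∀ n, X n → V n} (h : Wt (b.cx L 3) A σ f) (v : List ι) {d : ℕ}
    (hσ : σ v.length ≤ (1, d)) (R : ℝ) {u : (Σ n, X n) → ℝ → ℝ}
    (hu : ∀ q μ, μ ^ d ≤ u q μ) : Vb b.F (fun q μ => 1 ≤ μ ∧ b.H L 3 μ 1 q.1 q.2 ≤ R) u
      fun q => Dw I (b.e q.1) (A q.1) v (f q.1) q.2 := by
  obtain ⟨K, h0, h1⟩ := ((h.bd v).mono hσ) 1 (√R) (by simp)
  refine ⟨K, h0, h1.mono fun q hq μ hp => (hq μ hp.1 (Real.sqrt_le_sqrt hp.2)).trans ?_⟩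
  simpa [Cmp73.bt] using mul_le_mul_of_nonneg_left (hu q μ) h0

theorem Vb.mono {Q : Type} {F : Filter Q} {p : Q → ℝ → Prop} {u u' : Q → ℝ → ℝ} {V : Q → Type}
    [∀ q, NormedAddCommGroup (V q)] {f : ∀ q, V q} (h : Vb F p u f) {C : ℝ} (C0 : 0 ≤ C)
    (hu : ∀ q μ, p q μ → u q μ ≤ C * u' q μ) : Vb F p u' f :=
  let ⟨K, h0, h1⟩ := h
  ⟨K * C, by positivity, h1.mono fun q hq μ hp => (hq μ hp).trans
    ((mul_le_mul_of_nonneg_left (hu q μ hp) h0).trans_eq (mul_assoc ..).symm)⟩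

variable (b L) in
/-- the one-jet is bounded at the scale `μ` -/
abbrev pR (R : ℝ) (q : Σ n, X n) (μ : ℝ) : Prop := 1 ≤ μ ∧ b.H L 3 μ 1 q.1 q.2 ≤ R

variable (b L A) in
/-- sections which are of lower order in the Kato inequalities -/
def Nu (f : ∀ n, X n → V n) : Prop := (∀ n, Sm I (f n)) ∧ ∀ R,
  Vb b.F (pR b L R) (fun q μ => μ ^ 4 + b.H L 0 μ 0 q.1 q.2) (fun q => f q.1 q.2) ∧
    ∀ a, Vb b.F (pR b L R) (fun q μ => μ ^ 5 * √(μ ^ 4 + b.H L 0 μ 0 q.1 q.2))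
      fun q => nab I (b.e q.1) (A q.1) a (f q.1) q.2

theorem H0_le {μ : ℝ} (m1 : 1 ≤ μ) (r : ℕ) (n : α) (x : X n) :
    b.H L 0 μ r n x ≤ μ ^ 6 * b.H L 3 μ r n x := by
  simp only [Fb.H, mul_sum, ← mul_assoc]
  refine sum_le_sum fun i _ => mul_le_mul_of_nonneg_right ?_ (Cmp73.hs_nonneg ..)
  unfold Cmp73.Fld.d
  split_ifs
  · field_simp; rfl
  · exact le_mul_of_one_le_left (by positivity) (one_le_pow₀ m1)

theorem nu_le {R μ : ℝ} {q : Σ n, X n} (h : pR b L R q μ) : μ ^ 4 + b.H L 0 μ 0 q.1 q.2 ≤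
    (2 + |R|) * (μ ^ 5 * √(μ ^ 4 + b.H L 0 μ 0 q.1 q.2)) := by
  have m0 : 0 ≤ μ := zero_le_one.trans h.1
  have h1 := (H0_le h.1 0 q.1 q.2).trans (mul_le_mul_of_nonneg_left
    ((b.H_mono ..).trans (h.2.trans (le_abs_self R))) (by positivity))
  have h0 := b.H_nonneg L 0 μ 0 q.1 q.2
  have h2 : √(μ ^ 4 + b.H L 0 μ 0 q.1 q.2) ≤ (2 + |R|) * μ ^ 5 := by
    refine Real.sqrt_le_iff.2 ⟨by positivity, ?_⟩
    have a1 : μ ^ 4 ≤ μ ^ 10 := pow_le_pow_right₀ h.1 (by norm_num)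
    have a2 : μ ^ 6 ≤ μ ^ 10 := pow_le_pow_right₀ h.1 (by norm_num)
    nlinarith [mul_le_mul_of_nonneg_right a2 (abs_nonneg R), pow_nonneg m0 10,
      mul_nonneg (sq_nonneg |R|) (pow_nonneg m0 10), mul_nonneg (abs_nonneg R) (pow_nonneg m0 10)]
  calc _ = √(μ ^ 4 + b.H L 0 μ 0 q.1 q.2) * √(μ ^ 4 + b.H L 0 μ 0 q.1 q.2) :=
        (Real.mul_self_sqrt (by positivity)).symm
    _ ≤ (2 + |R|) * μ ^ 5 * √(μ ^ 4 + b.H L 0 μ 0 q.1 q.2) := by gcongr
    _ = _ := mul_assoc ..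

theorem mu7_le {μ ν : ℝ} (m1 : 1 ≤ μ) (h0 : 0 ≤ ν) : μ ^ 7 ≤ μ ^ 5 * √(μ ^ 4 + ν) := by
  have m0 : 0 ≤ μ := zero_le_one.trans m1
  rw [show μ ^ 7 = μ ^ 5 * μ ^ 2 by ring]
  exact mul_le_mul_of_nonneg_left (Real.le_sqrt_of_sq_le (by nlinarith)) (by positivity)

theorem nu_wt {σ : ℕ → ℕ × ℕ} {f : ∀ n, X n → V n} (h : Wt (b.cx L 3) A σ f) (h0 : σ 0 ≤ (1, 4))
    (h1 : σ 1 ≤ (1, 7)) : Nu b L A f :=
  ⟨h.sm, fun R => ⟨vb_wt h [] h0 R fun _ _ => le_add_of_nonneg_right (b.H_nonneg ..), fun a =>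
    (vb_wt h [a] h1 R (u := fun _ μ => μ ^ 7) fun _ _ => le_rfl).mono zero_le_one fun _ _ hp => by
      rw [one_mul]; exact mu7_le hp.1 (b.H_nonneg ..)⟩⟩

section nu
variable {f g : ∀ n, X n → V n}

theorem Nu.congr (h : Nu b L A f) (e : ∀ n x, f n x = g n x) : Nu b L A g :=
  (_root_.funext fun n => _root_.funext (e n) : f = g) ▸ h

theorem Nu.add (h : Nu b L A f) (h' : Nu b L A g) : Nu b L A fun n x => f n x + g n x :=
  ⟨fun n x => (h.1 n x).add (h'.1 n x), fun R => ⟨(h.2 R).1.add (h'.2 R).1, fun a => by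
    simp only [fun n x => nab_add (e := b.e n) (A := A n) a (h.1 n x) (h'.1 n x)]
    exact ((h.2 R).2 a).add ((h'.2 R).2 a)⟩⟩

theorem Nu.sum {κ : Type*} [Fintype κ] {f : κ → ∀ n, X n → V n} (h : ∀ i, Nu b L A (f i)) :
    Nu b L A fun n x => ∑ i, f i n x :=
  ⟨fun n x => SA.sum _ fun i _ => (h i).1 n x, fun R => ⟨.sum fun i => ((h i).2 R).1, fun a => by
    simp only [fun n x => nab_sum (e := b.e n) (A := A n) a univ fun i => (h i).1 n x]
    exact .sum fun i => ((h i).2 R).2 a⟩⟩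

theorem cs_b0 {r : ∀ n, X n → ℝ} (h : b.CS r) : ∃ K, ∀ᶠ q in b.F, ‖r q.1 q.2‖ ≤ K :=
  (Fb.cb_iff.1 h).2.2 []

theorem cs_b1 {r : ∀ n, X n → ℝ} (h : b.CS r) (a : ι) : ∃ K, ∀ᶠ q in b.F,
    ‖Sob92.dv I (b.e q.1 a) (r q.1) q.2‖ ≤ K := by
  simpa [Dw, nab] using (Fb.cb_iff.1 h).2.2 [a]

theorem Nu.smul {r : ∀ n, X n → ℝ} (hr : b.CS r) (h : Nu b L A f) :
    Nu b L A fun n x => r n x • f n x :=
  ⟨fun n x => SA.smul (hr.sm n x) (h.1 n x), fun R => ⟨(h.2 R).1.smul (cs_b0 hr), fun a => by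
    simp only [fun n x => nab_smul (e := b.e n) (A := A n) a (hr.sm n x) (h.1 n x)]
    exact (((h.2 R).1.mono (by positivity) fun _ _ => nu_le).smul (cs_b1 hr a)).add
      (((h.2 R).2 a).smul (cs_b0 hr))⟩⟩

theorem Nu.csmul (r : ℝ) (h : Nu b L A f) : Nu b L A fun n x => r • f n x :=
  ⟨fun n x => SA.smul contMDiffAt_const (h.1 n x), fun R =>
    ⟨(h.2 R).1.smul ⟨‖r‖, .of_forall fun _ => le_rfl⟩, fun a => by
    simp only [fun n x => nab_csmul (e := b.e n) (A := A n) a r (h.1 n x)]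
    exact ((h.2 R).2 a).smul ⟨‖r‖, .of_forall fun _ => le_rfl⟩⟩⟩

theorem Nu.sub (h : Nu b L A f) (h' : Nu b L A g) : Nu b L A fun n x => f n x - g n x :=
  (h.add (h'.csmul (-1))).congr fun _ _ => by rw [neg_one_smul, sub_eq_add_neg]

end nu

/-- KAT: a two-form whose exterior derivative and divergence are of lower order -/
theorem kat_of {θ : ι → ι → ∀ n, X n → V n} (hc : ∀ a a' k, b.CS fun n => b.c n a a' k)
    (sk : ∀ n a x, Skew (A n a x)) (hθ : ∀ i l, Wt (b.cx L 3) A (sU 4) (θ i l))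
    (anti : ∀ i l n x, θ i l n x = -θ l i n x) (e0 : ∀ n x, 0 ≤ b.en n x)
    {h : ∀ n, X n → ℝ} (en : ∀ n x, h n x = ∑ i, ∑ l, ‖θ i l n x‖ ^ 2)
    (c1 : ∀ R, Vb b.F (pR b L R) (fun q μ => b.en q.1 q.2 + μ ^ 6) fun q => h q.1 q.2)
    (c2 : ∀ R, Vb b.F (pR b L R) (fun q μ => h q.1 q.2 + μ ^ 6) fun q => b.en q.1 q.2)
    (bi : ∀ a i l, Nu b L A fun n => d2 I (b.e n) (b.c n) (A n) (fun i l => θ i l n) a i l)
    (dv : ∀ m, Nu b L A fun n => dv2 I (b.e n) (A n) (fun i l => θ i l n) m)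
    (cv : ∀ R a a' i l, Vb b.F (pR b L R) (fun q μ => h q.1 q.2 + μ ^ 6) fun q =>
      curv I (b.e q.1) (b.c q.1) (A q.1) a a' q.2 (θ i l q.1 q.2)) :
    Kat b L := by
  have sθ := fun i l n x => (hθ i l).sm n x
  have h0 : ∀ n x, 0 ≤ h n x := fun n x => by rw [en]; positivity
  have ef : ∀ n, h n = fun x => ∑ s : ι × ι, 1 * ‖θ s.1 s.2 n x‖ ^ 2 := fun n =>
    _root_.funext fun x => by simp only [en, one_mul, Fintype.sum_prod_type]
  set G : ∀ n, X n → ℝ := fun n x => ∑ a, ∑ i, ∑ l, ‖nab I (b.e n) (A n) a (θ i l n) x‖ ^ 2 with hG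
  have G0 : ∀ n x, 0 ≤ G n x := fun n x => by positivity
  refine ⟨e0, h, fun n => ef n ▸ Cmp73.sm_lin _ fun s x => Mp86.cm_normSq (sθ _ _ n x), h0, kK ι,
    kK_lt, G, G0, fun R => ?_⟩
  set U : (Σ n, X n) → ℝ → ℝ := fun q μ => h q.1 q.2 + √(G q.1 q.2) + μ ^ 6 +
    μ ^ 5 * √(μ ^ 4 + b.H L 0 μ 0 q.1 q.2) with hU
  set u : (Σ n, X n) → ℝ → ℝ := fun q μ => μ ^ 4 + b.H L 0 μ 0 q.1 q.2 with hu
  have t0 : ∀ i l n x, ‖θ i l n x‖ ≤ √(h n x) := fun i l n x => Real.le_sqrt_of_sq_le <| by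
    rw [ef]
    exact (one_mul _).ge.trans (single_le_sum (f := fun s : ι × ι => 1 * ‖θ s.1 s.2 n x‖ ^ 2)
      (fun _ _ => by positivity) (mem_univ (i, l)))
  have nθ := fun i l => nu_wt (hθ i l) (by simp [sU]) (by simp [sU])
  have t3 : ∀ {f : ∀ n, X n → V n}, Nu b L A f → ∀ a, Vb b.F (pR b L R) U fun q =>
      nab I (b.e q.1) (A q.1) a (f q.1) q.2 := fun hf a => ((hf.2 R).2 a).mono zero_le_one
    fun q μ _ => (le_add_of_nonneg_left (by have := h0 q.1 q.2; positivity)).trans_eq (one_mul _).symm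
  have t6 := fun a a' i l => (cv R a a' i l).mono (u' := U) zero_le_one fun q μ hp => by
    have : 0 ≤ μ ^ 5 * √(μ ^ 4 + b.H L 0 μ 0 q.1 q.2) := by have := hp.1; positivity
    simp only [hU]; linarith [Real.sqrt_nonneg (G q.1 q.2)]
  have t7 : ∀ s : ι × ι, Vb b.F (pR b L R) U fun q => L0 I (b.e q.1) (A q.1) (θ s.1 s.2 q.1) q.2 :=
    fun s => by
      simp only [L0, fun n x => (b.frm n).lap2' (x := x) ((hθ s.1 s.2).sA n · x)
        (θ := fun i l => θ i l n) (sθ · · n x) (anti · · n) s.1 s.2]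
      exact (((((t3 (dv _) _).sub (t3 (dv _) _)).add (.sum fun a => (t6 ..).sub (t6 ..))).add
        (.sum fun a => .sum fun j => ((t3 (nθ ..) _).smul (cs_b0 (hc ..))).sub
          ((t3 (nθ ..) _).smul (cs_b0 (hc ..))))).add (.sum fun a => t3 (.sum fun j =>
            (((nθ ..).smul (hc ..)).add ((nθ ..).smul (hc ..))).add ((nθ ..).smul (hc ..))) a)).add
              (.sum fun a => t3 (bi ..) a)
  have t8 : ∀ s : ι × ι × ι, Vb b.F (pR b L R) u fun q =>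
      nab I (b.e q.1) (A q.1) s.1 (θ s.2.1 s.2.2 q.1) q.2
        + nab I (b.e q.1) (A q.1) s.2.1 (θ s.2.2 s.1 q.1) q.2
        + nab I (b.e q.1) (A q.1) s.2.2 (θ s.1 s.2.1 q.1) q.2 := fun s => by
    have := ((((bi s.1 s.2.1 s.2.2).add (Nu.sum fun k => (nθ k s.1).smul (hc s.2.1 s.2.2 k))).add
      (Nu.sum fun k => (nθ k s.2.1).smul (hc s.2.2 s.1 k))).add
      (Nu.sum fun k => (nθ k s.2.2).smul (hc s.1 s.2.1 k))).2 R |>.1
    convert this using 2 with q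
    simp only [d2]; abel
  obtain ⟨K1, k1, h1⟩ := Vb.unif fun s : ι × ι => vb_wt (hθ s.1 s.2) [] (d := 4) (by simp [sU]) R
    (u := fun _ μ => μ ^ 4) fun _ _ => le_rfl
  obtain ⟨K2, k2, h2⟩ := Vb.unif fun s : ι × ι × ι => vb_wt (hθ s.2.1 s.2.2) [s.1] (d := 6)
    (by simp [sU]) R (u := fun _ μ => μ ^ 6) fun _ _ => le_rfl
  obtain ⟨K3, k3, h3⟩ := Vb.unif t7
  obtain ⟨K4, k4, h4⟩ := Vb.unif t8
  obtain ⟨K5, k5, h5⟩ := Vb.unif fun m => ((dv m).2 R).1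
  obtain ⟨K6, k6, h6⟩ := c1 R
  obtain ⟨K7, k7, h7⟩ := c2 R
  set N : ℝ := (Fintype.card ι : ℝ)
  have N0 : 0 ≤ N := Nat.cast_nonneg _
  obtain ⟨C, a1, a2, a3, a4, a5, a6⟩ : ∃ C, N ^ 2 * K1 ^ 2 ≤ C ∧ N ^ 3 * K2 ^ 2 ≤ C ∧ K6 ≤ C ∧ K7 ≤ C ∧
      2 * N ^ 2 * K3 ≤ C ∧ 4 * (N ^ 3 + N) * (K4 + K5) ^ 2 ≤ C := by
    have : 0 ≤ N ^ 2 * K1 ^ 2 := by positivity
    have : 0 ≤ N ^ 3 * K2 ^ 2 := by positivity
    have : 0 ≤ 2 * N ^ 2 * K3 := by positivity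
    have : 0 ≤ 4 * (N ^ 3 + N) * (K4 + K5) ^ 2 := by positivity
    refine ⟨N ^ 2 * K1 ^ 2 + N ^ 3 * K2 ^ 2 + K6 + K7 + 2 * N ^ 2 * K3 +
      4 * (N ^ 3 + N) * (K4 + K5) ^ 2, ?_, ?_, ?_, ?_, ?_, ?_⟩ <;> linarith
  refine ⟨C, ?_⟩
  filter_upwards [h1, h2, h3, h4, h5, h6, h7] with ⟨n, x⟩ q1 q2 q3 q4 q5 q6 q7 μ m1 hH
  have hp : pR b L R ⟨n, x⟩ μ := ⟨m1, hH⟩
  have m0 : 0 ≤ μ := by linarith
  have n0 := h0 n x
  have n1 := e0 n x
  have n2 := b.H_nonneg L 0 μ 0 n x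
  have U0 : 0 ≤ U ⟨n, x⟩ μ := by positivity
  have u0 : 0 ≤ u ⟨n, x⟩ μ := by positivity
  refine ⟨?_, ?_, (le_abs_self _).trans ((q6 μ hp).trans (by gcongr)),
    (le_abs_self _).trans ((q7 μ hp).trans (by gcongr)), ?_, ?_⟩
  · have := sum_le_sum fun i (_ : i ∈ univ) => sum_le_sum fun l (_ : l ∈ univ) =>
      pow_le_pow_left₀ (norm_nonneg _) (q1 μ hp (i, l)) 2
    simp only [sum_const, card_univ, nsmul_eq_mul, Dw] at this
    rw [en]
    refine this.trans ?_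
    nlinarith [mul_le_mul_of_nonneg_right a1 (pow_nonneg m0 8)]
  · have := sum_le_sum fun a (_ : a ∈ univ) => sum_le_sum fun i (_ : i ∈ univ) =>
      sum_le_sum fun l (_ : l ∈ univ) => pow_le_pow_left₀ (norm_nonneg _) (q2 μ hp (a, i, l)) 2
    simp only [sum_const, card_univ, nsmul_eq_mul, Dw] at this
    refine this.trans ?_
    nlinarith [mul_le_mul_of_nonneg_right a2 (pow_nonneg m0 12)]
  · have l1 := fun s : ι × ι => Cmp73.Lop_hs (b.frm n).se ((hθ s.1 s.2).sA n) (sk n) one_pos x 0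
      (sθ s.1 s.2 n) (Λ := K3 * U ⟨n, x⟩ μ) fun v hv => by
        obtain rfl := List.length_eq_zero_iff.1 (Nat.le_zero.1 hv)
        simpa [Dw] using q3 μ hp s
    simp only [Cmp73.hs, Real.sqrt_sq (norm_nonneg _), pow_zero, mul_one] at l1
    have l2 := sum_le_sum fun s (_ : s ∈ univ) =>
      (sub_le_sub_left (mul_le_mul_of_nonneg_left (t0 s.1 s.2 n x) (by positivity)) _).trans (l1 s)
    have l3 : Mp86.Lop I (b.e n) 0 (h n) x
        = ∑ s : ι × ι, Mp86.Lop I (b.e n) 0 (fun x => ‖θ s.1 s.2 n x‖ ^ 2) x := by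
      rw [ef, Cmp73.Lop_lin (b.frm n).se _ fun s x => Mp86.cm_normSq (sθ _ _ n x)]
      simp only [one_mul]
    have l4 : ∑ s : ι × ι, ∑ a, ‖nab I (b.e n) (A n) a (θ s.1 s.2 n) x‖ ^ 2 = G n x := by
      rw [sum_comm]; simp only [hG, Fintype.sum_prod_type]
    simp only [sum_sub_distrib, ← mul_sum, l4, sum_const, card_univ, nsmul_eq_mul,
      Fintype.card_prod, Nat.cast_mul] at l2
    refine le_trans ?_ (l3 ▸ l2)
    change 2 * G n x - _ * √(h n x) * U ⟨n, x⟩ μ ≤ _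
    nlinarith [mul_le_mul_of_nonneg_right a5 (mul_nonneg (Real.sqrt_nonneg (h n x)) U0)]
  · have l1 := kato (S := fun a i l => nab I (b.e n) (A n) a (θ i l n) x) (fun a i l => by
        rw [← nab_neg]; exact congrArg (nab I (b.e n) (A n) a · x) (_root_.funext (anti i l n)))
      (δ := (K4 + K5) * u ⟨n, x⟩ μ)
      (fun a i l => (q4 μ hp (a, i, l)).trans (by nlinarith))
      (fun m => (q5 μ hp m).trans (by nlinarith)) fun i l => θ i l n x
    have l2 : ∀ a, Sob92.dv I (b.e n a) (h n) x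
        = 2 * ∑ i, ∑ l, ⟪nab I (b.e n) (A n) a (θ i l n) x, θ i l n x⟫_ℝ := fun a => by
      rw [ef, Cmp73.dv_lin _ fun s x => Mp86.cm_normSq (sθ _ _ n x), Fintype.sum_prod_type]
      simp only [← real_inner_self_eq_norm_sq, one_mul, mul_sum,
        fun i l => dv_inner (e := b.e n) a (sk n a x) (sθ i l n x) (sθ i l n x),
        real_inner_comm (nab I (b.e n) (A n) a _ x), two_mul]
    rw [← en] at l1
    simp only [l2, mul_pow, ← mul_sum]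
    change _ ≤ (kK ι * G n x + _) * _ at l1
    rw [mul_pow] at l1
    change _ ≤ _ + C * h n x * (h n x + μ ^ 6 + u ⟨n, x⟩ μ ^ 2)
    nlinarith [mul_le_mul_of_nonneg_right a6 (mul_nonneg n0 (sq_nonneg (u ⟨n, x⟩ μ))),
      mul_nonneg (mul_nonneg (k6.trans a3) n0) (add_nonneg n0 (pow_nonneg m0 6))]

theorem cs_mul {f g : ∀ n, X n → ℝ} (hf : b.CS f) (hg : b.CS g) :
    b.CS fun n x => f n x * g n x := Wt.smul hf hg fun _ _ => le_of_eq (add_zero _)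

theorem cs_D {f : ∀ n, X n → ℝ} (hf : b.CS f) (a : ι) : b.CS fun n => dv I (b.e n a) (f n) :=
  (Wt.D hf a).congr fun _ _ => (add_zero _).symm

end fam

theorem norm_hsL_mul {κ : Type} [Fintype κ] [DecidableEq κ] (ξ η : HS κ) :
    ‖hsL (opL ξ * opL η)‖ ≤ ‖ξ‖ * ‖η‖ := by
  refine (abs_le_of_sq_le_sq' ?_ (by positivity)).2
  conv_rhs => rw [mul_pow, ← hsL_opL η]
  rw [← real_inner_self_eq_norm_sq (hsL _), ← real_inner_self_eq_norm_sq (hsL _), inner_hsL,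
    inner_hsL]
  simp only [mul_sum, real_inner_self_eq_norm_sq, ← mul_pow]
  exact sum_le_sum fun k _ => pow_le_pow_left₀ (norm_nonneg _)
    (norm_opL_apply ξ (opL η (EuclideanSpace.single k 1))) 2

theorem norm_adc {κ : Type} [Fintype κ] [DecidableEq κ] (ξ η : HS κ) :
    ‖adc (opL ξ) η‖ ≤ 2 * (‖ξ‖ * ‖η‖) := by
  rw [adc_apply, map_sub]
  linarith [norm_sub_le (hsL (opL ξ * opL η)) (hsL (opL η * opL ξ)), norm_hsL_mul ξ η,
    norm_hsL_mul η ξ]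

section gauge
open Cmp73 (Fb Sy Wt Kat sU sP)
variable {E : Type} [NormedAddCommGroup E] [NormedSpace ℝ E] [FiniteDimensional ℝ E]
  [MeasurableSpace E] [BorelSpace E] {HM : Type} [TopologicalSpace HM]
  {I : ModelWithCorners ℝ E HM} {ι : Type} [Fintype ι]
  {α : Type} {X : α → Type} [∀ n, TopologicalSpace (X n)] [∀ n, ChartedSpace HM (X n)]
  [∀ n, IsManifold I ∞ (X n)] [∀ n, MeasurableSpace (X n)] {b : Fb I ι X} {L : Sy ι X}
  {lam : α → Type} [∀ n, Fintype (lam n)] {B : ∀ n, Base (X n) ι (lam n)}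
  {G : ∀ n, Geo I (X n) ι (lam n)} {m : ∀ n, Md (X n) ι (lam n)} {W : ∀ n, (m n).Cn}

/-- KAT for a family of admissible connections, with the energy density `‖Fg‖²` -/
theorem kat_g (hB : ∀ n, (B n).OK I) (hG : ∀ n, (G n).OK (B n)) (H : ∀ n, (m n).OK I (B n))
    (C : ∀ n, (m n).IsConn (B n) (G n) (W n)) (he : ∀ n, b.e n = (G n).F.e)
    (hc' : ∀ n, b.c n = (G n).F.c) (en : ∀ n x, b.en n x = ‖(m n).Fg (G n).F (W n) x‖ ^ 2)
    (hc : ∀ a a' k, b.CS fun n => b.c n a a' k) (ho : ∀ a i l k, b.CS fun n => (B n).o a i l k)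
    (hF : ∀ s, Wt (b.cx L 3) (fun n => (m n).adW (W n)) (sU 4)
      fun n x => (m n).Fg (G n).F (W n) x s)
    (hp : ∀ s, Wt (b.cx L 3) (fun n => (m n).adW (W n)) (sP 3)
      fun n x => (m n).p2 (B n) x ((m n).Fg (G n).F (W n) x) s) : Kat b L := by
  have hs := fun n => Std94.sm_pg (hB n) (H n)
  have e0 : ∀ n x, 0 ≤ b.en n x := fun n x => by rw [en]; positivity
  have nF := fun s => nu_wt (hF s) (by simp [sU]) (by simp [sU])
  have c1 : ∀ R, Vb b.F (pR b L R) (fun q μ => b.en q.1 q.2 + μ ^ 6) fun q => b.en q.1 q.2 :=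
    fun R => ⟨1, zero_le_one, .of_forall fun q μ _ => by
      rw [Real.norm_of_nonneg (e0 ..), one_mul]; exact le_add_of_nonneg_right (by positivity)⟩
  refine kat_of (θ := fun i l n x => (m n).Fg (G n).F (W n) x (i, l))
    hc (fun n => adW_skw (C n)) (fun i l => hF (i, l)) (fun i l n x => Fg_swap (hG n) (C n) (l, i))
    e0 (fun n x => ?_) c1 c1 (fun a i l => ((nF (i, l)).csmul 0).congr fun n x => ?_)
    (fun k => (((Nu.sum fun a => nu_wt ((hp (a, k)).D a) (by simp [sP]) (by simp [sP])).csmul 2).sub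
      ((Nu.sum fun a => .sum fun i => .sum fun l => ((nF (i, l)).smul (cs_D (ho a k i l) a)).add
        ((Nu.sum fun j => (nF (j, a)).smul (hc i l j)).smul (ho a k i l))).csmul (1 / 2))).congr
      fun n x => ?_) fun R a a' i l => ⟨2, zero_le_two, .of_forall fun ⟨n, x⟩ μ _ => ?_⟩
  · rw [en, PiLp.norm_sq_eq_of_L2, Fintype.sum_prod_type]
  · rw [he, hc', zero_smul]; exact (Fg_bianchi (hG n) (H n) (C n) (hs n) a i l x).symm
  · change (2 : ℝ) • ∑ a, nab I (b.e n) _ a _ x - _ = _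
    simp only [he, hc', Fg_div (hG n) (H n) (C n) (hs n) (hB n)]
    rfl
  · simp only [he, hc', en, curv_adW_g (hB n) (hG n) (H n) (C n) a a' (Fg_mem _ _)]
    refine (norm_adc _ _).trans (mul_le_mul_of_nonneg_left ?_ two_pos.le)
    refine le_add_of_le_of_nonneg ?_ (by positivity)
    rw [sq]
    exact mul_le_mul (PiLp.norm_apply_le _ _) (PiLp.norm_apply_le _ _) (norm_nonneg _)
      (norm_nonneg _)

end gauge

end Crest.Agent.X212.Wz78
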