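import Crest.Agent.X212.Wz78.Par
import Crest.Agent.X212.Map77.Cls

/-!
# Row 212: operators with parallel symbol

* `Sy`: a symbol `σ a : V → W` parallel for connections `A`, `A'`; `dop σ A u = ∑ σ a ∇_a u`;
* `Sy.boch`, `integral_boch`: the Bochner-Weitzenboeck formula for any such operator;
* `Rp`: an `An.Op` is `dop` plus a term of order zero; calculus for `cut`, `pair`, `adj`.
-/

set_option linter.unusedSectionVars false
open scoped Manifold ContDiff Topology InnerProductSpace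
open Finset Filter MeasureTheory
noncomputable section
namespace Crest.Agent.X212.Wz78
open An Sob92

section pointwise
variable {E H : Type*} [NormedAddCommGroup E] [NormedSpace ℝ E] [TopologicalSpace H]
  {I : ModelWithCorners ℝ E H} {M : Type*} [TopologicalSpace M] [ChartedSpace H M]
  {U V W : Type*} [NormedAddCommGroup U] [InnerProductSpace ℝ U]
  [NormedAddCommGroup V] [InnerProductSpace ℝ V] [NormedAddCommGroup W] [InnerProductSpace ℝ W]
  {ι : Type*} [Fintype ι] [IsManifold I 1 M]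

variable (I) in
/-- the covariant derivative of a homomorphism -/
def nabH (e : ι → (x : M) → TangentSpace I x) (A : ι → M → V →L[ℝ] V) (A' : ι → M → W →L[ℝ] W)
    (a : ι) (T : M → V →L[ℝ] W) (x : M) : V →L[ℝ] W :=
  dv I (e a) T x + ((A' a x).comp (T x) - (T x).comp (A a x))

variable (I) in
/-- a parallel symbol -/
structure Sy (e : ι → (x : M) → TangentSpace I x) (P : ι → ι → M → ℝ) (Γ : ι → ι → ι → M → ℝ)
    (A : ι → M → V →L[ℝ] V) (A' : ι → M → W →L[ℝ] W) (σ : ι → M → V →L[ℝ] W) : Prop where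
  sm : ∀ a x, SA I (σ a) x
  proj : ∀ a x, ∑ b, P a b x • σ b x = σ a x
  par : ∀ a b x, nabH I e A A' a (σ b) x = ∑ k, Γ a b k x • σ k x

variable (I) in
/-- the first order operator of a symbol and a connection -/
def dop (e : ι → (x : M) → TangentSpace I x) (σ : ι → M → V →L[ℝ] W) (A : ι → M → V →L[ℝ] V)
    (u : M → V) : M → W := fun x => ∑ a, σ a x (nab I e A a u x)

variable {e : ι → (x : M) → TangentSpace I x} {P : ι → ι → M → ℝ} {g : ι → M → ℝ}
  {c Γ : ι → ι → ι → M → ℝ} {A : ι → M → V →L[ℝ] V} {A' : ι → M → W →L[ℝ] W}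
  {A'' : ι → M → U →L[ℝ] U} {σ : ι → M → V →L[ℝ] W} {u w : M → V} {x : M}

theorem nabH_apply (a : ι) (T : M → V →L[ℝ] W) (v : V) :
    nabH I e A A' a T x v = dv I (e a) T x v + (A' a x (T x v) - T x (A a x v)) := rfl

theorem nabH_self (a : ι) (T : M → V →L[ℝ] V) : nabH I e A A a T x = nabE I e A a T x := rfl

theorem nab_hom (a : ι) {T : M → V →L[ℝ] W} (hT : SA I T x) (hu : SA I u x) :
    nab I e A' a (fun y => T y (u y)) x
      = nabH I e A A' a T x (u x) + T x (nab I e A a u x) := by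
  simp only [nab, nabH_apply, dv_app hT.md hu.md, map_add]
  abel

theorem nabH_eq (a : ι) {T : M → V →L[ℝ] W} (hT : SA I T x) (v : V) :
    nabH I e A A' a T x v = nab I e A' a (fun y => T y v) x - T x (A a x v) := by
  rw [nab_hom (A := A) a hT (u := fun _ => v) contMDiffAt_const]
  simp [nab]

theorem SA.hcomp {S : M → W →L[ℝ] U} {T : M → V →L[ℝ] W} (hS : SA I S x) (hT : SA I T x) :
    SA I (fun y => (S y).comp (T y)) x := hS.clm_comp hT

theorem nabH_comp (a : ι) {S : M → W →L[ℝ] U} {T : M → V →L[ℝ] W} (hS : SA I S x)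
    (hT : SA I T x) : nabH I e A A'' a (fun y => (S y).comp (T y)) x
      = (nabH I e A' A'' a S x).comp (T x) + (S x).comp (nabH I e A A' a T x) := by
  ext v
  rw [nabH_eq a (hS.hcomp hT)]
  simp only [ContinuousLinearMap.comp_apply, add_apply,
    nab_hom (A := A') a hS (hT.app (u := fun _ => v) contMDiffAt_const), nabH_eq a hT, map_sub]
  abel

theorem nabH_add (a : ι) {S T : M → V →L[ℝ] W} (hS : SA I S x) (hT : SA I T x) :
    nabH I e A A' a (fun y => S y + T y) x = nabH I e A A' a S x + nabH I e A A' a T x := by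
  ext v
  simp only [nabH_apply, dv_add' hS hT, add_apply, map_add]
  abel

theorem nabH_const (a : ι) (T : V →L[ℝ] W) (h : ∀ v, A' a x (T v) = T (A a x v)) :
    nabH I e A A' a (fun _ => T) x = 0 := by
  ext v
  simp [nabH_apply, h]

theorem curv_hom (T : V →L[ℝ] W) (h : ∀ a y v, A' a y (T v) = T (A a y v))
    (hA : ∀ a, SA I (A a) x) (hA' : ∀ a, SA I (A' a) x) (a b : ι) (v : V) :
    curv I e c A' a b x (T v) = T (curv I e c A a b x v) := by
  have k : ∀ a b, dv I (e a) (A' b) x (T v) = T (dv I (e a) (A b) x v) := fun a b => by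
    have h1 := dv_clm (e := e a) (ContinuousLinearMap.apply ℝ W (T v)) (hA' b).md
    have h2 := dv_clm (e := e a) (T.comp (ContinuousLinearMap.apply ℝ V v)) (hA b).md
    simp only [ContinuousLinearMap.apply_apply, ContinuousLinearMap.comp_apply, h] at h1 h2
    rw [← h1, h2]
  simp only [curv, add_apply, sub_apply, mul_apply_eq_comp, _root_.sum_apply, smul_apply, k, h,
    map_add, map_sub, map_sum, map_smul]

namespace Sy
variable (S : Sy I e P Γ A A' σ)
include S

theorem nab (a b : ι) (hu : SA I u x) : nab I e A' a (fun y => σ b y (u y)) x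
    = σ b x (nab I e A a u x) + ∑ k, Γ a b k x • σ k x (u x) := by
  rw [nab_hom (A := A) a (S.sm b x) hu, S.par, add_comm, _root_.sum_apply]
  rfl

theorem proj' (a : ι) (x : M) (v : V) : ∑ b, P a b x • σ b x v = σ a x v := by
  rw [← S.proj a x, _root_.sum_apply]; rfl

theorem lcomp {q : M → W →L[ℝ] U} (hq : ∀ x, SA I q x) (h : ∀ a x, nabH I e A' A'' a q x = 0) :
    Sy I e P Γ A A'' fun a x => (q x).comp (σ a x) where
  sm a x := (hq x).hcomp (S.sm a x)
  proj a x := by ext v; simp [← S.proj' a x v]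
  par a b x := by
    rw [nabH_comp (A' := A') a (hq x) (S.sm b x), h, S.par]
    ext v; simp

theorem rcomp {p : M → U →L[ℝ] V} (hp : ∀ x, SA I p x) (h : ∀ a x, nabH I e A'' A a p x = 0) :
    Sy I e P Γ A'' A' fun a x => (σ a x).comp (p x) where
  sm a x := (S.sm a x).hcomp (hp x)
  proj a x := by ext v; simp [← S.proj' a x (p x v)]
  par a b x := by
    rw [nabH_comp (A' := A) a (S.sm b x) (hp x), h, S.par]
    ext v; simp

theorem add {τ : ι → M → V →L[ℝ] W} (T : Sy I e P Γ A A' τ) :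
    Sy I e P Γ A A' fun a x => σ a x + τ a x where
  sm a x := (S.sm a x).add (T.sm a x)
  proj a x := by simp only [smul_add, sum_add_distrib, S.proj, T.proj]
  par a b x := by
    simp only [nabH_add a (S.sm b x) (T.sm b x), S.par, T.par, smul_add, sum_add_distrib]

theorem neg : Sy I e P Γ A A' fun a x => -σ a x := by
  have := S.lcomp (A'' := A') (q := fun _ => -ContinuousLinearMap.id ℝ W)
    (fun _ => contMDiffAt_const) fun a x => nabH_const a _ fun v => by simp
  simpa using this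

theorem dop_sm (F : Frm I e P c) (hA : ∀ a, SA I (A a) x) (hu : SA I u x) :
    SA I (dop I e σ A u) x := SA.sum _ fun a _ => (S.sm a x).app (F.sN hA a hu)

variable (L : LC I e P c Γ) (F : Frm I e P c) (hg : ∀ k, g k x = ∑ a, Γ a k a x)
  (hA : Con I P A) (hA' : ∀ a, Skew (A' a x)) (hu : SA I u x) (hw : SA I w x)
include L F hg hA hA' hu hw

omit hg hA' hu hw in
theorem gam_zero (a : ι) {T : ι → V → ℝ} (h1 : ∀ b v, ∑ l, P b l x • T l v = T b v)
    (h2 : ∀ b (r : ι → ℝ) (v : ι → V), T b (∑ l, r l • v l) = ∑ l, r l * T b (v l)) :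
    ∑ b, ∑ k, Γ a b k x * T b (Wz78.nab I e A k w x)
      + ∑ b, ∑ k, Γ a b k x * T k (Wz78.nab I e A b w x) = 0 := by
  have h := F.dP_zero a x (T := fun b k => T b (Wz78.nab I e A k w x)) (fun b k => h1 b _)
    fun b k => by rw [← F.projN hA k, h2]; rfl
  simp only [L.met, smul_eq_mul, add_mul, sum_add_distrib] at h
  rwa [sum_comm (f := fun b k => Γ a k b x * _)] at h

theorem dvg1 :
    dvg I e g (fun a y => ∑ b, ⟪σ a y (u y), σ b y (Wz78.nab I e A b w y)⟫_ℝ) x
      = ⟪dop I e σ A u x, dop I e σ A w x⟫_ℝ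
        + ∑ a, ∑ b, ⟪σ a x (u x), σ b x (hess I e Γ A a b w x)⟫_ℝ := by
  have sN := fun b => F.sN (fun a => hA.sm a x) b hw
  have h1 := L.div_sum F hg (T := fun k => ∑ b, ⟪σ k x (u x), σ b x (Wz78.nab I e A b w x)⟫_ℝ)
    fun k => by simp only [← S.proj' k x (u x), sum_inner, real_inner_smul_left, smul_eq_mul,
      mul_sum]; rw [sum_comm]
  have h2 := fun a => S.gam_zero (w := w) (x := x) L F hA a (T := fun b v => ⟪σ a x (u x), σ b x v⟫_ℝ)
    (fun b v => by simp only [← S.proj' b x v, inner_sum, real_inner_smul_right, smul_eq_mul])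
    fun b r v => by simp only [map_sum, map_smul, inner_sum, real_inner_smul_right]
  have h3 := sum_eq_zero fun a (_ : a ∈ univ) => h2 a
  simp only [smul_eq_mul, mul_sum, sum_add_distrib] at h1 h3
  simp only [dvg, fun a => dv_sum' (e := e a) univ fun b =>
      SA.inner ((S.sm a x).app hu) ((S.sm b x).app (sN b)),
    fun a b => dv_inner (e := e) a (hA' a) ((S.sm a x).app hu) ((S.sm b x).app (sN b)),
    fun a b => S.nab a b hu, fun a b => S.nab a b (sN b), dop, hess, map_sub, map_sum, map_smul,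
    inner_add_left, inner_add_right, inner_sub_right, sum_inner, inner_sum, real_inner_smul_left,
    real_inner_smul_right, sum_add_distrib, sum_sub_distrib, mul_sum]
  rw [sum_comm (f := fun b a => ⟪σ a x (Wz78.nab I e A a u x), _⟫_ℝ),
    sum_congr rfl fun a _ => sum_comm (f := fun b k => Γ a a k x * _)]
  linarith

theorem dvg2 :
    dvg I e g (fun a y => ∑ b, ⟪σ b y (u y), σ a y (Wz78.nab I e A b w y)⟫_ℝ) x
      = ∑ a, ∑ b, ⟪σ b x (Wz78.nab I e A a u x), σ a x (Wz78.nab I e A b w x)⟫_ℝ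
        + ∑ a, ∑ b, ⟪σ b x (u x), σ a x (hess I e Γ A a b w x)⟫_ℝ := by
  have sN := fun b => F.sN (fun a => hA.sm a x) b hw
  have h1 := L.div_sum F hg (T := fun k => ∑ b, ⟪σ b x (u x), σ k x (Wz78.nab I e A b w x)⟫_ℝ)
    fun k => by simp only [← S.proj' k x, inner_sum, real_inner_smul_right, smul_eq_mul,
      mul_sum]; rw [sum_comm]
  have h2 := fun a => S.gam_zero (w := w) (x := x) L F hA a (T := fun b v => ⟪σ b x (u x), σ a x v⟫_ℝ)
    (fun b v => by simp only [← S.proj' b x (u x), sum_inner, real_inner_smul_left, smul_eq_mul])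
    fun b r v => by simp only [map_sum, map_smul, inner_sum, real_inner_smul_right]
  have h3 := sum_eq_zero fun a (_ : a ∈ univ) => h2 a
  simp only [smul_eq_mul, mul_sum, sum_add_distrib] at h1 h3
  simp only [dvg, fun a => dv_sum' (e := e a) univ fun b =>
      SA.inner ((S.sm b x).app hu) ((S.sm a x).app (sN b)),
    fun a b => dv_inner (e := e) a (hA' a) ((S.sm b x).app hu) ((S.sm a x).app (sN b)),
    fun a b => S.nab a b hu, fun a b => S.nab a a (sN b), hess, map_sub, map_sum, map_smul,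
    inner_add_left, inner_add_right, inner_sub_right, sum_inner, inner_sum, real_inner_smul_left,
    real_inner_smul_right, sum_add_distrib, sum_sub_distrib, mul_sum]
  rw [sum_congr rfl fun a _ => sum_comm (f := fun b k => Γ a a k x * _)]
  linarith

/-- the pointwise Bochner-Weitzenboeck formula -/
theorem boch {p : V →L[ℝ] V} (hc : ∀ a b v v', ⟪σ a x v, σ b x v'⟫_ℝ + ⟪σ b x v, σ a x v'⟫_ℝ
      = 2 * P a b x * ⟪p v, v'⟫_ℝ) :
    ⟪dop I e σ A u x, dop I e σ A w x⟫_ℝ
      = ∑ a, ⟪p (Wz78.nab I e A a u x), Wz78.nab I e A a w x⟫_ℝ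
        - 1 / 2 * ∑ a, ∑ b, ⟪σ a x (u x), σ b x (curv I e c A a b x (w x))⟫_ℝ
        + 1 / 2 * (dvg I e g (fun a y => ∑ b, ⟪σ a y (u y), σ b y (Wz78.nab I e A b w y)⟫_ℝ) x
          - dvg I e g (fun a y => ∑ b, ⟪σ b y (u y), σ a y (Wz78.nab I e A b w y)⟫_ℝ) x) := by
  have h1 : ∑ a, ∑ b, (⟪σ a x (Wz78.nab I e A a u x), σ b x (Wz78.nab I e A b w x)⟫_ℝ
      + ⟪σ b x (Wz78.nab I e A a u x), σ a x (Wz78.nab I e A b w x)⟫_ℝ)
      = 2 * ∑ a, ⟪p (Wz78.nab I e A a u x), Wz78.nab I e A a w x⟫_ℝ := by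
    simp only [hc, mul_sum]
    refine sum_congr rfl fun a _ => ?_
    conv_rhs => rw [← F.projN hA a w]
    simp only [inner_sum, real_inner_smul_right, mul_sum, mul_assoc]
  rw [S.dvg1 L F hg hA hA' hu hw, S.dvg2 L F hg hA hA' hu hw,
    sum_comm (f := fun a b => ⟪σ b x (u x), _⟫_ℝ)]
  simp only [← L.hess_skew F hA _ _ hw, map_sub, inner_sub_right, sum_sub_distrib, dop, sum_inner,
    inner_sum, sum_add_distrib] at h1 ⊢
  rw [sum_comm (f := fun b a => ⟪σ a x (Wz78.nab I e A a u x), _⟫_ℝ)]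
  linarith

end Sy
end pointwise

section An
open Map77 Ell97
variable {E : Type} [NormedAddCommGroup E] [NormedSpace ℝ E] [FiniteDimensional ℝ E]
  [MeasurableSpace E] [BorelSpace E]
  {HM : Type} [TopologicalSpace HM] {I : ModelWithCorners ℝ E HM}
  {M : Type} [TopologicalSpace M] [ChartedSpace HM M] [IsManifold I ∞ M]
  [MeasurableSpace M] {ι : Type} [Fintype ι]
  {U V W : Type} [NormedAddCommGroup U] [InnerProductSpace ℝ U]
  [NormedAddCommGroup V] [InnerProductSpace ℝ V] [NormedAddCommGroup W] [InnerProductSpace ℝ W]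
  {F : Fr I M ι} {Γ : ι → ι → ι → M → ℝ} {C : ι → M → V →L[ℝ] V} {C' : ι → M → W →L[ℝ] W}
  {C'' : ι → M → U →L[ℝ] U} {σ : ι → M → V →L[ℝ] W} {u w : M → V} {x : M}
  {e : ι → (x : M) → TangentSpace I x} {P : ι → ι → M → ℝ} {c : ι → ι → ι → M → ℝ}

/-- the integrated Bochner-Weitzenboeck formula -/
theorem integral_boch [T2Space M] [BorelSpace M] (S : Sy I F.e F.P Γ C C' σ)
    (L : LC I F.e F.P F.c Γ) (hR : Riem F) (hC : Con I F.P C) (hC' : ∀ a x, Skew (C' a x))
    {p : M → V →L[ℝ] V} (hcl : ∀ a b x v v', ⟪σ a x v, σ b x v'⟫_ℝ + ⟪σ b x v, σ a x v'⟫_ℝ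
      = 2 * F.P a b x * ⟪p x v, v'⟫_ℝ) (hu : Sm I u) (hw : Sm I w) (hc : HasCompactSupport w) :
    ∫ x, ⟪dop I F.e σ C u x, dop I F.e σ C w x⟫_ℝ ∂F.μ
      = ∫ x, (∑ a, ⟪p x (nab I F.e C a u x), nab I F.e C a w x⟫_ℝ
        - 1 / 2 * ∑ a, ∑ b, ⟪σ a x (u x), σ b x (curv I F.e F.c C a b x (w x))⟫_ℝ) ∂F.μ := by
  have hs : ∀ a b a', Sm I fun y => ⟪σ a y (u y), σ b y (nab I F.e C a' w y)⟫_ℝ := fun a b a' y =>
    SA.inner ((S.sm a y).app (hu y)) ((S.sm b y).app (sm_nab hC.sm a' hw y))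
  have hk : ∀ b a', HasCompactSupport fun y => σ b y (nab I F.e C a' w y) := fun b a' =>
    (hcs_nab (F := F) (A := C) a' hc).mono fun y hy h => hy (by simp [h])
  have hk' : ∀ f : ι → M → ℝ, (∀ b, HasCompactSupport (f b)) →
      HasCompactSupport fun y => ∑ b, f b y := fun f hf => by
    have := HasCompactSupport.finset_sum (s := univ) fun b _ => hf b
    rwa [show ∑ b, f b = fun y => ∑ b, f b y from _root_.funext fun y => Finset.sum_apply _ _ _]
      at this
  have s1 : ∀ a, Sm I fun y => ∑ b, ⟪σ a y (u y), σ b y (nab I F.e C b w y)⟫_ℝ :=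
    fun a y => SA.sum _ fun b _ => hs a b b y
  have s2 : ∀ a, Sm I fun y => ∑ b, ⟪σ b y (u y), σ a y (nab I F.e C b w y)⟫_ℝ :=
    fun a y => SA.sum _ fun b _ => hs b a b y
  have k1 := fun a => hk' _ fun b => hcs_inner (fun y => σ a y (u y)) (hk b b)
  have k2 := fun a => hk' _ fun b => hcs_inner (fun y => σ b y (u y)) (hk a b)
  have i0 : Integrable (fun x => ⟪dop I F.e σ C u x, dop I F.e σ C w x⟫_ℝ) F.μ :=
    integ (fun y => SA.inner (S.dop_sm (frm F) (hC.sm · y) (hu y))
      (S.dop_sm (frm F) (hC.sm · y) (hw y))) <| by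
      simp only [dop, inner_sum]
      exact hk' _ fun b => hcs_inner _ (hk b b)
  have i1 := ((integ_dvg (F := F) s1 k1).sub (integ_dvg (F := F) s2 k2)).const_mul (1 / 2)
  have h0 := integral_sub i0 i1
  simp only [Pi.sub_apply] at h0
  rw [integral_const_mul, integral_sub (integ_dvg s1 k1) (integ_dvg s2 k2), integral_dvg s1 k1,
    integral_dvg s2 k2, sub_zero, mul_zero, sub_zero] at h0
  rw [← h0]
  refine integral_congr_ae (Eventually.of_forall fun y => ?_)
  have := S.boch L (frm F) (hR.hg L y) hC (hC' · y) (hu y) (hw y) (hcl · · y)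
  simp only
  linarith

/-! ### direct sums -/

/-- the direct sum of connections -/
def ds (C : ι → M → V →L[ℝ] V) (C' : ι → M → W →L[ℝ] W) (a : ι) (x : M) :
    P2 V W →L[ℝ] P2 V W := sm2 (C a x) (C' a x)

@[simp] theorem f2_ds (a : ι) (v : P2 V W) : f2 V W (ds C C' a x v) = C a x (f2 V W v) :=
  f2_sm2 _ _ _
@[simp] theorem s2_ds (a : ι) (v : P2 V W) : s2 V W (ds C C' a x v) = C' a x (s2 V W v) :=
  s2_sm2 _ _ _

theorem sa_pr2 {X Y Z : Type} [NormedAddCommGroup X] [NormedSpace ℝ X] [NormedAddCommGroup Y]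
    [NormedSpace ℝ Y] [NormedAddCommGroup Z] [NormedSpace ℝ Z] {S : M → X →L[ℝ] Y}
    {T : M → X →L[ℝ] Z} (hS : SA I S x) (hT : SA I T x) : SA I (fun y => pr2 (S y) (T y)) x :=
  (contMDiffAt_const.clm_comp hS).add (contMDiffAt_const.clm_comp hT)

theorem sa_sm2 {S : M → V →L[ℝ] V} {T : M → W →L[ℝ] W} (hS : SA I S x) (hT : SA I T x) :
    SA I (fun y => sm2 (S y) (T y)) x :=
  sa_pr2 (hS.clm_comp contMDiffAt_const) (hT.clm_comp contMDiffAt_const)

theorem con_ds (h : Con I P C) (h' : Con I P C') : Con I P (ds C C') where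
  sm a x := sa_sm2 (h.sm a x) (h'.sm a x)
  proj a x := by
    ext1 v
    refine ext2 ?_ ?_
    · simp [← h.proj a x]
    · simp [← h'.proj a x]

theorem skew_ds {a : ι} (h : Skew (C a x)) (h' : Skew (C' a x)) : Skew (ds C C' a x) :=
  fun v w => by simp only [inner2, f2_ds, s2_ds, h _ _, h' _ _]; ring

theorem f2_nab (a : ι) {u : M → P2 V W} (hu : SA I u x) :
    f2 V W (nab I e (ds C C') a u x) = nab I e C a (fun y => f2 V W (u y)) x :=
  (nab_map (f2 V W) a (f2_ds a _).symm hu).symm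

theorem s2_nab (a : ι) {u : M → P2 V W} (hu : SA I u x) :
    s2 V W (nab I e (ds C C') a u x) = nab I e C' a (fun y => s2 V W (u y)) x :=
  (nab_map (s2 V W) a (s2_ds a _).symm hu).symm

theorem f2_curv (h : ∀ a, SA I (C a) x) (h' : ∀ a, SA I (C' a) x) (a b : ι) (v : P2 V W) :
    f2 V W (curv I e c (ds C C') a b x v) = curv I e c C a b x (f2 V W v) :=
  (curv_hom (f2 V W) (fun a _ v => (f2_ds a v).symm) (fun a => sa_sm2 (h a) (h' a)) h a b v).symm

theorem s2_curv (h : ∀ a, SA I (C a) x) (h' : ∀ a, SA I (C' a) x) (a b : ι) (v : P2 V W) :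
    s2 V W (curv I e c (ds C C') a b x v) = curv I e c C' a b x (s2 V W v) :=
  (curv_hom (s2 V W) (fun a _ v => (s2_ds a v).symm) (fun a => sa_sm2 (h a) (h' a)) h' a b v).symm

theorem ps_par {p : M → V →L[ℝ] V} {q : M → W →L[ℝ] W} (hp : SA I p x) (hq : SA I q x) (a : ι)
    (h : nabE I e C a p x = 0) (h' : nabE I e C' a q x = 0) :
    nabE I e (ds C C') a (ps p q) x = 0 := by
  have k : SA I (ps p q) x := sa_sm2 hp hq
  have k' := fun v => k.app (u := fun _ => v) contMDiffAt_const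
  ext1 v
  rw [← nabH_self, nabH_eq a k]
  refine ext2 ?_ ?_
  · have := nabH_eq (e := e) (A := C) (A' := C) a hp (f2 V W v)
    rw [nabH_self, h] at this
    simpa [f2_nab a (k' v)] using this.symm
  · have := nabH_eq (e := e) (A := C') (A' := C') a hq (s2 V W v)
    rw [nabH_self, h'] at this
    simpa [s2_nab a (k' v)] using this.symm

theorem Sy.i1 (S : Sy I e P Γ C C' σ) : Sy I e P Γ C (ds C' C'') fun a x => (i1 W U).comp (σ a x) :=
  S.lcomp (fun _ => contMDiffAt_const) fun a _ => nabH_const a _ fun v => ext2 (by simp) (by simp)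

theorem Sy.i2 (S : Sy I e P Γ C C' σ) : Sy I e P Γ C (ds C'' C') fun a x => (i2 U W).comp (σ a x) :=
  S.lcomp (fun _ => contMDiffAt_const) fun a _ => nabH_const a _ fun v => ext2 (by simp) (by simp)

theorem Sy.f2 (S : Sy I e P Γ C C' σ) : Sy I e P Γ (ds C C'') C' fun a x => (σ a x).comp (f2 V U) :=
  S.rcomp (fun _ => contMDiffAt_const) fun a _ => nabH_const a _ fun v => by simp

theorem Sy.s2 (S : Sy I e P Γ C C' σ) : Sy I e P Γ (ds C'' C) C' fun a x => (σ a x).comp (s2 U V) :=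
  S.rcomp (fun _ => contMDiffAt_const) fun a _ => nabH_const a _ fun v => by simp

theorem Sy.pr2 {τ : ι → M → V →L[ℝ] U} (S : Sy I e P Γ C C' σ) (T : Sy I e P Γ C C'' τ) :
    Sy I e P Γ C (ds C' C'') fun a x => pr2 (σ a x) (τ a x) := S.i1.add T.i2

theorem Sy.tr [FiniteDimensional ℝ V] [FiniteDimensional ℝ W] (S : Sy I e P Γ C C' σ)
    (hC : ∀ a x, Skew (C a x)) (hC' : ∀ a x, Skew (C' a x)) :
    Sy I e P Γ C' C fun a x => Op.tr (σ a x) where
  sm a x := (S.sm a x).clm (Ell97.trL V W)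
  proj a x := by
    simp only [← trL_apply, ← map_smul, ← map_sum, S.proj]
  par a b x := by
    ext1 w
    refine ext_inner_left ℝ fun v => ?_
    have h1 : dv I (e a) (fun y => Op.tr (σ b y)) x = Op.tr (dv I (e a) (σ b) x) :=
      dv_clm (Ell97.trL V W) (S.sm b x).md
    have h2 := congrArg (fun T : V →L[ℝ] W => ⟪T v, w⟫_ℝ) (S.par a b x)
    have h3 := hC a x v (Op.tr (σ b x) w)
    simp only [nabH_apply, h1, inner_add_right, inner_sub_right, inner_tr, _root_.sum_apply,
      smul_apply, inner_sum, real_inner_smul_right, inner_add_left, inner_sub_left, sum_inner,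
      real_inner_smul_left, hC' a x _ w] at h2 h3 ⊢
    linarith

/-! ### operators -/

variable (F Γ) in
/-- `A` is the operator of its parallel symbol plus `Z` -/
structure Rp (A : Op M ι V W) (C : ι → M → V →L[ℝ] V) (C' : ι → M → W →L[ℝ] W)
    (Z : M → V →L[ℝ] W) : Prop where
  sy : Sy I F.e F.P Γ C C' A.σ
  B : ∀ x v, A.B x (A.p x v) = ∑ a, A.σ a x (C a x (A.p x v)) + Z x (A.p x v)

variable (F Γ) in
/-- the drift of the measure of a frame -/
def dft (k : ι) (x : M) : ℝ := F.dv k x - ∑ a, Γ a k a x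

theorem Riem.dft (h : Riem F) (L : LC I F.e F.P F.c Γ) (k : ι) (x : M) : dft F Γ k x = 0 :=
  sub_eq_zero.2 (h.hg L x k)

variable {A : Op M ι V W} {Z Z' : M → V →L[ℝ] W}

theorem Rp.app (h : Rp F Γ A C C' Z) (hp : A.p x (u x) = u x) :
    A.app F u x = dop I F.e A.σ C u x + Z x (u x) := by
  have := h.B x (u x)
  rw [hp] at this
  simp only [Op.app, Pre.op, this, dop, nab, map_add, sum_add_distrib, Pre.D_def, add_assoc]

theorem Rp.congr (h : Rp F Γ A C C' Z) (k : ∀ x v, A.p x v = v → Z x v = Z' x v)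
    (hp : ∀ x v, A.p x (A.p x v) = A.p x v) : Rp F Γ A C C' Z' :=
  ⟨h.sy, fun x v => by rw [h.B, k x _ (hp x v)]⟩

theorem Rp.cut {p : M → V →L[ℝ] V} {q : M → W →L[ℝ] W} (S : Sy I F.e F.P Γ C C' σ)
    (B : M → V →L[ℝ] W) (hp : Sm I p) (hq : Sm I q) (pp : ∀ a x, nabE I F.e C a p x = 0)
    (qq : ∀ a x, nabE I F.e C' a q x = 0) (hi : ∀ x v, p x (p x v) = p x v) :
    Rp F Γ (cut F.toPre p q σ B) C C' fun x => (q x).comp (B x - ∑ a, (σ a x).comp (C a x)) where
  sy := (S.rcomp hp pp).lcomp hq qq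
  B x v := by
    have k : ∀ a, F.D a p x (p x v) = p x (C a x (p x v)) - C a x (p x v) := fun a => by
      have := congrArg (fun T : V →L[ℝ] V => T (p x v)) (pp a x)
      simp only [nabE, add_apply, sub_apply, mul_apply_eq_comp, hi, zero_apply] at this
      rw [Pre.D_def, eq_neg_of_add_eq_zero_left this, neg_sub]
    simp only [Map77.cut, ContinuousLinearMap.comp_apply, add_apply, sub_apply, _root_.sum_apply, k,
      map_add, map_sub, map_sum, sum_sub_distrib]
    abel

theorem Rp.pair {A' : Op M ι V U} {Z' : M → V →L[ℝ] U} (h : Rp F Γ A C C' Z)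
    (h' : Rp F Γ A' C C'' Z') (hp : A'.p = A.p) :
    Rp F Γ (pair A A') C (ds C' C'') fun x => pr2 (Z x) (Z' x) where
  sy := h.sy.pr2 h'.sy
  B x v := by
    have := h'.B x v
    rw [hp] at this
    exact ext2 (by simp [Map77.pair, h.B]) (by simp [Map77.pair, this])

theorem Rp.addB (h : Rp F Γ A C C' Z) (B : M → V →L[ℝ] W) :
    Rp F Γ (addB A B) C C' fun x => Z x + (A.q x).comp (B x) where
  sy := h.sy
  B x v := by simp [Map77.addB, h.B, add_assoc]

theorem Rp.adj [FiniteDimensional ℝ V] [FiniteDimensional ℝ W] (h : Rp F Γ A C C' Z)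
    (L : LC I F.e F.P F.c Γ) (hC : ∀ a x, Skew (C a x)) (hC' : ∀ a x, Skew (C' a x))
    (al : Alg F.P A) : Rp F Γ (A.adj F) C' C fun x =>
      (A.p x).comp (Op.tr (Z x)) + ∑ k, dft F Γ k x • (A.adj F).σ k x where
  sy := (h.sy.tr hC hC').neg
  B x w := by
    generalize (A.adj F).p x w = w
    refine ext_inner_left ℝ fun v => ?_
    have h1 : ∀ a, F.D a (fun y => Op.tr (A.σ a y)) x = Op.tr (dv I (F.e a) (A.σ a) x) := fun a =>
      dv_clm (Ell97.trL V W) (h.sy.sm a x).md
    have h2 := sum_congr rfl fun a (_ : a ∈ univ) =>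
      congrArg (fun T : V →L[ℝ] W => ⟪T (A.p x v), w⟫_ℝ) (h.sy.par a a x)
    have h3 := L.div_sum (frm F) (g := fun k x => ∑ a, Γ a k a x) (x := x) (fun _ => rfl)
      (T := fun k => ⟪A.σ k x v, w⟫_ℝ) fun k => by
        simp only [← h.sy.proj' k x v, sum_inner, real_inner_smul_left, smul_eq_mul]
    simp only [nabH_apply, inner_add_left, inner_sub_left, sum_inner, real_inner_smul_left,
      _root_.sum_apply, smul_apply, hC' _ x _ w, al.σp, sum_add_distrib, sum_sub_distrib,
      smul_eq_mul, sum_neg_distrib] at h2 h3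
    simp only [Op.adj, ContinuousLinearMap.comp_apply, ← al.p.symm, inner_add_right,
      inner_sub_right, inner_tr, add_apply, sub_apply, _root_.sum_apply, smul_apply, inner_sum,
      real_inner_smul_right, h1, h.B, inner_add_left, sum_inner, al.σp, _root_.neg_apply,
      inner_neg_right, dft, sum_add_distrib, sum_neg_distrib, mul_neg, sub_mul, sum_sub_distrib]
    linarith

/-- Bochner-Weitzenboeck for a Dirac type operator, without the term of order zero -/
theorem Rp.boch [T2Space M] [BorelSpace M] [FiniteDimensional ℝ V] [FiniteDimensional ℝ W]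
    (h : Rp F Γ A C C' Z) (L : LC I F.e F.P F.c Γ) (hR : Riem F) (hC : Con I F.P C)
    (hC' : ∀ a x, Skew (C' a x)) (hcl : A.CliffL F) (sp : Sm I A.p)
    (pp : ∀ a x, nabE I F.e C a A.p x = 0) (hu : Sm I u) (hw : Sm I w) (hc : HasCompactSupport w)
    (pu : ∀ x, A.p x (u x) = u x) (pw : ∀ x, A.p x (w x) = w x) :
    ∫ x, ⟪A.app F u x - Z x (u x), A.app F w x - Z x (w x)⟫_ℝ ∂F.μ
      = ∫ x, (∑ a, ⟪nab I F.e C a u x, nab I F.e C a w x⟫_ℝ
        - 1 / 2 * ∑ a, ∑ b, ⟪A.σ a x (u x), A.σ b x (curv I F.e F.c C a b x (w x))⟫_ℝ) ∂F.μ := by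
  have k : ∀ a x, A.p x (nab I F.e C a u x) = nab I F.e C a u x := fun a x => by
    have := nab_app' (e := F.e) (A := C) a (sp x) (hu x)
    rw [pp, show (fun y => A.p y (u y)) = u from _root_.funext pu] at this
    simpa using this.symm
  simp only [h.app (pu _), h.app (pw _), add_sub_cancel_right,
    integral_boch h.sy L hR hC hC' hcl hu hw hc, k]

end An

end Crest.Agent.X212.Wz78
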