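import Crest.Agent.X212.Wz78.Hs
import Crest.Agent.X212.Met55.Fr

/-! The Koszul formula gives the Levi-Civita coefficients. -/

open scoped Manifold ContDiff Topology
open Finset Filter

set_option linter.unusedSectionVars false

noncomputable section
namespace Crest.Agent.X212.Wz78
open An Sob92

variable {E : Type} [NormedAddCommGroup E] [NormedSpace ℝ E] [FiniteDimensional ℝ E]
  [MeasurableSpace E] [BorelSpace E]
  {HM : Type} [TopologicalSpace HM] {I : ModelWithCorners ℝ E HM}
  {M : Type} [TopologicalSpace M] [ChartedSpace HM M] [IsManifold I ∞ M]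
  [MeasurableSpace M] {ι : Type} [Fintype ι]

theorem c_P' (F : Fr I M ι) (a b l : ι) (x : M) : ∑ k, F.c a b k x * F.P k l x = F.c a b l x := by
  simp only [← F.c_P a b l x, F.P_symm l, mul_comm]

theorem c_anti (F : Fr I M ι) (a b l : ι) (x : M) : F.c a b l x = -F.c b a l x := by
  have := sep F x (fun k => F.c a b k x + F.c b a k x) (fun f hf => by
    simp only [add_mul, sum_add_distrib, ← (frm F).br _ _ f x hf.self_of_nhds]; ring) l
  simp only [add_mul, sum_add_distrib, c_P'] at this
  linarith

theorem c_proj2 (F : Fr I M ι) (a j b : ι) (x : M) :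
    ∑ l, F.c a l b x * F.P l j x = F.c a j b x - ∑ l, F.P b l x * F.D a (F.P l j) x := by
  have := sep F x (fun k => ∑ l, F.c a l k x * F.P l j x - F.c a j k x + F.D a (F.P k j) x)
    (fun f hf => by
      have h0 := hf.self_of_nhds
      have h1 : dv I (F.e a) (dv I (F.e j) f) x = ∑ l, (dv I (F.e a) (F.P l j) x * dv I (F.e l) f x
          + F.P l j x * dv I (F.e a) (dv I (F.e l) f) x) := by
        rw [show dv I (F.e j) f = fun y => ∑ l, F.P l j y * dv I (F.e l) f y from
          _root_.funext fun y => by simpa only [F.P_symm j, smul_eq_mul] using ((frm F).projD j f y).symm,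
          dv_sum' _ fun l => SA.mul (F.P_sm l j x) ((frm F).sD l h0)]
        exact sum_congr rfl fun l _ => dv_mul (F.P_sm l j x) ((frm F).sD l h0)
      have h2 : ∑ k, (∑ l, F.c a l k x * F.P l j x) * dv I (F.e k) f x = ∑ l, F.P l j x *
          (dv I (F.e a) (dv I (F.e l) f) x - dv I (F.e l) (dv I (F.e a) f) x) := by
        simp only [(frm F).br _ _ f x h0, sum_mul, mul_sum]
        rw [sum_comm]
        exact sum_congr rfl fun _ _ => sum_congr rfl fun _ _ => by ring
      have h3 := (frm F).projD j (dv I (F.e a) f) x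
      simp only [F.P_symm j, smul_eq_mul] at h3
      simp only [add_mul, sub_mul, sum_add_distrib, sum_sub_distrib, h2, mul_sub, h3,
        ← (frm F).br a j f x h0, h1, Pre.D_def]
      ring) b
  simp only [add_mul, sub_mul, sum_add_distrib, sum_sub_distrib, c_P', sum_mul] at this
  rw [sum_comm] at this
  simp only [mul_right_comm _ (F.P _ j x), ← sum_mul, c_P'] at this
  simp only [F.P_symm b, mul_comm (F.P _ b x)]
  linarith

/-- The Koszul coefficients are the Levi-Civita coefficients. -/
theorem lc_gam (F : Fr I M ι) : LC I F.e F.P F.c F.Gam where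
  sm a b k x := by
    have := SA.mul (((((F.sm_D (F.P_sm b k) a x).add (F.sm_D (F.P_sm a k) b x)).sub
      (F.sm_D (F.P_sm a b) k x)).add (F.c_sm a b k x)).sub (F.c_sm a k b x) |>.sub (F.c_sm b k a x))
      (contMDiffAt_const (c := (2 : ℝ)⁻¹))
    exact this
  proj a b l x := by
    have h1 := (frm F).dP a b l x
    have h2 := (frm F).dP b a l x
    have h3 := (frm F).projD l (F.P a b) x
    simp only [sum_add_distrib, F.P_symm l, smul_eq_mul, mul_comm (F.P _ l x)] at h1 h2 h3
    simp only [Fr.Gam, div_mul_eq_mul_div, ← sum_div, add_mul, sub_mul, sum_add_distrib,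
      sum_sub_distrib, c_P', c_proj2, Pre.D_def, h3]
    linarith
  met a b k x := by
    simp only [Fr.Gam, Pre.D_def, c_anti F k b a,
      show F.P k b = F.P b k from _root_.funext fun y => F.P_symm _ _ y]
    ring
  tors a b l x := by
    simp only [Fr.Gam, c_P', c_anti F b a l,
      show F.P b a = F.P a b from _root_.funext fun y => F.P_symm _ _ y]
    ring

theorem riem_of_vol [I.Boundaryless] [T2Space M] [BorelSpace M] {F : Fr I M ι} (h : F.IsVol) :
    Riem F := Met55.dv_vol h

theorem dv_gam [I.Boundaryless] [T2Space M] [BorelSpace M] {F : Fr I M ι} (h : F.IsVol) (x : M)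
    (k : ι) : F.dv k x = ∑ a, F.Gam a k a x := (riem_of_vol h).hg (lc_gam F) x k

end Crest.Agent.X212.Wz78
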