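import Crest.Agent.X212.Wz78.Sy
import Crest.Agent.X212.Idg99.Lc
import Crest.Agent.X212.Rf65.Imm

/-!
# Row 212: the Levi-Civita connection on vector valued one-forms and two-tensors

`c1 P Γ B`, `c2 P Γ B` are skew connections on `Fm ι X`, `Fm (ι × ι) X`; on projected tensors they
are `cov`, `cov2`.  The symbols `ea`, `wd2` are parallel.  Curvature terms `ric_term`, `sd_term`.
-/

set_option linter.unusedSectionVars false
open scoped Manifold ContDiff Topology InnerProductSpace Kronecker Matrix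
open Finset Filter
noncomputable section
namespace Crest.Agent.X212.Wz78
open An Sob92 Idg99
open Map77 (Vol SD sdm pj ij tp tp_apply tp_eq pj_apply fm_ext inner_fm wd2 wd2_apply)
open Rf65 (Ric)

variable {E H : Type*} [NormedAddCommGroup E] [NormedSpace ℝ E] [TopologicalSpace H]
  {I : ModelWithCorners ℝ E H} {M : Type*} [TopologicalSpace M] [ChartedSpace H M]
  {ι : Type} [Fintype ι] [DecidableEq ι] [IsManifold I 1 M]
  {X : Type} [NormedAddCommGroup X] [InnerProductSpace ℝ X]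

/-- the connection on one-forms -/
abbrev c1 (P : ι → ι → M → ℝ) (Γ : ι → ι → ι → M → ℝ) (B : ι → M → X →L[ℝ] X) :
    ι → M → CL (Fm ι X) (Fm ι X) := tA (Om P Γ) B

/-- the connection on two-tensors -/
abbrev c2 (P : ι → ι → M → ℝ) (Γ : ι → ι → ι → M → ℝ) (B : ι → M → X →L[ℝ] X) :
    ι → M → CL (Fm (ι × ι) X) (Fm (ι × ι) X) := tA (Om2 P Γ) B

variable (I) in
/-- the covariant derivative of a two-tensor -/
def cov2 (e : ι → (x : M) → TangentSpace I x) (Γ : ι → ι → ι → M → ℝ) (B : ι → M → X →L[ℝ] X)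
    (θ : ι × ι → M → X) (a : ι) (s : ι × ι) (x : M) : X :=
  nab I e B a (θ s) x - ∑ k, Γ a s.1 k x • θ (k, s.2) x - ∑ k, Γ a s.2 k x • θ (s.1, k) x

variable {e : ι → (x : M) → TangentSpace I x} {P : ι → ι → M → ℝ} {c Γ : ι → ι → ι → M → ℝ}
  {B : ι → M → X →L[ℝ] X} {x : M}

theorem nab_tA {α : Type} [Fintype α] [DecidableEq α] {Ω : ι → M → Matrix α α ℝ}
    {Θ : M → Fm α X} (h : SA I Θ x) (a : ι) (s : α) : nab I e (tA Ω B) a Θ x s
      = nab I e B a (fun y => Θ y s) x + ∑ t, Ω a x s t • Θ x t := by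
  have := dv_clm (e := e a) (pj X s) h.md
  simp only [pj_apply] at this
  simp only [nab, PiLp.add_apply, tA_apply, this]
  abel

theorem kron_sum (S T : Matrix ι ι ℝ) (η : ι × ι → X) (s : ι × ι) :
    ∑ t, (S ⊗ₖ (1 : Matrix ι ι ℝ) + (1 : Matrix ι ι ℝ) ⊗ₖ T) s t • η t
      = ∑ k, S s.1 k • η (k, s.2) + ∑ k, T s.2 k • η (s.1, k) := by
  simp only [Matrix.add_apply, Matrix.kroneckerMap_apply, Matrix.one_apply, add_smul,
    sum_add_distrib, Fintype.sum_prod_type, mul_ite, ite_mul, mul_one, mul_zero, one_mul, zero_mul,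
    ite_smul, zero_smul, sum_ite_eq, mem_univ, if_true]
  rw [sum_comm (f := fun a b => if s.1 = a then _ else _)]
  simp only [sum_ite_eq, mem_univ, if_true]

theorem mat_sum {S T : Matrix ι ι ℝ} (h : S * Pm P x = T) {θ : ι → X}
    (hθ : ∀ a, ∑ k, P a k x • θ k = θ a) (b : ι) : ∑ t, S b t • θ t = ∑ t, T b t • θ t := by
  rw [← h]
  simp only [Matrix.mul_apply, Pm, Matrix.of_apply, sum_smul, mul_smul]
  rw [sum_comm]
  simp only [← smul_sum, hθ]

theorem sa_tp {α Y : Type} [Fintype α] [NormedAddCommGroup Y] [NormedSpace ℝ Y]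
    {f : α → M → Y →L[ℝ] X} (h : ∀ a, SA I (f a) x) : SA I (fun y => tp fun a => f a y) x := by
  simp only [tp_eq]
  exact SA.sum _ fun a _ => contMDiffAt_const.clm_comp (h a)

variable (L : LC I e P c Γ) (F : Frm I e P c)
include L F

theorem Om_sum (a b : ι) {θ : ι → X} (hθ : ∀ a, ∑ k, P a k x • θ k = θ a) :
    ∑ t, Om P Γ a x b t • θ t = -∑ t, Γ a b t x • θ t := by
  simp [mat_sum (Om_Pm L F a x) hθ, Gm]

theorem cm_sum (a b s : ι) {θ : ι → X} (hθ : ∀ a, ∑ k, P a k x • θ k = θ a) :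
    ∑ t, cm I e c (Om P Γ) a b x s t • θ t = -∑ t, Rm I e c Γ a b s t x • θ t := by
  simp [mat_sum (cm_Pm L F a b x) hθ]

theorem Om_P (a s b : ι) : ∑ t, Om P Γ a x s t * P t b x = -Γ a s b x :=
  congrFun (congrFun (Om_Pm L F a x) s) b

theorem con_c1 (S : Sep I e P) (hB : Con I P B) : Con I P (c1 P Γ B) :=
  con_tA (sm_Om L F) (Om_proj L F S) hB

theorem con_c2 (S : Sep I e P) (hB : Con I P B) : Con I P (c2 P Γ B) :=
  con_tA (sm_Om2 L F) (Om2_proj L F S) hB

theorem skew_c1 {a : ι} (hB : Skew (B a x)) : Skew (c1 P Γ B a x) := skew_tA (Om_skew L F a x) hB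

theorem skew_c2 {a : ι} (hB : Skew (B a x)) : Skew (c2 P Γ B a x) := skew_tA (Om2_skew L F a x) hB

theorem nab_c1 {Θ : M → Fm ι X} (h : SA I Θ x) (hθ : ∀ a, ∑ k, P a k x • Θ x k = Θ x a) (a b : ι) :
    nab I e (c1 P Γ B) a Θ x b = cov I e Γ B (fun b y => Θ y b) a b x := by
  rw [nab_tA h, Om_sum L F a b hθ, cov, sub_eq_add_neg]

theorem nab_c2 {Θ : M → Fm (ι × ι) X} (h : SA I Θ x)
    (h1 : ∀ a b, ∑ k, P a k x • Θ x (k, b) = Θ x (a, b))
    (h2 : ∀ a b, ∑ k, P b k x • Θ x (a, k) = Θ x (a, b)) (a : ι) (s : ι × ι) :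
    nab I e (c2 P Γ B) a Θ x s = cov2 I e Γ B (fun s y => Θ y s) a s x := by
  rw [nab_tA h, Om2, kr, kron_sum, Om_sum L F a s.1 (h1 · s.2), Om_sum L F a s.2 (h2 s.1), cov2]
  abel

theorem curv_c1 (hB : ∀ a, SA I (B a) x) {θ : Fm ι X} (hθ : ∀ a, ∑ k, P a k x • θ k = θ a)
    (a b s : ι) : curv I e c (c1 P Γ B) a b x θ s
      = curv I e c B a b x (θ s) - ∑ t, Rm I e c Γ a b s t x • θ t := by
  rw [curv_tA (sm_Om L F · x) hB, add_apply, PiLp.add_apply, ix_one_apply, ix_apply]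
  simp only [one_apply_eq_self, cm_sum L F a b s hθ]
  abel

theorem curv_c2 (hB : ∀ a, SA I (B a) x) {θ : Fm (ι × ι) X}
    (h1 : ∀ a b, ∑ k, P a k x • θ (k, b) = θ (a, b))
    (h2 : ∀ a b, ∑ k, P b k x • θ (a, k) = θ (a, b)) (a b : ι) (s : ι × ι) :
    curv I e c (c2 P Γ B) a b x θ s = curv I e c B a b x (θ s)
      - ∑ k, Rm I e c Γ a b s.1 k x • θ (k, s.2) - ∑ k, Rm I e c Γ a b s.2 k x • θ (s.1, k) := by
  rw [curv_tA (sm_Om2 L F · x) hB, add_apply, PiLp.add_apply, ix_one_apply, ix_apply, Om2,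
    cm_kr (sm_Om L F · x) (sm_Om L F · x)]
  simp only [one_apply_eq_self]
  rw [kron_sum, cm_sum L F a b s.1 (h1 · s.2), cm_sum L F a b s.2 (h2 s.1)]
  abel

theorem p1_par {q : M → X →L[ℝ] X} (hq : SA I q x) (a : ι) (h : nabE I e B a q x = 0) :
    nabE I e (c1 P Γ B) a (fun y => idx (fun a b => P a b y) (q y)) x = 0 := by
  have := nabE_tA (e := e) (Ω := Om P Γ) (B := B) (sm_Pm F x) hq a
  rw [nm_Pm L F, h, map_zero, map_zero, LinearMap.zero_apply, add_zero] at this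
  exact this

theorem p2_par {o : ι → ι → ι → ι → M → ℝ} (so : ∀ a b c d x, SA I (o a b c d) x)
    (ho : ∀ x, Vol (fun a b => P a b x) fun a b c d => o a b c d x) {q : M → X →L[ℝ] X}
    (hq : SA I q x) (a : ι) (h : nabE I e B a q x = 0) : nabE I e (c2 P Γ B) a
      (fun y => idx (sdm (fun a b => P a b y) fun a b c d => o a b c d y) (q y)) x = 0 := by
  have := nabE_tA (e := e) (Ω := Om2 P Γ) (B := B) (sm_sd F so x) hq a
  rw [nm_sd L F so ho, h, map_zero, map_zero, LinearMap.zero_apply, add_zero] at this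
  exact this

theorem GP (a b s : ι) (x : M) : ∑ k, Γ a b k x * P s k x = Γ a b s x := by
  simp only [(F.pr x).symm s, L.proj]

/-- the symbol of the covariant derivative -/
theorem sy_ea : Sy I e P Γ B (c1 P Γ B) fun a x =>
    tp fun b => P b a x • ContinuousLinearMap.id ℝ X := by
  have s : ∀ a x, SA I (fun y => tp fun b => P b a y • ContinuousLinearMap.id ℝ X) x := fun a x =>
    sa_tp fun b => (F.sP b a x).smul contMDiffAt_const
  refine ⟨s, fun a x => ?_, fun a b x => ?_⟩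
  · ext1 v
    refine fm_ext fun s => ?_
    simp [smul_smul, ← sum_smul, (F.pr x).symm s, (F.pr x).idem]
  · ext1 v
    refine fm_ext fun k => ?_
    rw [nabH_eq a (s b x), PiLp.sub_apply, nab_tA ((s b x).app (u := fun _ => v) contMDiffAt_const)]
    simp only [tp_apply, smul_apply, ContinuousLinearMap.id_apply, smul_smul, ← sum_smul,
      Om_P L F, nab_smul a (F.sP k b x) (u := fun _ => v) contMDiffAt_const, L.met,
      _root_.sum_apply, WithLp.ofLp_sum, Finset.sum_apply, PiLp.smul_apply, GP L F]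
    simp only [nab, dv_const, Pi.zero_apply, zero_add, add_smul, neg_smul]
    abel

/-- the symbol of the exterior derivative on one-forms -/
theorem sy_wd2 : Sy I e P Γ (c1 P Γ B) (c2 P Γ B) fun a x => wd2 X (fun a b => P a b x) a := by
  have s : ∀ a x, SA I (fun y => wd2 X (fun a b => P a b y) a) x := fun a x =>
    sa_tp fun s => ((F.sP _ a x).smul contMDiffAt_const).sub ((F.sP _ a x).smul contMDiffAt_const)
  refine ⟨s, fun a x => ?_, fun a b x => ?_⟩
  · ext1 v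
    refine fm_ext fun s => ?_
    simp [wd2_apply, smul_sub, smul_smul, ← sum_smul, (F.pr x).symm s.1, (F.pr x).symm s.2,
      (F.pr x).idem]
  · ext1 v
    refine fm_ext fun t => ?_
    have k : ∀ (j : ι) (w : X), SA I (fun y => P j b y • w) x := fun j w =>
      (F.sP j b x).smul contMDiffAt_const
    rw [nabH_eq a (s b x), PiLp.sub_apply, nab_tA ((s b x).app (u := fun _ => v) contMDiffAt_const),
      Om2, kr, kron_sum]
    simp only [wd2_apply, smul_sub, smul_smul, sum_sub_distrib, ← sum_smul, Om_P L F,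
      nab_sub a (k _ _) (k _ _), fun j (w : X) => nab_smul (e := e) (A := B) a (F.sP j b x)
        (u := fun _ => w) contMDiffAt_const, L.met, tA_apply,
      _root_.sum_apply, WithLp.ofLp_sum, Finset.sum_apply, smul_apply, PiLp.smul_apply, GP L F,
      smul_add, smul_sum, mul_comm (P _ b x)]
    simp only [nab, dv_const, Pi.zero_apply, zero_add, add_smul, neg_smul]
    abel

/-! ### curvature terms -/

theorem curv_self {V : Type*} [NormedAddCommGroup V] [NormedSpace ℝ V] {A : ι → M → V →L[ℝ] V}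
    (hA : Con I P A) (a : ι) : curv I e c A a a x = 0 := by
  have h := L.curv_anti hA a a x
  have : (2 : ℝ) • curv I e c A a a x = 0 := by rw [two_smul]; exact add_eq_zero_iff_eq_neg.2 h
  exact (smul_eq_zero.1 this).resolve_left two_ne_zero

variable (S : Sep I e P)
include S

theorem Ric_symm (a b : ι) (x : M) : Ric I e c Γ a b x = Ric I e c Γ b a x :=
  sum_congr rfl fun k _ => by
    have h := L.curvT F S x
    have := h.pair k a b k
    have := h.s12 b k k a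
    have := h.s34 k b k a
    linarith

theorem Ric_eq' (a t : ι) (x : M) : ∑ b, Rm I e c Γ a b b t x = Ric I e c Γ a t x :=
  sum_congr rfl fun k _ => by rw [L.Rm_s12 F S, L.Rm_s34 F k, neg_neg]

theorem Ric_P (x : M) : ∑ a, ∑ k, Ric I e c Γ a k x * P a k x = scal I e c Γ x := by
  rw [Rf65.scal_eq]
  refine sum_congr rfl fun a _ => ?_
  simp only [Ric, sum_mul, (F.pr x).symm a]
  rw [sum_comm]
  exact sum_congr rfl fun b _ => L.Rm_p3 F b a a b x

theorem o_Rm {o : ι → ι → ι → ι → ℝ} (h : Vol (fun a b => P a b x) o) (k t : ι) :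
    ∑ a, ∑ b, ∑ j, o a k b j * Rm I e c Γ a b j t x = 0 := by
  have h1 : ∑ a, ∑ b, ∑ j, o a k b j * Rm I e c Γ b j a t x
      = ∑ a, ∑ b, ∑ j, o a k b j * Rm I e c Γ a b j t x := by
    rw [sum_comm]
    refine sum_congr rfl fun b _ => ?_
    rw [sum_comm]
    refine sum_congr rfl fun j _ => sum_congr rfl fun a _ => ?_
    have := h.a1 a k b j; have := h.a2 k a b j; have := h.a3 k b a j; have := h.a1 k b j a
    rw [show o a k b j = o b k j a by linarith]
  have h2 : ∑ a, ∑ b, ∑ j, o a k b j * Rm I e c Γ j a b t x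
      = ∑ a, ∑ b, ∑ j, o a k b j * Rm I e c Γ a b j t x := by
    symm
    rw [sum_comm]
    refine sum_congr rfl fun b _ => ?_
    rw [sum_comm]
    refine sum_congr rfl fun j _ => sum_congr rfl fun a _ => ?_
    have := h.a1 a k b j; have := h.a2 k a b j; have := h.a3 k b a j; have := h.a1 k b j a
    rw [show o a k b j = o b k j a by linarith]
  have h3 : ∑ a, ∑ b, ∑ j, (o a k b j * Rm I e c Γ a b j t x + o a k b j * Rm I e c Γ b j a t x
      + o a k b j * Rm I e c Γ j a b t x) = 0 := by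
    simp only [← mul_add, L.Rm_bi F S, mul_zero, sum_const_zero]
  simp only [sum_add_distrib, h1, h2] at h3
  linarith

/-- the curvature term on one-forms -/
theorem ric_term {o : ι → ι → ι → ι → ℝ} (h : Vol (fun a b => P a b x) o) (hB : Con I P B)
    (α : Fm ι X) {β : Fm ι X} (hβ : ∀ a, ∑ k, P a k x • β k = β a) :
    ∑ a, ∑ b, (⟪α a, curv I e c (c1 P Γ B) a b x β b⟫_ℝ
      + (P a b x * ⟪α, curv I e c (c1 P Γ B) a b x β⟫_ℝ - ⟪α b, curv I e c (c1 P Γ B) a b x β a⟫_ℝ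
        + ∑ k, ∑ j, o a k b j * ⟪α k, curv I e c (c1 P Γ B) a b x β j⟫_ℝ))
    = -2 * ∑ a, ∑ t, Ric I e c Γ a t x * ⟪α a, β t⟫_ℝ
      + 2 * ∑ a, ∑ b, ⟪α a, curv I e c B a b x (β b)⟫_ℝ
      + ∑ a, ∑ b, ∑ k, ∑ j, o a k b j * ⟪α k, curv I e c B a b x (β j)⟫_ℝ := by
  have hc := con_c1 L F S hB
  have h1 : ∑ a, ∑ b, P a b x * ⟪α, curv I e c (c1 P Γ B) a b x β⟫_ℝ = 0 := by
    refine sum_eq_zero fun a _ => ?_
    have k1 := L.curv_p2 F S hc a a x
    have k2 : curv I e c (c1 P Γ B) a a x β = 0 := by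
      rw [curv_self L F hc, zero_apply]
    have := congrArg (fun T : CL (Fm ι X) (Fm ι X) => ⟪α, T β⟫_ℝ) k1
    simpa only [k2, inner_zero_right, _root_.sum_apply, smul_apply, inner_sum,
      real_inner_smul_right] using this
  have h2 : ∑ a, ∑ b, ⟪α b, curv I e c (c1 P Γ B) a b x β a⟫_ℝ
      = -∑ a, ∑ b, ⟪α a, curv I e c (c1 P Γ B) a b x β b⟫_ℝ := by
    rw [sum_comm]
    simp only [← sum_neg_distrib]
    refine sum_congr rfl fun a _ => sum_congr rfl fun b _ => ?_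
    rw [L.curv_anti hc b a x, _root_.neg_apply, PiLp.neg_apply, inner_neg_right]
  have h3 : ∑ a, ∑ b, ∑ t, Rm I e c Γ a b b t x * ⟪α a, β t⟫_ℝ
      = ∑ a, ∑ t, Ric I e c Γ a t x * ⟪α a, β t⟫_ℝ :=
    sum_congr rfl fun a _ => by
      rw [sum_comm]; simp only [← sum_mul, Ric_eq' L F S]
  have h4 : ∑ a, ∑ b, ∑ k, ∑ j, ∑ t, o a k b j * (Rm I e c Γ a b j t x * ⟪α k, β t⟫_ℝ) = 0 := by
    have : ∑ k, ∑ t, (∑ a, ∑ b, ∑ j, o a k b j * Rm I e c Γ a b j t x) * ⟪α k, β t⟫_ℝ = 0 := by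
      simp only [o_Rm L F S h, zero_mul, sum_const_zero]
    rw [← this]
    simp only [sum_mul, mul_assoc]
    symm
    calc _ = ∑ k, ∑ a, ∑ b, ∑ j, ∑ t, o a k b j * (Rm I e c Γ a b j t x * ⟪α k, β t⟫_ℝ) := by
          refine sum_congr rfl fun k _ => ?_
          rw [sum_comm]
          refine sum_congr rfl fun a _ => ?_
          rw [sum_comm]
          exact sum_congr rfl fun b _ => sum_comm
      _ = _ := by
          rw [sum_comm]
          exact sum_congr rfl fun a _ => sum_comm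
  simp only [sum_add_distrib, sum_sub_distrib, h1, h2]
  simp only [curv_c1 L F (hB.sm · x) hβ, inner_sub_right, inner_sum, real_inner_smul_right,
    sum_sub_distrib, mul_sub, mul_sum, h3, h4]
  simp only [← mul_sum]
  ring

/-- the curvature term on pairs (function, self-dual form) -/
theorem sd_term {o : ι → ι → ι → ι → ℝ} (h : Vol (fun a b => P a b x) o) (hB : Con I P B)
    (ξ ξ' : X) {ζ η : Fm (ι × ι) X} (hζ : SD (fun a b => P a b x) o ζ)
    (hη : SD (fun a b => P a b x) o η) :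
    ∑ a, ∑ b, ∑ k, ⟪P k a x • ξ + (2 : ℝ) • ζ (a, k), P k b x • curv I e c B a b x ξ'
      + (2 : ℝ) • curv I e c (c2 P Γ B) a b x η (b, k)⟫_ℝ
    = -(scal I e c Γ x * ⟪ζ, η⟫_ℝ)
      - 4 * ∑ a, ∑ b, ∑ k, ∑ j, Rm I e c Γ a b k j x * ⟪ζ (a, k), η (b, j)⟫_ℝ
      + 4 * ∑ a, ∑ b, ∑ k, ⟪ζ (a, k), curv I e c B a b x (η (b, k))⟫_ℝ
      + 2 * ∑ a, ∑ b, (⟪ζ (a, b), curv I e c B a b x ξ'⟫_ℝ
        - ⟪ξ, curv I e c B a b x (η (a, b))⟫_ℝ) := by
  have hP := F.pr x
  have h1 : ∑ a, ∑ b, P a b x * ⟪ξ, curv I e c B a b x ξ'⟫_ℝ = 0 := by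
    refine sum_eq_zero fun a _ => ?_
    have := congrArg (fun T : X →L[ℝ] X => ⟪ξ, T ξ'⟫_ℝ) (L.curv_p2 F S hB a a x)
    simpa only [curv_self L F hB, zero_apply, inner_zero_right, _root_.sum_apply, smul_apply,
      inner_sum, real_inner_smul_right] using this
  have h2 : ∀ a b, ∑ k, P k a x • curv I e c (c2 P Γ B) a b x η (b, k)
      = -curv I e c B a b x (η (a, b)) - ∑ j, Rm I e c Γ a b b j x • η (j, a)
        + ∑ j, Rm I e c Γ a b j a x • η (b, j) := fun a b => by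
    have k0 : ∀ j, ∑ k, P k a x • η (j, k) = η (j, a) := fun j => by
      rw [← hη.pr' j a]; simp only [hP.symm _ a]
    have k1 : ∑ k, P k a x • ∑ j, Rm I e c Γ a b b j x • η (j, k)
        = ∑ j, Rm I e c Γ a b b j x • η (j, a) := by
      simp only [smul_sum]
      rw [sum_comm]
      exact sum_congr rfl fun j _ => by rw [← k0 j, smul_sum]; simp only [smul_comm (P _ a x)]
    have k2 : ∑ k, P k a x • ∑ j, Rm I e c Γ a b k j x • η (b, j)
        = -∑ j, Rm I e c Γ a b j a x • η (b, j) := by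
      simp only [smul_sum, smul_smul]
      rw [sum_comm, ← sum_neg_distrib]
      refine sum_congr rfl fun j _ => ?_
      simp only [← sum_smul, mul_comm (P _ a x), L.Rm_p3 F]
      rw [L.Rm_s34 F a b a j, neg_smul]
    simp only [curv_c2 L F (hB.sm · x) hη.pr hη.pr', smul_sub, sum_sub_distrib, k1, k2,
      ← map_smul, ← map_sum, k0]
    rw [hη.anti b a, map_neg, sub_neg_eq_add]
  have h3 : ∀ a b (v : X) (θ : ι → X), ∑ k, ⟪P k a x • ξ + (2 : ℝ) • ζ (a, k),
      P k b x • v + (2 : ℝ) • θ k⟫_ℝ = P a b x * ⟪ξ, v⟫_ℝ + 2 * ⟪ξ, ∑ k, P k a x • θ k⟫_ℝ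
        + 2 * ⟪ζ (a, b), v⟫_ℝ + 4 * ∑ k, ⟪ζ (a, k), θ k⟫_ℝ := fun a b v θ => by
    rw [← hζ.pr' a b, ← hP.idem a b]
    simp only [inner_add_left, inner_add_right, real_inner_smul_left, real_inner_smul_right,
      sum_inner, inner_sum, sum_mul, mul_sum, ← sum_add_distrib, hP.symm a, hP.symm b]
    exact sum_congr rfl fun k _ => by ring
  have h4 : ∑ a, ∑ j, Ric I e c Γ a j x * ⟪ξ, η (a, j)⟫_ℝ = 0 := by
    have : ∑ a, ∑ j, Ric I e c Γ a j x * ⟪ξ, η (a, j)⟫_ℝ
        = -∑ a, ∑ j, Ric I e c Γ a j x * ⟪ξ, η (a, j)⟫_ℝ := by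
      conv_lhs => rw [sum_comm]
      simp only [← sum_neg_distrib]
      refine sum_congr rfl fun a _ => sum_congr rfl fun j _ => ?_
      rw [hη.anti j a, Ric_symm L F S j a, inner_neg_right, mul_neg]
    linarith
  have h5 : ∑ a, ∑ b, ∑ j, Rm I e c Γ a b b j x * ⟪ξ, η (j, a)⟫_ℝ = 0 := by
    rw [← h4]
    conv_rhs => rw [sum_comm]
    refine sum_congr rfl fun a _ => ?_
    rw [sum_comm]
    simp only [← sum_mul, Ric_eq' L F S, Ric_symm L F S a]
  have h6 : ∑ a, ∑ b, ∑ j, Rm I e c Γ a b j a x * ⟪ξ, η (b, j)⟫_ℝ = 0 := by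
    rw [← h4, sum_comm]
    refine sum_congr rfl fun b _ => ?_
    rw [sum_comm]
    simp only [← sum_mul, Ric]
  have h7 : 4 * ∑ a, ∑ b, ∑ k, ∑ j, Rm I e c Γ a b b j x * ⟪ζ (a, k), η (j, k)⟫_ℝ
      = scal I e c Γ x * ⟪ζ, η⟫_ℝ := by
    have k1 : ∑ a, ∑ b, ∑ k, ∑ j, Rm I e c Γ a b b j x * ⟪ζ (a, k), η (j, k)⟫_ℝ
        = ∑ a, ∑ j, Ric I e c Γ a j x * ∑ k, ⟪ζ (a, k), η (j, k)⟫_ℝ := by
      refine sum_congr rfl fun a _ => ?_
      simp only [← Ric_eq' L F S, sum_mul, mul_sum]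
      rw [sum_comm]
      conv_rhs => rw [sum_comm]
      exact sum_congr rfl fun k _ => sum_comm
    have k2 : ∑ a, ∑ j, Ric I e c Γ a j x * ∑ k, ⟪ζ (a, k), η (j, k)⟫_ℝ
        = ∑ a, ∑ j, Ric I e c Γ a j x * ∑ k, ⟪ζ (j, k), η (a, k)⟫_ℝ := by
      rw [sum_comm]
      exact sum_congr rfl fun a _ => sum_congr rfl fun j _ => by rw [Ric_symm L F S]
    have k3 : ∑ a, ∑ j, Ric I e c Γ a j x * (∑ k, ⟪ζ (a, k), η (j, k)⟫_ℝ
        + ∑ k, ⟪ζ (j, k), η (a, k)⟫_ℝ) = scal I e c Γ x * ⟪ζ, η⟫_ℝ / 2 := by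
      simp only [h.quat hζ hη, ← inner_fm, ← Ric_P L F S, sum_mul, sum_div]
      exact sum_congr rfl fun _ _ => sum_congr rfl fun _ _ => by ring
    simp only [mul_add, sum_add_distrib] at k3
    linarith
  simp only [h3, h2]
  simp only [curv_c2 L F (hB.sm · x) hη.pr hη.pr', inner_add_right, inner_sub_right,
    inner_neg_right, inner_sum, real_inner_smul_right, sum_add_distrib, sum_sub_distrib,
    ← mul_sum, sum_neg_distrib, h1, h5, h6]
  linarith

end Crest.Agent.X212.Wz78
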