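import Crest.Agent.X212.Wz78.Kos
import Crest.Agent.X212.Wz78.On

/-! Self-duality and chirality of a spin^u module. -/

open scoped Manifold ContDiff Topology InnerProductSpace
open Finset Filter

set_option linter.unusedSectionVars false

noncomputable section
namespace Crest.Agent.X212.Wz78
open An

variable {E : Type} [NormedAddCommGroup E] [NormedSpace ℝ E] [FiniteDimensional ℝ E]
  [MeasurableSpace E] [BorelSpace E]
  {HM : Type} [TopologicalSpace HM] {I : ModelWithCorners ℝ E HM}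
  {M : Type} [TopologicalSpace M] [ChartedSpace HM M] [IsManifold I ∞ M]
  [MeasurableSpace M] {ι : Type} [Fintype ι] {lam : Type} [Fintype lam]
  {m : Md M ι lam} {B : Base M ι lam} {x : M}

section base
variable (hB : B.OK I)
include hB

theorem b_on (x : M) : ∃ U, On (fun a b => B.P a b x) (fun a b c d => B.o a b c d x) U :=
  exists_on (hB.pr x) (hB.rk x) (fun a b c d => hB.o12 a b c d x) (fun a b c d => hB.o23 a b c d x)
    (fun a b c d => hB.o34 a b c d x) (fun a b c d => hB.oP a b c d x) (hB.onm x)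

theorem o_pair (a b c d : ι) (x : M) : B.o a b c d x = B.o c d a b x := by
  rw [hB.o23, hB.o12, hB.o34, hB.o23]; ring

theorem oP2 (a b c d : ι) (x : M) : ∑ k, B.P b k x * B.o a k c d x = B.o a b c d x := by
  simp only [hB.o12 a, mul_neg, sum_neg_distrib, hB.oP]

theorem st_symm (x : M) (s t : ι × ι) : B.st x s t = B.st x t s := by
  rw [Base.st, Base.st, o_pair hB]

theorem a2_symm (x : M) (s t : ι × ι) : B.a2 x s t = B.a2 x t s := by
  rw [Base.a2, Base.a2, (hB.pr x).symm s.1 t.1, (hB.pr x).symm s.2 t.2, (hB.pr x).symm s.1 t.2,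
    (hB.pr x).symm s.2 t.1]; ring

theorem sd_symm (x : M) (s t : ι × ι) : B.sd x s t = B.sd x t s := by
  rw [Base.sd, Base.sd, st_symm hB, a2_symm hB]

omit hB in
theorem a2_swap (x : M) (s t : ι × ι) : B.a2 x s.swap t = -B.a2 x s t := by
  simp only [Base.a2, Prod.fst_swap, Prod.snd_swap]; ring

theorem st_swap (x : M) (s t : ι × ι) : B.st x s.swap t = -B.st x s t := by
  simp only [Base.st, Prod.fst_swap, Prod.snd_swap, hB.o12 s.2]; ring

theorem sd_swap (x : M) (s t : ι × ι) : B.sd x s.swap t = -B.sd x s t := by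
  simp only [Base.sd, a2_swap, st_swap hB]; ring

omit hB in
/-- `a2` fixes skew projected tensors. -/
theorem a2_fix {W : Type*} [AddCommGroup W] [Module ℝ W] {T : ι → ι → W}
    (h1 : ∀ a b, T a b = -T b a) (h2 : ∀ a b, ∑ k, B.P a k x • T k b = T a b) (s : ι × ι) :
    ∑ t, B.a2 x s t • T t.1 t.2 = T s.1 s.2 := by
  have h3 : ∀ a b, ∑ k, B.P b k x • T a k = T a b := fun a b => by
    simp only [h1 a, smul_neg, sum_neg_distrib, h2]
  have h4 : ∀ a b, ∑ k, ∑ l, (B.P a k x * B.P b l x) • T k l = T a b := fun a b => by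
    simp only [mul_smul, ← smul_sum, h3, h2]
  have h5 : ∑ k, ∑ l, (B.P s.1 l x * B.P s.2 k x) • T k l = -T s.1 s.2 := by
    simp only [mul_comm (B.P s.1 _ x), h4, h1 s.2]
  simp only [Base.a2, Fintype.sum_prod_type, div_eq_inv_mul, mul_smul (2⁻¹ : ℝ), ← smul_sum,
    sub_smul, sum_sub_distrib, h4, h5]
  module

theorem a2_st (x : M) (s t : ι × ι) : ∑ u, B.a2 x s u * B.st x u t = B.st x s t :=
  a2_fix (T := fun a b => B.st x (a, b) t) (fun a b => st_swap hB x (b, a) t)
    (fun a b => by simp only [Base.st, smul_eq_mul, ← mul_div_assoc, ← sum_div, hB.oP]) s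

theorem a2_a2 (x : M) (s t : ι × ι) : ∑ u, B.a2 x s u * B.a2 x u t = B.a2 x s t :=
  a2_fix (T := fun a b => B.a2 x (a, b) t) (fun a b => a2_swap x (b, a) t)
    (fun a b => by simp only [Base.a2, smul_eq_mul, ← mul_div_assoc, ← sum_div, mul_sub,
      sum_sub_distrib, ← mul_assoc, ← sum_mul, (hB.pr x).idem]) s

theorem st_a2 (x : M) (s t : ι × ι) : ∑ u, B.st x s u * B.a2 x u t = B.st x s t := by
  rw [st_symm hB, ← a2_st hB]
  exact sum_congr rfl fun u _ => by rw [st_symm hB, a2_symm hB, mul_comm]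

theorem st_st (x : M) (s t : ι × ι) : ∑ u, B.st x s u * B.st x u t = B.a2 x s t := by
  obtain ⟨U, h⟩ := b_on hB x
  have := h.vol_sq s.1 s.2 t.1 t.2
  simp only [← h.vol] at this
  simp only [fun u => st_symm hB x u t]
  simp only [Base.st, Base.a2, Fintype.sum_prod_type, div_mul_div_comm, ← sum_div, this]
  ring

theorem sd_sd (x : M) (s t : ι × ι) : ∑ u, B.sd x s u * B.sd x u t = B.sd x s t := by
  simp only [Base.sd, div_mul_div_comm, ← sum_div, add_mul, mul_add, sum_add_distrib, a2_a2 hB,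
    a2_st hB, st_a2 hB, st_st hB]
  ring

theorem st_sd (x : M) (s t : ι × ι) : ∑ u, B.st x s u * B.sd x u t = B.sd x s t := by
  simp only [Base.sd, ← mul_div_assoc, ← sum_div, mul_add, sum_add_distrib, st_a2 hB, st_st hB]
  ring

theorem a2_sd (x : M) (s t : ι × ι) : ∑ u, B.a2 x s u * B.sd x u t = B.sd x s t := by
  simp only [Base.sd, ← mul_div_assoc, ← sum_div, mul_add, sum_add_distrib, a2_a2 hB, a2_st hB]

omit hB in
theorem pg_mul_pg (x : M) : m.pg x * m.pg x = m.pg x := ContinuousLinearMap.ext (pg_pg x)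

theorem p1_p1 (η : Fm ι m.A) : m.p1 B x (m.p1 B x η) = m.p1 B x η := by
  simp only [Md.p1, idx_idx, pg_mul_pg, (hB.pr x).idem]

theorem p2_p2 (η : Fm (ι × ι) m.A) : m.p2 B x (m.p2 B x η) = m.p2 B x η := by
  simp only [Md.p2, idx_idx, pg_mul_pg, sd_sd hB]

theorem inner_p1 (η ζ : Fm ι m.A) : ⟪m.p1 B x η, ζ⟫_ℝ = ⟪η, m.p1 B x ζ⟫_ℝ :=
  inner_idx (hB.pr x).symm (inner_pg x) η ζ

theorem inner_p2 (η ζ : Fm (ι × ι) m.A) : ⟪m.p2 B x η, ζ⟫_ℝ = ⟪η, m.p2 B x ζ⟫_ℝ :=
  inner_idx (sd_symm hB x) (inner_pg x) η ζ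

omit hB in
theorem p1_mem (η : Fm ι m.A) (a : ι) : m.p1 B x η a ∈ m.gS x := by
  rw [Md.p1, idx_apply]; exact Submodule.sum_mem _ fun _ _ => Submodule.smul_mem _ _ (pg_mem x _)

omit hB in
theorem p2_mem (η : Fm (ι × ι) m.A) (s : ι × ι) : m.p2 B x η s ∈ m.gS x := by
  rw [Md.p2, idx_apply]; exact Submodule.sum_mem _ fun _ _ => Submodule.smul_mem _ _ (pg_mem x _)

end base

section om
variable (hB : B.OK I) (H : m.OK I B)
include H

theorem p_om (x : M) : m.p x * m.om B x = m.om B x := by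
  simp only [Md.om, mul_smul_comm, mul_sum, ← mul_assoc, (H.cl x).pl]

theorem om_p (x : M) : m.om B x * m.p x = m.om B x := by
  simp only [Md.om, smul_mul_assoc, sum_mul, mul_assoc, (H.cl x).pr]

omit H in
theorem om_comm {T : En (Fin m.N)} (h : ∀ a, T * m.ρ a x = m.ρ a x * T) :
    T * m.om B x = m.om B x * T := by
  have h4 : ∀ a b c d, T * (m.ρ a x * m.ρ b x * m.ρ c x * m.ρ d x)
      = m.ρ a x * m.ρ b x * m.ρ c x * m.ρ d x * T := fun a b c d =>
    (((Commute.mul_right (h a) (h b)).mul_right (h c)).mul_right (h d)).eq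
  simp only [Md.om, mul_smul_comm, smul_mul_assoc, mul_sum, sum_mul, h4]

omit H in
theorem pp_comm {T : En (Fin m.N)} (hp : T * m.p x = m.p x * T)
    (h : ∀ a, T * m.ρ a x = m.ρ a x * T) : T * m.pp B x = m.pp B x * T := by
  simp only [Md.pp, mul_smul_comm, smul_mul_assoc, mul_sub, sub_mul, hp, om_comm h]

omit H in
theorem pm_comm {T : En (Fin m.N)} (hp : T * m.p x = m.p x * T)
    (h : ∀ a, T * m.ρ a x = m.ρ a x * T) : T * m.pm B x = m.pm B x * T := by
  simp only [Md.pm, mul_smul_comm, smul_mul_assoc, mul_add, add_mul, hp, om_comm h]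

omit H in
theorem pp_add_pm (x : M) : m.pp B x + m.pm B x = m.p x := by
  simp only [Md.pp, Md.pm]; module

theorem p_pp (x : M) : m.p x * m.pp B x = m.pp B x := by
  simp only [Md.pp, mul_smul_comm, mul_sub, H.pidem, p_om H]

theorem p_pm (x : M) : m.p x * m.pm B x = m.pm B x := by
  simp only [Md.pm, mul_smul_comm, mul_add, H.pidem, p_om H]

theorem pp_p (x : M) : m.pp B x * m.p x = m.pp B x := by
  simp only [Md.pp, smul_mul_assoc, sub_mul, H.pidem, om_p H]

theorem pm_p (x : M) : m.pm B x * m.p x = m.pm B x := by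
  simp only [Md.pm, smul_mul_assoc, add_mul, H.pidem, om_p H]

theorem J_pp (x : M) : m.J * m.pp B x = m.pp B x * m.J := pp_comm (H.Jp x) fun a => H.Jρ a x

theorem J_pm (x : M) : m.J * m.pm B x = m.pm B x * m.J := pm_comm (H.Jp x) fun a => H.Jρ a x

theorem j_p (x : M) (s : Eu lam) : m.j x s * m.p x = m.j x s := by
  have := congrArg trn (H.pj x s)
  rwa [trn_mul, Sym.trn (H.jsym x s), Sym.trn (H.psym x)] at this

theorem j_pp (x : M) (s : Eu lam) : m.j x s * m.pp B x = m.pp B x * m.j x s :=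
  pp_comm (by rw [j_p H, H.pj]) fun a => H.jρ a x s

theorem j_pm (x : M) (s : Eu lam) : m.j x s * m.pm B x = m.pm B x * m.j x s :=
  pm_comm (by rw [j_p H, H.pj]) fun a => H.jρ a x s

theorem g_pp {ξ : m.A} (h : ξ ∈ m.gS x) : opL ξ * m.pp B x = m.pp B x * opL ξ :=
  pp_comm (by rw [g_p' H h, g_p h]) fun a => (g_ρ h a).symm

theorem g_pm {ξ : m.A} (h : ξ ∈ m.gS x) : opL ξ * m.pm B x = m.pm B x * opL ξ :=
  pm_comm (by rw [g_p' H h, g_p h]) fun a => (g_ρ h a).symm

theorem sm_om (hB : B.OK I) : Sm I (m.om B) := fun x =>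
  SA.smul contMDiffAt_const (SA.sum _ fun a _ => SA.sum _ fun b _ => SA.sum _ fun c _ =>
    SA.sum _ fun d _ => SA.smul (hB.so a b c d x)
      (SA.mul (SA.mul (SA.mul (H.sρ a x) (H.sρ b x)) (H.sρ c x)) (H.sρ d x)))

theorem sm_pp (hB : B.OK I) : Sm I (m.pp B) := fun x =>
  SA.smul contMDiffAt_const ((H.sp x).sub (sm_om H hB x))

theorem sm_pm (hB : B.OK I) : Sm I (m.pm B) := fun x =>
  SA.smul contMDiffAt_const ((H.sp x).add (sm_om H hB x))

include hB

theorem om_om (x : M) : m.om B x * m.om B x = m.p x :=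
  (b_on hB x).elim fun _ h => h.om_om (H.cl x)

theorem om_rho (a : ι) (x : M) : m.om B x * m.ρ a x = -(m.ρ a x * m.om B x) :=
  (b_on hB x).elim fun _ h => h.om_rho (H.cl x) a

theorem om_sym (x : M) : Sym (m.om B x) := fun v w => by
  obtain ⟨U, h⟩ := b_on hB x
  have D := h.cl4 (H.cl x)
  have hs : ∀ i, Skw (rr U (fun a => m.ρ a x) i) := fun i v w => by
    simp only [rr, _root_.sum_apply, smul_apply, sum_inner, inner_sum, real_inner_smul_left,
      real_inner_smul_right, H.ρsk _ x v, mul_neg, sum_neg_distrib]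
  have e : rr U (fun a => m.ρ a x) 3 * (rr U (fun a => m.ρ a x) 2 * (rr U (fun a => m.ρ a x) 1 *
      rr U (fun a => m.ρ a x) 0)) = Ind95.om (rr U fun a => m.ρ a x) := by
    simp only [D.anti 1 0 (by decide), D.anti 2 1 (by decide), D.anti 3 2 (by decide), D.s20,
      D.s30, D.s31, mul_neg, neg_neg, Ind95.om]
  rw [show m.om B x = _ from h.om_eq (H.cl x)]
  conv_rhs => rw [← e]
  simp only [Ind95.om, mul_apply_eq_comp, hs _ _, neg_neg]

theorem pp_sym (x : M) : Sym (m.pp B x) := fun v w => by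
  simp only [Md.pp, smul_apply, sub_apply, real_inner_smul_left, real_inner_smul_right,
    inner_sub_left, inner_sub_right, H.psym x v, om_sym hB H x v]

theorem pm_sym (x : M) : Sym (m.pm B x) := fun v w => by
  simp only [Md.pm, smul_apply, add_apply, real_inner_smul_left, real_inner_smul_right,
    inner_add_left, inner_add_right, H.psym x v, om_sym hB H x v]

theorem om_pp (x : M) : m.om B x * m.pp B x = -m.pp B x := by
  simp only [Md.pp, mul_smul_comm, mul_sub, om_p H, om_om hB H]; module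

theorem om_pm (x : M) : m.om B x * m.pm B x = m.pm B x := by
  simp only [Md.pm, mul_smul_comm, mul_add, om_p H, om_om hB H, add_comm]

theorem pp_pp (x : M) : m.pp B x * m.pp B x = m.pp B x := by
  nth_rewrite 1 [Md.pp]
  rw [smul_mul_assoc, sub_mul, p_pp H, om_pp hB H]; module

theorem pm_pm (x : M) : m.pm B x * m.pm B x = m.pm B x := by
  nth_rewrite 1 [Md.pm]
  rw [smul_mul_assoc, add_mul, p_pm H, om_pm hB H]; module

theorem pm_pp (x : M) : m.pm B x * m.pp B x = 0 := by
  rw [Md.pm, smul_mul_assoc, add_mul, p_pp H, om_pp hB H]; simp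

theorem pp_pm (x : M) : m.pp B x * m.pm B x = 0 := by
  rw [Md.pp, smul_mul_assoc, sub_mul, p_pm H, om_pm hB H]; simp

theorem pp_rho (a : ι) (x : M) : m.pp B x * m.ρ a x = m.ρ a x * m.pm B x := by
  simp only [Md.pp, Md.pm, smul_mul_assoc, mul_smul_comm, sub_mul, mul_add, (H.cl x).pl,
    (H.cl x).pr, om_rho hB H, sub_neg_eq_add]

theorem pm_rho (a : ι) (x : M) : m.pm B x * m.ρ a x = m.ρ a x * m.pp B x := by
  simp only [Md.pp, Md.pm, smul_mul_assoc, mul_smul_comm, add_mul, mul_sub, (H.cl x).pl,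
    (H.cl x).pr, om_rho hB H, ← sub_eq_add_neg]

theorem pp_rho2 (a b : ι) (x : M) :
    m.pp B x * (m.ρ a x * m.ρ b x) = m.ρ a x * m.ρ b x * m.pp B x := by
  rw [← mul_assoc, pp_rho hB H, mul_assoc, pm_rho hB H, mul_assoc]

end om

end Crest.Agent.X212.Wz78
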